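-- KEEP
import Claimed.Prelude.Def_0424

/-!
# Row 256 (LS paper = critical local smoothing in R^3), TOP LAYER, definitions      (architect helper163; prefix `ls_`)

Lean normalisation of the Fourier transform: `e^{-2 pi i <x, eta>}`;  the half wave has the symbol `e^{2 pi i t |eta|}`.
* `stμ`       the space-time measure `dx dt` on `R^3 x [1,2]`
* `wsym t`    the symbol of the half wave
* `wop m g`   the half wave of `m(D) g`  as a function on space-time
* `jm a`      the Bessel symbol `(1 + 4 pi^2 |eta|^2)^(a/2)`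
* `cut s`     smooth radial cutoff: `1` on `|eta| <= s`, `0` on `|eta| >= sqrt 2 s`
* `ann s = cut (2s) - cut s`   (support `s <= |eta| <= 2 sqrt 2 s`),     `fat s = cut (4s) - cut (s/2)`   (`= 1` on the support of `ann s`)
* `Annular`   CONTRACT L1/L2 = Proposition phys-annular (09 l.37) for the ONE symbol family `fat (2^n)`.
-/

set_option autoImplicit false

namespace Claimed.Agent.R256

open MeasureTheory Complex
open scoped FourierTransform Real SchwartzMap

abbrev E3 : Type := EuclideanSpace ℝ (Fin 3)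

/-- the space-time measure -/
noncomputable def stμ : Measure (E3 × ℝ) := (volume : Measure E3).prod (volume.restrict (Set.Icc (1 : ℝ) 2))

/-- the symbol of the half wave -/
noncomputable def wsym (t : ℝ) (η : E3) : ℂ := Complex.exp (2 * Real.pi * Complex.I * ((t * ‖η‖ : ℝ) : ℂ))

/-- the half wave of `m(D) g` -/
noncomputable def wop (m : E3 → ℂ) (g : E3 → ℂ) (z : E3 × ℝ) : ℂ := 𝓕⁻ (fun η : E3 => wsym z.2 η * (m η * 𝓕 g η)) z.1

/-- the Bessel symbol of order `a` -/
noncomputable def jm (a : ℝ) (η : E3) : ℝ := (1 + 4 * Real.pi ^ 2 * ‖η‖ ^ 2) ^ (a / 2)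

/-- smooth radial cutoff at radius `s` -/
noncomputable def cut (s : ℝ) (η : E3) : ℝ := Real.smoothTransition (2 - ‖η‖ ^ 2 / s ^ 2)

/-- the annulus `s ≤ |η| ≤ 2 √2 s` -/
noncomputable def ann (s : ℝ) (η : E3) : ℝ := cut (2 * s) η - cut s η

/-- the fat annulus -/
noncomputable def fat (s : ℝ) (η : E3) : ℝ := cut (4 * s) η - cut (s / 2) η

/-- **CONTRACT (Proposition phys-annular)** : the annular estimate with arbitrarily small loss -/
def Annular : Prop :=
  ∀ δ : ℝ, 0 < δ → ∃ C : ℝ, ∀ (n : ℕ) (g : 𝓢(E3, ℂ)),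
    eLpNorm (wop (fun η => (fat (2 ^ n) η : ℂ)) g) 3 stμ ≤ ENNReal.ofReal (C * 2 ^ (δ * n)) * eLpNorm g 3 volume

theorem ls_defs_eqns_cite : True := by
  have := @stμ.eq_1
  have := @wsym.eq_1
  have := @wop.eq_1
  have := @jm.eq_1
  have := @cut.eq_1
  have := @ann.eq_1
  have := @fat.eq_1
  have := @Annular.eq_1
  trivial

end Claimed.Agent.R256
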