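-- KEEP
import Claimed.Agent.R256.Top.Defs
import Claimed.Agent.R255.BR.Conv
import Claimed.Agent.R255.BR.Grid

/-!
# Row 256 (LS paper), TOP LAYER L2, tools : waves with a given spectrum, kernels, symmetries      (architect helper163; prefix `ls_`)

`wk F (x,t) = ∫ e^{2π i (<η,x> + t|η|)} F η dη`  = the half wave with spectrum `F`.     `wop m g = wk (m · 𝓕 g)`,    kernel of `wop m` at time `t` : `wk m (·, t)`.
Every `sorry` is a leaf (Mathlib + `R255/BR/{Tools,Split,Conv,Grid}` only, these are FROZEN: import, never edit).  EDIT IN PLACE, statements are frozen.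
Useful: `R255.BR.fourierInv_ee`, `R255.BR.fourier_ee` (normal forms of `𝓕⁻`, `𝓕`), `R255.BR.br_conv_aux` (pattern for `ls_wop_conv`), `norm_ee`, `continuous_ee`, `ee_add_eq`.
-/

set_option autoImplicit false

namespace Claimed.Agent.R256

open MeasureTheory Complex Claimed.Agent.R255.BR
open scoped FourierTransform Real SchwartzMap InnerProductSpace ENNReal

/-- the half wave with spectrum `F` -/
noncomputable def wk (F : E3 → ℂ) (z : E3 × ℝ) : ℂ := 𝓕⁻ (fun η : E3 => wsym z.2 η * F η) z.1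

/-- the angular cutoff: `0` for `s ≤ -1/2`, `1` for `s ≥ 1/2` -/
noncomputable def chi (s : ℝ) : ℝ := Real.smoothTransition (s + 1 / 2)

/-- the patch symbol: `fat s` cut to the cone `η₃ ≤ |η|/2`  (there `ρ = (|η| - η₃)/2 ≥ |η|/4`; with this sign the null coordinates are those of the paper: `t = τ + x₃`, `y = τ - x₃`) -/
noncomputable def pat (s : ℝ) (η : E3) : ℝ := fat s η * chi (-(η 2) / ‖η‖)

/-- the local space-time measure: `|x| ≤ 1`, `1 ≤ t ≤ 2` -/
noncomputable def locμ : Measure (E3 × ℝ) := stμ.restrict (Metric.closedBall (0 : E3) 1 ×ˢ Set.univ)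

theorem ls_ker_eqns_cite : True := by
  have := @wk.eq_1
  have := @chi.eq_1
  have := @pat.eq_1
  have := @locμ.eq_1
  trivial

/-! ### K1 : the wave with spectrum `F` -/

theorem ls_wsym_ee (t : ℝ) (η : E3) : wsym t η = ee (t * ‖η‖) := by
  unfold wsym ee
  congr 1
  push_cast
  ring

theorem ls_wop_eq (m g : E3 → ℂ) (z : E3 × ℝ) : wop m g z = wk (fun η => m η * 𝓕 g η) z := rfl

/-- normal form (`fourierInv_ee`, `ee_add_eq`) -/
theorem ls_wk_eq (F : E3 → ℂ) (z : E3 × ℝ) : wk F z = ∫ η, ee (⟪η, z.1⟫_ℝ + z.2 * ‖η‖) * F η := by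
  unfold wk
  rw [fourierInv_ee]
  refine integral_congr_ae (Filter.Eventually.of_forall fun η => ?_)
  show ee ⟪η, z.1⟫_ℝ * (wsym z.2 η * F η) = ee (⟪η, z.1⟫_ℝ + z.2 * ‖η‖) * F η
  rw [ls_wsym_ee, ee_add_eq, mul_assoc]

theorem ls_wk_le (F : E3 → ℂ) (z : E3 × ℝ) : ‖wk F z‖ ≤ ∫ η, ‖F η‖ := by
  rw [ls_wk_eq]
  refine (norm_integral_le_integral_norm _).trans (le_of_eq ?_)
  refine integral_congr_ae (Filter.Eventually.of_forall fun η => ?_)
  show ‖ee (⟪η, z.1⟫_ℝ + z.2 * ‖η‖) * F η‖ = ‖F η‖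
  rw [norm_mul, norm_ee, one_mul]

/-- (`continuous_of_dominated`) -/
theorem ls_wk_cont {F : E3 → ℂ} (hF : Integrable F) : Continuous (wk F) := by
  have h : wk F = fun z : E3 × ℝ => ∫ η, ee (⟪η, z.1⟫_ℝ + z.2 * ‖η‖) * F η := funext (ls_wk_eq F)
  rw [h]
  refine continuous_of_dominated (bound := fun η => ‖F η‖) (fun z => ?_) (fun z => ?_) hF.norm ?_
  · refine (continuous_ee.comp ?_).aestronglyMeasurable.mul hF.1
    exact (continuous_id.inner continuous_const).add (continuous_const.mul continuous_norm)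
  · refine Filter.Eventually.of_forall fun η => ?_
    rw [norm_mul, norm_ee, one_mul]
  · refine Filter.Eventually.of_forall fun η => ?_
    refine (continuous_ee.comp ?_).mul continuous_const
    exact (continuous_const.inner continuous_fst).add (continuous_snd.mul continuous_const)

theorem ls_wk_int {F : E3 → ℂ} (hF : Integrable F) (z : E3 × ℝ) :
    Integrable fun η : E3 => ee (⟪η, z.1⟫_ℝ + z.2 * ‖η‖) * F η := by
  refine hF.bdd_mul (c := 1) ?_ (Filter.Eventually.of_forall fun η => (norm_ee _).le)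
  refine (continuous_ee.comp ?_).aestronglyMeasurable
  exact (continuous_id.inner continuous_const).add (continuous_const.mul continuous_norm)

theorem ls_wk_add {F G : E3 → ℂ} (hF : Integrable F) (hG : Integrable G) (z : E3 × ℝ) :
    wk (fun η => F η + G η) z = wk F z + wk G z := by
  rw [ls_wk_eq, ls_wk_eq, ls_wk_eq, ← integral_add (ls_wk_int hF z) (ls_wk_int hG z)]
  refine integral_congr_ae (Filter.Eventually.of_forall fun η => ?_)
  show ee (⟪η, z.1⟫_ℝ + z.2 * ‖η‖) * (F η + G η) = _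
  rw [mul_add]

theorem ls_wk_smul (c : ℂ) (F : E3 → ℂ) (z : E3 × ℝ) : wk (fun η => c * F η) z = c * wk F z := by
  rw [ls_wk_eq, ls_wk_eq, ← integral_const_mul]
  refine integral_congr_ae (Filter.Eventually.of_forall fun η => ?_)
  show ee (⟪η, z.1⟫_ℝ + z.2 * ‖η‖) * (c * F η) = c * (ee (⟪η, z.1⟫_ℝ + z.2 * ‖η‖) * F η)
  ring

/-- dilations (`Measure.integral_comp_smul`, `finrank = 3`) -/
theorem ls_wk_scale (F : E3 → ℂ) {s : ℝ} (hs : 0 < s) (x : E3) (t : ℝ) :
    wk (fun η => F (s⁻¹ • η)) (x, t) = (s : ℂ) ^ 3 * wk F (s • x, s * t) := by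
  rw [ls_wk_eq, ls_wk_eq]
  have h := Measure.integral_comp_smul (volume : Measure E3)
    (fun ζ : E3 => ee (⟪ζ, s • x⟫_ℝ + s * t * ‖ζ‖) * F ζ) s⁻¹
  have hfr : Module.finrank ℝ E3 = 3 := by simp
  rw [hfr] at h
  have e1 : ∀ η : E3, ee (⟪η, x⟫_ℝ + t * ‖η‖) * F (s⁻¹ • η)
      = ee (⟪s⁻¹ • η, s • x⟫_ℝ + s * t * ‖s⁻¹ • η‖) * F (s⁻¹ • η) := by
    intro η
    rw [real_inner_smul_left, real_inner_smul_right, norm_smul, Real.norm_eq_abs, abs_of_pos (inv_pos.2 hs)]
    congr 2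
    field_simp
  show ∫ η, ee (⟪η, x⟫_ℝ + t * ‖η‖) * F (s⁻¹ • η) = (s : ℂ) ^ 3 * ∫ η, ee (⟪η, s • x⟫_ℝ + s * t * ‖η‖) * F η
  rw [integral_congr_ae (Filter.Eventually.of_forall e1), h]
  have e2 : |((s⁻¹) ^ 3)⁻¹| = s ^ 3 := by
    rw [inv_pow, inv_inv, abs_of_pos (pow_pos hs 3)]
  rw [e2, Complex.real_smul]
  push_cast
  rfl

/-! ### K2 : the operator on `L¹` data -/

theorem ls_fou_le {g : E3 → ℂ} (η : E3) : ‖𝓕 g η‖ ≤ ∫ x, ‖g x‖ := by
  rw [fourier_ee]
  refine (norm_integral_le_integral_norm _).trans (le_of_eq ?_)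
  refine integral_congr_ae (Filter.Eventually.of_forall fun x => ?_)
  show ‖ee (-⟪x, η⟫_ℝ) * g x‖ = ‖g x‖
  rw [norm_mul, norm_ee, one_mul]

theorem ls_fou_cont {g : E3 → ℂ} (hg : Integrable g) : Continuous (𝓕 g) := by
  have h : 𝓕 g = fun η : E3 => ∫ x, ee (-⟪x, η⟫_ℝ) * g x := funext (fourier_ee g)
  rw [h]
  refine continuous_of_dominated (bound := fun x => ‖g x‖) (fun η => ?_) (fun η => ?_) hg.norm ?_
  · refine (continuous_ee.comp ?_).aestronglyMeasurable.mul hg.1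
    exact (continuous_id.inner continuous_const).neg
  · refine Filter.Eventually.of_forall fun x => ?_
    rw [norm_mul, norm_ee, one_mul]
  · refine Filter.Eventually.of_forall fun x => ?_
    refine (continuous_ee.comp ?_).mul continuous_const
    exact (continuous_const.inner continuous_id).neg

theorem ls_mF_int {m g : E3 → ℂ} (hm : CK m) (hg : Integrable g) : Integrable (fun η => m η * 𝓕 g η) := by
  exact (hm.cont.mul (ls_fou_cont hg)).integrable_of_hasCompactSupport hm.supp.mul_right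

theorem ls_wop_cont' {m g : E3 → ℂ} (hm : CK m) (hg : Integrable g) : Continuous (wop m g) :=
  ls_wk_cont (ls_mF_int hm hg)

/-- `|wop m g| ≤ ‖m‖₁ ‖g‖₁` -/
theorem ls_wop_le {m g : E3 → ℂ} (hm : CK m) (z : E3 × ℝ) : ‖wop m g z‖ ≤ (∫ η, ‖m η‖) * ∫ x, ‖g x‖ := by
  rw [ls_wop_eq]
  refine (ls_wk_le _ z).trans ?_
  rw [← integral_mul_const]
  refine integral_mono_of_nonneg (Filter.Eventually.of_forall fun η => norm_nonneg _)
    ((hm.cont.integrable_of_hasCompactSupport hm.supp).norm.mul_const _) (Filter.Eventually.of_forall fun η => ?_)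
  show ‖m η * 𝓕 g η‖ ≤ ‖m η‖ * ∫ x, ‖g x‖
  rw [norm_mul]
  exact mul_le_mul_of_nonneg_left (ls_fou_le η) (norm_nonneg _)

/-- the kernel representation (Fubini; pattern `R255.BR.br_conv_aux`) -/
theorem ls_wop_conv {m g : E3 → ℂ} (hm : CK m) (hg : Integrable g) (z : E3 × ℝ) :
    wop m g z = ∫ y, wk m (z.1 - y, z.2) * g y := by
  rw [ls_wop_eq, ls_wk_eq]
  simp only [ls_wk_eq, fourier_ee]
  have hL : ∀ η : E3, ee (⟪η, z.1⟫_ℝ + z.2 * ‖η‖) * (m η * ∫ y, ee (-⟪y, η⟫_ℝ) * g y)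
      = ∫ y, ee (⟪η, z.1 - y⟫_ℝ + z.2 * ‖η‖) * (m η * g y) := fun η => by
    rw [← integral_const_mul, ← integral_const_mul]
    refine integral_congr_ae (Filter.Eventually.of_forall fun y => ?_)
    show ee (⟪η, z.1⟫_ℝ + z.2 * ‖η‖) * (m η * (ee (-⟪y, η⟫_ℝ) * g y)) = ee (⟪η, z.1 - y⟫_ℝ + z.2 * ‖η‖) * (m η * g y)
    rw [inner_sub_right, ee_add_eq, ee_add_eq, sub_eq_add_neg, ee_add_eq, real_inner_comm y η]
    ring
  have hR : ∀ y : E3, (∫ η, ee (⟪η, z.1 - y⟫_ℝ + z.2 * ‖η‖) * m η) * g y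
      = ∫ η, ee (⟪η, z.1 - y⟫_ℝ + z.2 * ‖η‖) * (m η * g y) := fun y => by
    rw [← integral_mul_const]
    refine integral_congr_ae (Filter.Eventually.of_forall fun η => ?_)
    show ee (⟪η, z.1 - y⟫_ℝ + z.2 * ‖η‖) * m η * g y = _
    ring
  simp only [hL, hR]
  refine integral_integral_swap ?_
  have h1 : Integrable (fun w : E3 × E3 => m w.1 * g w.2) (volume.prod volume) :=
    (hm.cont.integrable_of_hasCompactSupport hm.supp).mul_prod hg
  refine h1.bdd_mul (c := 1) ?_ ?_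
  · refine (continuous_ee.comp ?_).aestronglyMeasurable
    exact (continuous_fst.inner (continuous_const.sub continuous_snd)).add (continuous_const.mul continuous_fst.norm)
  · exact Filter.Eventually.of_forall fun w => (norm_ee _).le

theorem ls_fou_int {g : E3 → ℂ} (hg : Integrable g) (η : E3) : Integrable fun x : E3 => ee (-⟪x, η⟫_ℝ) * g x := by
  refine hg.bdd_mul (c := 1) ?_ (Filter.Eventually.of_forall fun x => (norm_ee _).le)
  exact (continuous_ee.comp (continuous_id.inner continuous_const).neg).aestronglyMeasurable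

theorem ls_fou_add {g₁ g₂ : E3 → ℂ} (h₁ : Integrable g₁) (h₂ : Integrable g₂) (η : E3) :
    𝓕 (fun x => g₁ x + g₂ x) η = 𝓕 g₁ η + 𝓕 g₂ η := by
  rw [fourier_ee, fourier_ee, fourier_ee, ← integral_add (ls_fou_int h₁ η) (ls_fou_int h₂ η)]
  refine integral_congr_ae (Filter.Eventually.of_forall fun x => ?_)
  show ee (-⟪x, η⟫_ℝ) * (g₁ x + g₂ x) = _
  rw [mul_add]

theorem ls_wop_gadd {m g₁ g₂ : E3 → ℂ} (hm : CK m) (h₁ : Integrable g₁) (h₂ : Integrable g₂) (z : E3 × ℝ) :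
    wop m (fun x => g₁ x + g₂ x) z = wop m g₁ z + wop m g₂ z := by
  rw [ls_wop_eq, ls_wop_eq, ls_wop_eq, ← ls_wk_add (ls_mF_int hm h₁) (ls_mF_int hm h₂)]
  congr 1
  funext η
  rw [ls_fou_add h₁ h₂, mul_add]

theorem ls_wop_gsum {ι : Type*} (s : Finset ι) {m : E3 → ℂ} {g : ι → E3 → ℂ} (hm : CK m) (h : ∀ i ∈ s, Integrable (g i))
    (z : E3 × ℝ) : wop m (fun x => ∑ i ∈ s, g i x) z = ∑ i ∈ s, wop m (g i) z := by
  classical
  induction s using Finset.induction_on with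
  | empty =>
    simp only [Finset.sum_empty]
    rw [ls_wop_eq, ls_wk_eq]
    have e : ∀ η : E3, 𝓕 (fun _ : E3 => (0 : ℂ)) η = 0 := fun η => by
      rw [fourier_ee]
      simp
    simp [e]
  | insert i s hi ih =>
    have h1 : Integrable (g i) := h i (Finset.mem_insert_self i s)
    have h2 : ∀ j ∈ s, Integrable (g j) := fun j hj => h j (Finset.mem_insert_of_mem hj)
    simp only [Finset.sum_insert hi]
    rw [ls_wop_gadd hm h1 (integrable_finsetSum s h2), ih h2]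

theorem ls_wop_madd {m₁ m₂ g : E3 → ℂ} (h₁ : CK m₁) (h₂ : CK m₂) (hg : Integrable g) (z : E3 × ℝ) :
    wop (fun η => m₁ η + m₂ η) g z = wop m₁ g z + wop m₂ g z := by
  rw [ls_wop_eq, ls_wop_eq, ls_wop_eq, ← ls_wk_add (ls_mF_int h₁ hg) (ls_mF_int h₂ hg)]
  congr 1
  funext η
  rw [add_mul]

theorem ls_wop_congr_ae (m : E3 → ℂ) {g₁ g₂ : E3 → ℂ} (h : g₁ =ᵐ[volume] g₂) : wop m g₁ = wop m g₂ := by
  have e : 𝓕 g₁ = 𝓕 g₂ := by
    funext η
    rw [fourier_ee, fourier_ee]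
    refine integral_congr_ae ?_
    filter_upwards [h] with x hx
    rw [hx]
  funext z
  rw [ls_wop_eq, ls_wop_eq, e]

/-- translations (no integrability needed: `integral_add_right_eq_self`, `fourier_ee`, `fourierInv_ee`) -/
theorem ls_wop_trans (m g : E3 → ℂ) (a : E3) (z : E3 × ℝ) : wop m (fun x => g (x + a)) z = wop m g (z.1 + a, z.2) := by
  have e : ∀ η : E3, 𝓕 (fun x => g (x + a)) η = ee ⟪a, η⟫_ℝ * 𝓕 g η := by
    intro η
    rw [fourier_ee, fourier_ee, ← integral_const_mul,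
      ← integral_add_right_eq_self (fun x => ee ⟪a, η⟫_ℝ * (ee (-⟪x, η⟫_ℝ) * g x)) a]
    refine integral_congr_ae (Filter.Eventually.of_forall fun x => ?_)
    show ee (-⟪x, η⟫_ℝ) * g (x + a) = ee ⟪a, η⟫_ℝ * (ee (-⟪x + a, η⟫_ℝ) * g (x + a))
    rw [← mul_assoc, ← ee_add_eq, inner_add_left]
    congr 2
    ring
  rw [ls_wop_eq, ls_wop_eq, ls_wk_eq, ls_wk_eq]
  refine integral_congr_ae (Filter.Eventually.of_forall fun η => ?_)
  show ee (⟪η, z.1⟫_ℝ + z.2 * ‖η‖) * (m η * 𝓕 (fun x => g (x + a)) η) = ee (⟪η, z.1 + a⟫_ℝ + z.2 * ‖η‖) * (m η * 𝓕 g η)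
  rw [e, inner_add_right, add_right_comm, ee_add_eq _ ⟪η, a⟫_ℝ, real_inner_comm a η]
  ring

/-- linear isometries (`Real.fourierIntegral_comp_linearIsometry`, `LinearIsometryEquiv.measurePreserving`) -/
theorem ls_wop_iso (A : E3 ≃ₗᵢ[ℝ] E3) (m g : E3 → ℂ) (z : E3 × ℝ) :
    wop (fun η => m (A η)) g z = wop m (fun x => g (A.symm x)) (A z.1, z.2) := by
  have e : ∀ ζ : E3, 𝓕 (fun x => g (A.symm x)) (A ζ) = 𝓕 g ζ := by
    intro ζ
    rw [fourier_ee, fourier_ee,
      ← (A.measurePreserving).integral_comp A.toHomeomorph.measurableEmbedding (fun x => ee (-⟪x, A ζ⟫_ℝ) * g (A.symm x))]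
    refine integral_congr_ae (Filter.Eventually.of_forall fun x => ?_)
    show ee (-⟪A x, A ζ⟫_ℝ) * g (A.symm (A x)) = ee (-⟪x, ζ⟫_ℝ) * g x
    rw [A.inner_map_map, A.symm_apply_apply]
  rw [ls_wop_eq, ls_wop_eq, ls_wk_eq, ls_wk_eq,
    ← (A.measurePreserving).integral_comp A.toHomeomorph.measurableEmbedding
      (fun η => ee (⟪η, ((A z.1, z.2) : E3 × ℝ).1⟫_ℝ + ((A z.1, z.2) : E3 × ℝ).2 * ‖η‖) * (m η * 𝓕 (fun x => g (A.symm x)) η))]
  refine integral_congr_ae (Filter.Eventually.of_forall fun η => ?_)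
  show ee (⟪η, z.1⟫_ℝ + z.2 * ‖η‖) * (m (A η) * 𝓕 g η) = ee (⟪A η, A z.1⟫_ℝ + z.2 * ‖A η‖) * (m (A η) * 𝓕 (fun x => g (A.symm x)) (A η))
  rw [e, A.inner_map_map, A.norm_map]

/-! ### K3 : the symbols -/

theorem ls_chi_add (s : ℝ) : chi s + chi (-s) = 1 := by
  unfold chi Real.smoothTransition
  have e1 : 1 - (s + 1 / 2) = -s + 1 / 2 := by ring
  have e2 : 1 - (-s + 1 / 2) = s + 1 / 2 := by ring
  have hp := Real.smoothTransition.pos_denom (s + 1 / 2)
  rw [e1] at hp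
  rw [e1, e2, add_comm (expNegInvGlue (-s + 1 / 2)) (expNegInvGlue (s + 1 / 2)), ← add_div, div_self hp.ne']

theorem ls_chi_bd (s : ℝ) : 0 ≤ chi s ∧ chi s ≤ 1 :=
  ⟨Real.smoothTransition.nonneg _, Real.smoothTransition.le_one _⟩

theorem ls_chi_zero {s : ℝ} (hs : s ≤ -(1 / 2)) : chi s = 0 := by
  unfold chi
  exact Real.smoothTransition.zero_of_nonpos (by linarith)

theorem ls_cut_scale (r : ℝ) {s : ℝ} (hs : 0 < s) (η : E3) : cut (r * s) η = cut r (s⁻¹ • η) := by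
  unfold cut
  congr 2
  rw [norm_smul, norm_inv, Real.norm_eq_abs, abs_of_pos hs, mul_pow, mul_pow, inv_pow, div_eq_mul_inv, div_eq_mul_inv, mul_inv]
  ring

theorem ls_cut_bd (r : ℝ) (η : E3) : 0 ≤ cut r η ∧ cut r η ≤ 1 :=
  ⟨Real.smoothTransition.nonneg _, Real.smoothTransition.le_one _⟩

theorem ls_cut_one {r : ℝ} (hr : 0 < r) {η : E3} (h : ‖η‖ ≤ r) : cut r η = 1 := by
  unfold cut
  apply Real.smoothTransition.one_of_one_le
  have : ‖η‖ ^ 2 / r ^ 2 ≤ 1 := by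
    rw [div_le_one (by positivity)]
    exact pow_le_pow_left₀ (norm_nonneg _) h 2
  linarith

theorem ls_cut_zero {r : ℝ} (hr : 0 < r) {η : E3} (h : 2 * r ^ 2 ≤ ‖η‖ ^ 2) : cut r η = 0 := by
  unfold cut
  apply Real.smoothTransition.zero_of_nonpos
  have : 2 ≤ ‖η‖ ^ 2 / r ^ 2 := by
    rw [le_div_iff₀ (by positivity)]
    exact h
  linarith

theorem ls_cut_cont (r : ℝ) : Continuous (cut r) := by
  unfold cut
  exact Real.smoothTransition.continuous.comp (continuous_const.sub ((continuous_norm.pow 2).div_const _))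

theorem ls_fat_cont (s : ℝ) : Continuous (fat s) := by
  unfold fat
  exact (ls_cut_cont _).sub (ls_cut_cont _)

/-- `fat s = fat 1 (s⁻¹ ·)` -/
theorem ls_fat_scale {s : ℝ} (hs : 0 < s) (η : E3) : fat s η = fat 1 (s⁻¹ • η) := by
  unfold fat
  rw [ls_cut_scale 4 hs, show s / 2 = (1 / 2) * s by ring, ls_cut_scale (1 / 2) hs, mul_one]

theorem ls_pat_scale {s : ℝ} (hs : 0 < s) (η : E3) : pat s η = pat 1 (s⁻¹ • η) := by
  unfold pat
  rw [ls_fat_scale hs]
  congr 2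
  have h1 : (s⁻¹ • η) 2 = s⁻¹ * η 2 := by simp
  rw [h1, norm_smul, norm_inv, Real.norm_eq_abs, abs_of_pos hs, ← mul_neg, mul_div_mul_left _ _ (inv_pos.2 hs).ne']

/-- support of `fat s` : `s/2 ≤ |η| ≤ 6 s` -/
theorem ls_fat_supp {s : ℝ} (hs : 0 < s) {η : E3} (h : fat s η ≠ 0) : s / 2 ≤ ‖η‖ ∧ ‖η‖ ≤ 6 * s := by
  constructor
  · by_contra hlt
    have hlt' : ‖η‖ < s / 2 := not_le.1 hlt
    apply h
    unfold fat
    rw [ls_cut_one (by positivity) (by linarith : ‖η‖ ≤ 4 * s), ls_cut_one (by positivity) hlt'.le, sub_self]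
  · by_contra hgt
    have hgt' : 6 * s < ‖η‖ := not_le.1 hgt
    apply h
    unfold fat
    have h2 : (6 * s) ^ 2 < ‖η‖ ^ 2 := pow_lt_pow_left₀ hgt' (by positivity) (by norm_num)
    have h3 : 0 < s ^ 2 := by positivity
    rw [ls_cut_zero (by positivity) (by nlinarith), ls_cut_zero (by positivity) (by nlinarith), sub_self]

theorem ls_fat_bd (s : ℝ) (η : E3) : |fat s η| ≤ 1 := by
  unfold fat
  rw [abs_le]
  have h1 := ls_cut_bd (4 * s) η
  have h2 := ls_cut_bd (s / 2) η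
  constructor <;> linarith [h1.1, h1.2, h2.1, h2.2]

theorem ls_pat_bd (s : ℝ) (η : E3) : |pat s η| ≤ 1 := by
  unfold pat
  rw [abs_mul, abs_of_nonneg (ls_chi_bd _).1]
  exact mul_le_one₀ (ls_fat_bd s η) (ls_chi_bd _).1 (ls_chi_bd _).2

theorem ls_fat_ck {s : ℝ} (hs : 0 < s) : CK (fun η => (fat s η : ℂ)) := by
  refine ⟨Complex.continuous_ofReal.comp (ls_fat_cont s), HasCompactSupport.intro (isCompact_closedBall (0 : E3) (6 * s)) fun η hη => ?_⟩
  by_contra hne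
  have h1 : fat s η ≠ 0 := fun h0 => hne (by rw [h0]; rfl)
  exact hη (by rw [mem_closedBall_zero_iff]; exact (ls_fat_supp hs h1).2)

/-- (continuity at `0` : `fat s` vanishes on the ball of radius `s/2`) -/
theorem ls_pat_ck {s : ℝ} (hs : 0 < s) : CK (fun η => (pat s η : ℂ)) := by
  have hz : ∀ η : E3, fat s η = 0 → pat s η = 0 := fun η h => by unfold pat; rw [h, zero_mul]
  have hc : Continuous (pat s) := by
    rw [continuous_iff_continuousAt]
    intro η
    by_cases hη : η = 0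
    · subst hη
      have hev : (fun _ : E3 => (0 : ℝ)) =ᶠ[nhds (0 : E3)] pat s := by
        filter_upwards [Metric.ball_mem_nhds (0 : E3) (half_pos hs)] with x hx
        rw [mem_ball_zero_iff] at hx
        refine (hz x ?_).symm
        by_contra hne
        exact absurd (ls_fat_supp hs hne).1 (not_le.2 hx)
      exact continuousAt_const.congr hev
    · unfold pat chi
      have h2 : ContinuousAt (fun η : E3 => η 2) η := (EuclideanSpace.proj (2 : Fin 3) : E3 →L[ℝ] ℝ).continuous.continuousAt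
      have h3 : ContinuousAt (fun η : E3 => -(η 2) / ‖η‖) η := h2.neg.div continuous_norm.continuousAt (norm_ne_zero_iff.2 hη)
      exact (ls_fat_cont s).continuousAt.mul (Real.smoothTransition.continuous.continuousAt.comp (h3.add continuousAt_const))
  refine ⟨Complex.continuous_ofReal.comp hc, HasCompactSupport.intro (isCompact_closedBall (0 : E3) (6 * s)) fun η hη => ?_⟩
  by_contra hne
  have h1 : fat s η ≠ 0 := fun h0 => hne (by rw [hz η h0]; rfl)
  exact hη (by rw [mem_closedBall_zero_iff]; exact (ls_fat_supp hs h1).2)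

/-- the reflection `η₃ ↦ -η₃` -/
theorem ls_refl : ∃ A : E3 ≃ₗᵢ[ℝ] E3, ∀ η : E3, (A η) 2 = -(η 2) := by
  exact ⟨LinearIsometryEquiv.neg ℝ, fun η => by simp⟩

theorem ls_fat_pat (A : E3 ≃ₗᵢ[ℝ] E3) (hA : ∀ η : E3, (A η) 2 = -(η 2)) (s : ℝ) (η : E3) :
    fat s η = pat s η + pat s (A η) := by
  have hn : ‖A η‖ = ‖η‖ := A.norm_map η
  have hf : fat s (A η) = fat s η := by
    unfold fat cut
    rw [hn]
  unfold pat
  rw [hf, hA, hn, neg_neg, neg_div, ← mul_add, add_comm, ls_chi_add, mul_one]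

/-- `‖pat (2^n)‖₁ ≤ C 8^n` -/
theorem ls_pat_int : ∃ C : ℝ, 0 ≤ C ∧ ∀ n : ℕ, ∫ η, ‖(pat (2 ^ n) η : ℂ)‖ ≤ C * 8 ^ n := by
  refine ⟨∫ η, ‖(pat 1 η : ℂ)‖, integral_nonneg (fun _ => norm_nonneg _), fun n => le_of_eq ?_⟩
  have hs : (0 : ℝ) < 2 ^ n := by positivity
  simp_rw [ls_pat_scale hs]
  rw [Measure.integral_comp_smul volume (fun η : E3 => ‖(pat 1 η : ℂ)‖) ((2 ^ n : ℝ)⁻¹), finrank_euclideanSpace_fin, inv_pow, inv_inv,
    abs_of_pos (by positivity), smul_eq_mul, mul_comm]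
  congr 1
  rw [← pow_mul, mul_comm, pow_mul]
  norm_num

/-- the local measure is finite -/
theorem ls_loc_fin : locμ Set.univ < ⊤ := by
  unfold locμ stμ
  rw [Measure.restrict_apply MeasurableSet.univ, Set.univ_inter, Measure.prod_prod]
  refine ENNReal.mul_lt_top measure_closedBall_lt_top ?_
  rw [Measure.restrict_apply MeasurableSet.univ, Set.univ_inter, Real.volume_Icc]
  exact ENNReal.ofReal_lt_top

end Claimed.Agent.R256
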