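-- KEEP
import Claimed.Agent.R256.Top.Ker

/-!
# Row 256 (LS paper), paper-free analysis tools for secs 7 and 9      (architect helper163; prefix `ls_`)

* `ls_plancherel`    Plancherel for `L¹ ∩ L²` (pointwise Fourier integral), any finite dimensional inner product space
* `ls_unif_decay`    uniform decay of the Fourier transform of a jointly smooth family of amplitudes, parameters in a compact set
* `ls_unif_decay2`   the same on `E2 × ℝ` with the pairing `<ω,β> + σ υ`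
* `ls_subdiv`        `∫_T^{T+1} Φ ≤ ∫_0^H Σ_j Φ(T + jH + h) dh`, no measurability
* `ls_rho_subst`     the substitution `η₃ = c/ρ - ρ`
Every `sorry` is a leaf (Mathlib + `R255/BR`, `R255/Pk` read only).  EDIT IN PLACE, statements are frozen.
-/

set_option autoImplicit false

namespace Claimed.Agent.R256

open MeasureTheory Complex Claimed.Agent.R255.BR
open scoped FourierTransform Real SchwartzMap InnerProductSpace ENNReal ContDiff

theorem ls_pl_flip {V : Type*} [NormedAddCommGroup V] [InnerProductSpace ℝ V] [FiniteDimensional ℝ V] [MeasurableSpace V]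
    [BorelSpace V] {g : V → ℂ} (h1 : Integrable g) (φ : 𝓢(V, ℂ)) :
    ∫ ξ, (𝓕 φ) ξ • g ξ = ∫ x, φ x • 𝓕 g x := by
  simpa using! VectorFourier.integral_bilin_fourierIntegral_eq_flip (ContinuousLinearMap.lsmul ℂ ℂ) (L := innerₗ V)
    Real.continuous_fourierChar continuous_inner φ.integrable h1

theorem ls_pl_cont {V : Type*} [NormedAddCommGroup V] [InnerProductSpace ℝ V] [FiniteDimensional ℝ V] [MeasurableSpace V]
    [BorelSpace V] {g : V → ℂ} (h1 : Integrable g) : Continuous (𝓕 g) :=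
  VectorFourier.fourierIntegral_continuous Real.continuous_fourierChar (L := innerₗ V) continuous_inner h1

theorem ls_pl_ae {V : Type*} [NormedAddCommGroup V] [InnerProductSpace ℝ V] [FiniteDimensional ℝ V] [MeasurableSpace V]
    [BorelSpace V] {g : V → ℂ} (h1 : Integrable g) (h2 : MemLp g 2 volume) :
    ((𝓕 (h2.toLp g) : Lp ℂ 2 (volume : Measure V)) : V → ℂ) =ᵐ[volume] 𝓕 g := by
  set G := h2.toLp g with hG
  set H : Lp ℂ 2 (volume : Measure V) := 𝓕 G with hH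
  have hcont : Continuous (𝓕 g) := ls_pl_cont h1
  have hHl : LocallyIntegrable (H : V → ℂ) volume := (Lp.memLp H).locallyIntegrable (by norm_num)
  have key : ∀ φ : 𝓢(V, ℂ), ∫ x, φ x • (H : V → ℂ) x = ∫ x, φ x • 𝓕 g x := by
    intro φ
    have e1 := congrArg (fun T : 𝓢'(V, ℂ) => T φ) (Lp.fourier_toTemperedDistribution_eq G)
    simp only [TemperedDistribution.fourier_apply, Lp.toTemperedDistribution_apply] at e1
    rw [← hH] at e1
    rw [← e1, ← ls_pl_flip h1 φ]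
    refine integral_congr_ae ?_
    filter_upwards [h2.coeFn_toLp] with x hx
    rw [hx]
  have hz : ∀ᵐ x ∂(volume : Measure V), (H : V → ℂ) x - 𝓕 g x = 0 := by
    apply ae_eq_zero_of_integral_contDiff_smul_eq_zero
    · exact hHl.sub hcont.locallyIntegrable
    · intro u u_smooth u_cpt
      have hg₁ : HasCompactSupport (Complex.ofRealCLM ∘ u) := u_cpt.comp_left rfl
      have hg₂ : ContDiff ℝ ∞ (Complex.ofRealCLM ∘ u) := by fun_prop
      have hk := key (hg₁.toSchwartzMap hg₂)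
      have i1 : Integrable (fun x => u x • (H : V → ℂ) x) :=
        hHl.integrable_smul_left_of_hasCompactSupport u_smooth.continuous u_cpt
      have i2 : Integrable (fun x => u x • 𝓕 g x) :=
        hcont.locallyIntegrable.integrable_smul_left_of_hasCompactSupport u_smooth.continuous u_cpt
      simp only [smul_sub]
      rw [integral_sub i1 i2, sub_eq_zero]
      simpa using hk
  filter_upwards [hz] with x hx
  exact sub_eq_zero.1 hx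

theorem ls_pl_norm_sq {V : Type*} [MeasurableSpace V] {μ : Measure V} (F : Lp ℂ 2 μ) : ‖F‖ ^ 2 = ∫ x, ‖(F : V → ℂ) x‖ ^ 2 ∂μ := by
  have h := (Lp.memLp F).eLpNorm_eq_integral_rpow_norm (by norm_num) (by norm_num)
  have h0 : 0 ≤ ∫ x, ‖(F : V → ℂ) x‖ ^ 2 ∂μ := integral_nonneg fun x => by positivity
  rw [Lp.norm_def, h]
  simp only [ENNReal.toReal_ofNat, Real.rpow_ofNat]
  rw [ENNReal.toReal_ofReal (by positivity), ← Real.rpow_natCast, ← Real.rpow_mul h0]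
  norm_num

/-- **Plancherel for `L¹ ∩ L²`.**
PLAN: `G := h2.toLp g`.  `Lp.fourier_toTemperedDistribution_eq G : 𝓕 (G : 𝓢') = (𝓕 G : Lp)` (`Mathlib/Analysis/Fourier/LpSpace.lean`).  Test against a Schwartz `φ`:
`(𝓕 T_G) φ = T_G (𝓕 φ) = ∫ g 𝓕φ = ∫ 𝓕g φ` (`VectorFourier.integral_bilin_fourierIntegral_eq_flip` / `Real.integral_..._eq_flip`), so `∫ (𝓕 G - 𝓕 g) φ = 0` for all `φ ∈ C_c^∞`, hence
`𝓕 G =ᵐ 𝓕 g` (`ae_eq_zero_of_integral_contDiff_smul_eq_zero`, both are locally integrable); `Lp.norm_fourier_eq`.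
(Alternative: mollify + cut off, `g_k → g` in `L¹` and `L²` with `g_k` Schwartz, `SchwartzMap.integral_norm_sq_fourier`-type, Fatou + parallelogram.) -/
theorem ls_plancherel {V : Type*} [NormedAddCommGroup V] [InnerProductSpace ℝ V] [FiniteDimensional ℝ V] [MeasurableSpace V]
    [BorelSpace V] {g : V → ℂ} (h1 : Integrable g) (h2 : MemLp g 2 volume) :
    MemLp (𝓕 g) 2 volume ∧ ∫ η, ‖𝓕 g η‖ ^ 2 = ∫ x, ‖g x‖ ^ 2 := by
  have hae := ls_pl_ae h1 h2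
  have hm : MemLp (𝓕 g) 2 volume := (memLp_congr_ae hae).1 (Lp.memLp _)
  refine ⟨hm, ?_⟩
  have hn := Lp.norm_fourier_eq (h2.toLp g)
  have a1 : ‖(𝓕 (h2.toLp g) : Lp ℂ 2 (volume : Measure V))‖ ^ 2 = ∫ η, ‖𝓕 g η‖ ^ 2 := by
    rw [ls_pl_norm_sq]
    refine integral_congr_ae ?_
    filter_upwards [hae] with x hx
    rw [hx]
  have a2 : ‖h2.toLp g‖ ^ 2 = ∫ x, ‖g x‖ ^ 2 := by
    rw [ls_pl_norm_sq]
    refine integral_congr_ae ?_
    filter_upwards [h2.coeFn_toLp] with x hx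
    rw [hx]
  rw [← a1, ← a2, hn]

/-- the same for `𝓕⁻` (`𝓕⁻ g x = 𝓕 g (-x)`) -/
theorem ls_plancherel_inv {V : Type*} [NormedAddCommGroup V] [InnerProductSpace ℝ V] [FiniteDimensional ℝ V] [MeasurableSpace V]
    [BorelSpace V] {g : V → ℂ} (h1 : Integrable g) (h2 : MemLp g 2 volume) :
    MemLp (𝓕⁻ g) 2 volume ∧ ∫ η, ‖𝓕⁻ g η‖ ^ 2 = ∫ x, ‖g x‖ ^ 2 := by
  obtain ⟨a, b⟩ := ls_plancherel h1 h2
  have e : 𝓕⁻ g = fun x => 𝓕 g (-x) := by
    funext x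
    exact Real.fourierInv_eq_fourier_neg g x
  rw [e]
  refine ⟨a.comp_measurePreserving (Measure.measurePreserving_neg volume), ?_⟩
  rw [← b]
  exact integral_neg_eq_self (fun η => ‖𝓕 g η‖ ^ 2) volume

theorem ls_ud_slice_smooth {W P : Type} [NormedAddCommGroup W] [NormedSpace ℝ W] [NormedAddCommGroup P] [NormedSpace ℝ P]
    (𝔟 : W × P → ℂ) (h𝔟 : ContDiff ℝ ∞ 𝔟) (p : P) : ContDiff ℝ ∞ fun w => 𝔟 (w, p) :=
  h𝔟.comp (contDiff_id.prodMk contDiff_const)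

theorem ls_ud_slice_norm {W P : Type} [NormedAddCommGroup W] [NormedSpace ℝ W] [NormedAddCommGroup P] [NormedSpace ℝ P]
    (𝔟 : W × P → ℂ) (h𝔟 : ContDiff ℝ ∞ 𝔟) (p : P) (j : ℕ) (w : W) :
    ‖iteratedFDeriv ℝ j (fun w => 𝔟 (w, p)) w‖ ≤ ‖iteratedFDeriv ℝ j 𝔟 (w, p)‖ := by
  have h1 : ContDiff ℝ ∞ fun z : W × P => 𝔟 (z + (0, p)) := h𝔟.comp (contDiff_id.add contDiff_const)
  have e : (fun w => 𝔟 (w, p)) = (fun z : W × P => 𝔟 (z + (0, p))) ∘ (ContinuousLinearMap.inl ℝ W P) := by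
    funext w
    simp
  rw [e, ContinuousLinearMap.iteratedFDeriv_comp_right _ h1 w (i := j) (by exact_mod_cast le_top), iteratedFDeriv_comp_add_right]
  refine (ContinuousMultilinearMap.norm_compContinuousLinearMap_le _ _).trans ?_
  have e2 : (ContinuousLinearMap.inl ℝ W P) w + (0, p) = (w, p) := by simp
  rw [e2]
  calc ‖iteratedFDeriv ℝ j 𝔟 (w, p)‖ * ∏ _i : Fin j, ‖ContinuousLinearMap.inl ℝ W P‖
      ≤ ‖iteratedFDeriv ℝ j 𝔟 (w, p)‖ * 1 := by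
        refine mul_le_mul_of_nonneg_left ?_ (norm_nonneg _)
        exact Finset.prod_le_one (fun _ _ => norm_nonneg _) fun _ _ => ContinuousLinearMap.norm_inl_le_one ℝ W P
    _ = _ := mul_one _

theorem ls_ud_tsupport {W P : Type} [NormedAddCommGroup W] [NormedSpace ℝ W] [NormedAddCommGroup P] [NormedSpace ℝ P]
    (𝔟 : W × P → ℂ) {KW : Set W} (hKW : IsCompact KW) {KP : Set P} (hs : ∀ w p, p ∈ KP → w ∉ KW → 𝔟 (w, p) = 0) {p : P} (hp : p ∈ KP) :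
    tsupport (fun w => 𝔟 (w, p)) ⊆ KW := by
  refine closure_minimal ?_ hKW.isClosed
  intro w hw
  by_contra h
  exact hw (hs w p hp h)

theorem ls_ud_int {W P : Type} [NormedAddCommGroup W] [InnerProductSpace ℝ W] [FiniteDimensional ℝ W] [MeasurableSpace W]
    [BorelSpace W] [NormedAddCommGroup P] [NormedSpace ℝ P] (𝔟 : W × P → ℂ) (h𝔟 : ContDiff ℝ ∞ 𝔟) {KW : Set W} (hKW : IsCompact KW)
    {KP : Set P} (hs : ∀ w p, p ∈ KP → w ∉ KW → 𝔟 (w, p) = 0) {p : P} (hp : p ∈ KP) (k j : ℕ) :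
    Integrable fun v => ‖v‖ ^ k * ‖iteratedFDeriv ℝ j (fun w => 𝔟 (w, p)) v‖ := by
  have hc : HasCompactSupport (fun w => 𝔟 (w, p)) :=
    hKW.of_isClosed_subset (isClosed_tsupport _) (ls_ud_tsupport 𝔟 hKW hs hp)
  have h1 : Continuous (iteratedFDeriv ℝ j (fun w => 𝔟 (w, p))) :=
    (ls_ud_slice_smooth 𝔟 h𝔟 p).continuous_iteratedFDeriv (m := j) (by exact_mod_cast le_top)
  refine Continuous.integrable_of_hasCompactSupport (by fun_prop) ?_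
  exact ((hc.iteratedFDeriv j).norm).mul_left

theorem ls_ud_M {W P : Type} [NormedAddCommGroup W] [InnerProductSpace ℝ W] [FiniteDimensional ℝ W] [MeasurableSpace W]
    [BorelSpace W] [NormedAddCommGroup P] [NormedSpace ℝ P] (𝔟 : W × P → ℂ) (h𝔟 : ContDiff ℝ ∞ 𝔟) {KW : Set W} (hKW : IsCompact KW)
    {KP : Set P} (hKP : IsCompact KP) (hs : ∀ w p, p ∈ KP → w ∉ KW → 𝔟 (w, p) = 0) (j : ℕ) :
    ∃ M : ℝ, 0 ≤ M ∧ ∀ p ∈ KP, ∫ v, ‖v‖ ^ 0 * ‖iteratedFDeriv ℝ j (fun w => 𝔟 (w, p)) v‖ ≤ M := by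
  have hcont : Continuous (iteratedFDeriv ℝ j 𝔟) := h𝔟.continuous_iteratedFDeriv (m := j) (by exact_mod_cast le_top)
  obtain ⟨C, hC⟩ := (hKW.prod hKP).exists_bound_of_continuousOn hcont.continuousOn
  refine ⟨|C| * (volume KW).toReal, by positivity, fun p hp => ?_⟩
  have hz : ∀ v, v ∉ KW → ‖v‖ ^ 0 * ‖iteratedFDeriv ℝ j (fun w => 𝔟 (w, p)) v‖ = 0 := by
    intro v hv
    have : v ∉ Function.support (iteratedFDeriv ℝ j (fun w => 𝔟 (w, p))) := fun h =>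
      hv (ls_ud_tsupport 𝔟 hKW hs hp (support_iteratedFDeriv_subset j h))
    rw [Function.notMem_support.1 this]
    simp
  rw [← setIntegral_eq_integral_of_forall_compl_eq_zero hz]
  have hb := norm_setIntegral_le_of_norm_le_const (μ := volume) (s := KW) (C := |C|)
    (f := fun v => ‖v‖ ^ 0 * ‖iteratedFDeriv ℝ j (fun w => 𝔟 (w, p)) v‖) hKW.measure_lt_top (fun v hv => by
      rw [pow_zero, one_mul, norm_norm]
      exact ((ls_ud_slice_norm 𝔟 h𝔟 p j v).trans (hC (v, p) ⟨hv, hp⟩)).trans (le_abs_self C))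
  exact (le_abs_self _).trans (by simpa [Measure.real] using hb)

theorem ls_ud_pow {W P : Type} [NormedAddCommGroup W] [InnerProductSpace ℝ W] [FiniteDimensional ℝ W] [MeasurableSpace W]
    [BorelSpace W] [NormedAddCommGroup P] [NormedSpace ℝ P] (𝔟 : W × P → ℂ) (h𝔟 : ContDiff ℝ ∞ 𝔟) {KW : Set W} (hKW : IsCompact KW)
    {KP : Set P} (hKP : IsCompact KP) (hs : ∀ w p, p ∈ KP → w ∉ KW → 𝔟 (w, p) = 0) (n : ℕ) :
    ∃ B : ℝ, 0 ≤ B ∧ ∀ p ∈ KP, ∀ x : W, ‖x‖ ^ n * ‖𝓕 (fun w => 𝔟 (w, p)) x‖ ≤ B := by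
  choose M hM0 hM using ls_ud_M 𝔟 h𝔟 hKW hKP hs
  refine ⟨(2 * π) ^ 0 * (2 * (0 : ℕ) + 2) ^ n * ∑ q ∈ Finset.range (0 + 1) ×ˢ Finset.range (n + 1), M q.2,
    by have := Finset.sum_nonneg (s := Finset.range (0 + 1) ×ˢ Finset.range (n + 1)) (f := fun q => M q.2) fun q _ => hM0 q.2
       positivity, fun p hp x => ?_⟩
  have h := Real.pow_mul_norm_iteratedFDeriv_fourier_le (K := 0) (N := ⊤) (f := fun w => 𝔟 (w, p))
    (ls_ud_slice_smooth 𝔟 h𝔟 p) (fun k j _ _ => ls_ud_int 𝔟 h𝔟 hKW hs hp k j) (k := 0) (n := n) le_rfl le_top x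
  rw [norm_iteratedFDeriv_zero] at h
  refine h.trans ?_
  refine mul_le_mul_of_nonneg_left ?_ (by positivity)
  refine Finset.sum_le_sum fun q hq => ?_
  have hq1 : q.1 = 0 := by
    have := (Finset.mem_product.1 hq).1
    simpa using this
  rw [hq1]
  exact hM q.2 p hp

/-- **uniform Fourier decay.**
PLAN: for fixed `p`, `a_p w = 𝔟 (w, p)` is smooth with support in `KW`; `iteratedFDeriv ℝ k a_p w = (iteratedFDeriv ℝ k 𝔟 (w,p)).compContinuousLinearMap (inl)` (affine substitution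
`w ↦ (w, p) = inl w + (0,p)`: `iteratedFDeriv_comp_add_right`, `ContinuousLinearMap.iteratedFDeriv_comp_right`), so `‖iteratedFDeriv ℝ k a_p w‖ ≤ ‖iteratedFDeriv ℝ k 𝔟 (w,p)‖ ≤ M_k` on the compact
`KW ×ˢ KP` (continuity).  Then `Real.pow_mul_norm_iteratedFDeriv_fourierIntegral_le` (with `k = 0`): `‖x‖^n ‖𝓕 a_p x‖ ≤ 2^n Σ_{j ≤ n} ∫ ‖iteratedFDeriv ℝ j a_p‖ ≤ 2^n (n+1) max M_j vol KW`;
`(1+‖x‖)^L ≤ 2^L (1 + ‖x‖^L)`;  `∫ ee <w,x> a = 𝓕 a (-x)` (`fourier_ee`).  (Alternative: `R255/Pk/NspMain.lean pk_nsp`.) -/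
theorem ls_unif_decay {W P : Type} [NormedAddCommGroup W] [InnerProductSpace ℝ W] [FiniteDimensional ℝ W] [MeasurableSpace W]
    [BorelSpace W] [NormedAddCommGroup P] [NormedSpace ℝ P] (𝔟 : W × P → ℂ) (h𝔟 : ContDiff ℝ ∞ 𝔟) {KW : Set W} (hKW : IsCompact KW)
    {KP : Set P} (hKP : IsCompact KP) (hs : ∀ w p, p ∈ KP → w ∉ KW → 𝔟 (w, p) = 0) (L : ℕ) :
    ∃ C : ℝ, 0 ≤ C ∧ ∀ p ∈ KP, ∀ x : W, (1 + ‖x‖) ^ L * ‖∫ w, ee ⟪w, x⟫_ℝ * 𝔟 (w, p)‖ ≤ C := by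
  choose B hB0 hB using ls_ud_pow 𝔟 h𝔟 hKW hKP hs
  refine ⟨∑ m ∈ Finset.range (L + 1), (L.choose m : ℝ) * B m, Finset.sum_nonneg fun m _ => mul_nonneg (Nat.cast_nonneg _) (hB0 m),
    fun p hp x => ?_⟩
  have e : ∫ w, ee ⟪w, x⟫_ℝ * 𝔟 (w, p) = 𝓕 (fun w => 𝔟 (w, p)) (-x) := by
    rw [fourier_ee]
    refine integral_congr_ae (Filter.Eventually.of_forall fun v => ?_)
    simp only [inner_neg_right, neg_neg]
  rw [e, add_comm 1 ‖x‖, add_pow, Finset.sum_mul]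
  refine Finset.sum_le_sum fun m _ => ?_
  have h := hB m p hp (-x)
  rw [norm_neg] at h
  calc ‖x‖ ^ m * 1 ^ (L - m) * (L.choose m : ℝ) * ‖𝓕 (fun w => 𝔟 (w, p)) (-x)‖
      = (L.choose m : ℝ) * (‖x‖ ^ m * ‖𝓕 (fun w => 𝔟 (w, p)) (-x)‖) := by rw [one_pow]; ring
    _ ≤ (L.choose m : ℝ) * B m := mul_le_mul_of_nonneg_left h (Nat.cast_nonneg _)

theorem ls_ud_contDiff_Ji : ContDiff ℝ ∞ Ji := by
  have hadd : ∀ x y : E3, Ji (x + y) = Ji x + Ji y := fun x y => by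
    rw [← Ji_J (Ji x + Ji y), J_add, J_Ji, J_Ji]
  have hsmul : ∀ (c : ℝ) (x : E3), Ji (c • x) = c • Ji x := fun c x => by
    rw [← Ji_J (c • Ji x), J_smul, J_Ji]
  exact (LinearMap.toContinuousLinearMap (IsLinearMap.mk' Ji ⟨hadd, hsmul⟩)).contDiff

/-- the same on `E2 × ℝ`   (`integral_J`, `inner_J`, `norm_J_sq` of `R255/BR/Split.lean`; `J` is a continuous linear equivalence; `‖β‖ + |υ| ≤ 2 ‖J (β, υ)‖`) -/
theorem ls_unif_decay2 {P : Type} [NormedAddCommGroup P] [NormedSpace ℝ P] (𝔟 : (E2 × ℝ) × P → ℂ) (h𝔟 : ContDiff ℝ ∞ 𝔟)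
    {KW : Set (E2 × ℝ)} (hKW : IsCompact KW) {KP : Set P} (hKP : IsCompact KP)
    (hs : ∀ w p, p ∈ KP → w ∉ KW → 𝔟 (w, p) = 0) (L : ℕ) :
    ∃ C : ℝ, 0 ≤ C ∧ ∀ p ∈ KP, ∀ (β : E2) (υ : ℝ),
      (1 + ‖β‖ + |υ|) ^ L * ‖∫ w : E2 × ℝ, ee (⟪w.1, β⟫_ℝ + w.2 * υ) * 𝔟 (w, p)‖ ≤ C := by
  have h1 : ContDiff ℝ ∞ fun z : E3 × P => 𝔟 (Ji z.1, z.2) :=
    h𝔟.comp ((ls_ud_contDiff_Ji.comp contDiff_fst).prodMk contDiff_snd)
  obtain ⟨C, hC0, hC⟩ := ls_unif_decay (fun z : E3 × P => 𝔟 (Ji z.1, z.2)) h1 (hKW.image continuous_J) hKP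
    (fun w p hp hw => hs _ p hp fun h => hw ⟨Ji w, h, J_Ji w⟩) L
  refine ⟨2 ^ L * C, by positivity, fun p hp β υ => ?_⟩
  have e : ∫ w : E2 × ℝ, ee (⟪w.1, β⟫_ℝ + w.2 * υ) * 𝔟 (w, p) = ∫ z : E3, ee ⟪z, J (β, υ)⟫_ℝ * 𝔟 (Ji z, p) := by
    rw [integral_J]
    refine integral_congr_ae (Filter.Eventually.of_forall fun w => ?_)
    simp only [inner_J, Ji_J]
  have hn := norm_J_sq (β, υ)
  simp only at hn
  have hJ0 := norm_nonneg (J (β, υ))
  have b1 : ‖β‖ ≤ ‖J (β, υ)‖ := by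
    refine abs_le_of_sq_le_sq' ?_ hJ0 |>.2
    nlinarith [sq_nonneg υ]
  have b2 : |υ| ≤ ‖J (β, υ)‖ := by
    refine abs_le_of_sq_le_sq ?_ hJ0
    nlinarith [sq_nonneg ‖β‖]
  have b3 : (1 + ‖β‖ + |υ|) ^ L ≤ 2 ^ L * (1 + ‖J (β, υ)‖) ^ L := by
    rw [← mul_pow]
    exact pow_le_pow_left₀ (by positivity) (by linarith) L
  rw [e]
  calc (1 + ‖β‖ + |υ|) ^ L * ‖∫ z : E3, ee ⟪z, J (β, υ)⟫_ℝ * 𝔟 (Ji z, p)‖
      ≤ 2 ^ L * (1 + ‖J (β, υ)‖) ^ L * ‖∫ z : E3, ee ⟪z, J (β, υ)⟫_ℝ * 𝔟 (Ji z, p)‖ :=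
        mul_le_mul_of_nonneg_right b3 (norm_nonneg _)
    _ = 2 ^ L * ((1 + ‖J (β, υ)‖) ^ L * ‖∫ z : E3, ee ⟪z, J (β, υ)⟫_ℝ * 𝔟 (Ji z, p)‖) := by ring
    _ ≤ 2 ^ L * C := mul_le_mul_of_nonneg_left (hC p hp _) (by positivity)

theorem ls_sd_sum_le {α : Type*} [MeasurableSpace α] (μ : Measure α) {ι : Type*} (s : Finset ι) (f : ι → α → ℝ≥0∞) :
    ∑ j ∈ s, ∫⁻ a, f j a ∂μ ≤ ∫⁻ a, ∑ j ∈ s, f j a ∂μ := by
  classical
  induction s using Finset.induction_on with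
  | empty => simp
  | insert j s hj ih =>
    simp only [Finset.sum_insert hj]
    exact (add_le_add_right ih _).trans (le_lintegral_add _ _)

theorem ls_sd_cover (Φ : ℝ → ℝ≥0∞) (T H : ℝ) (hH : 0 ≤ H) (N : ℕ) :
    ∫⁻ t in Set.Ico T (T + N * H), Φ t ≤ ∑ j ∈ Finset.range N, ∫⁻ t in Set.Ico (T + j * H) (T + j * H + H), Φ t := by
  induction N with
  | zero => simp
  | succ N ih =>
    rw [Finset.sum_range_succ]
    have e : Set.Ico T (T + ((N + 1 : ℕ) : ℝ) * H) = Set.Ico T (T + N * H) ∪ Set.Ico (T + N * H) (T + N * H + H) := by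
      rw [Set.Ico_union_Ico_eq_Ico (by nlinarith [(Nat.cast_nonneg N : (0 : ℝ) ≤ N)]) (by linarith)]
      congr 1
      push_cast
      ring
    rw [e]
    exact (lintegral_union_le _ _ _).trans (add_le_add_left ih _)

theorem ls_sd_shift (Φ : ℝ → ℝ≥0∞) (a H : ℝ) :
    ∫⁻ t in Set.Ico a (a + H), Φ t = ∫⁻ h in Set.Ico (0 : ℝ) H, Φ (a + h) := by
  rw [(measurePreserving_add_left volume a).setLIntegral_comp_emb (measurableEmbedding_addLeft a) Φ (Set.Ico 0 H)]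
  simp [add_comm]

/-- **subdivision of a unit interval** (no measurability of `Φ`).
PLAN: `Ico T (T+1) = ⋃_j Ico (T + jH) (T + (j+1)H)` disjoint (`lintegral_biUnion_finset` / induction with `lintegral_union`); translation
(`MeasurePreserving.setLIntegral_comp_emb` with `measurePreserving_add_left`, `MeasurableEmbedding`); superadditivity `∑ ∫⁻ ≤ ∫⁻ ∑` (`le_lintegral_add`, induction). -/
theorem ls_subdiv (Φ : ℝ → ℝ≥0∞) (n : ℕ) (T : ℝ) :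
    ∫⁻ t in Set.Ico T (T + 1), Φ t
      ≤ ∫⁻ h in Set.Ico (0 : ℝ) ((2 : ℝ) ^ n)⁻¹, ∑ j ∈ Finset.range (2 ^ n), Φ (T + j * ((2 : ℝ) ^ n)⁻¹ + h) := by
  have h := ls_sd_cover Φ T ((2 : ℝ) ^ n)⁻¹ (by positivity) (2 ^ n)
  have e : T + ((2 ^ n : ℕ) : ℝ) * ((2 : ℝ) ^ n)⁻¹ = T + 1 := by
    push_cast
    rw [mul_inv_cancel₀ (by positivity)]
  rw [e] at h
  refine h.trans ?_
  simp only [ls_sd_shift]
  exact ls_sd_sum_le _ _ _

theorem ls_rs_deriv {c : ℝ} (ρ : ℝ) (hρ : ρ ∈ Set.Ioi (0 : ℝ)) :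
    HasDerivWithinAt (fun ρ : ℝ => c / ρ - ρ) (-(1 + c / ρ ^ 2)) (Set.Ioi 0) ρ := by
  have h0 : ρ ≠ 0 := ne_of_gt hρ
  have h1 : HasDerivAt (fun ρ : ℝ => c / ρ - ρ) ((0 * ρ - c * 1) / ρ ^ 2 - 1) ρ :=
    ((hasDerivAt_const ρ c).div (hasDerivAt_id ρ) h0).sub (hasDerivAt_id ρ)
  have e : -(1 + c / ρ ^ 2) = (0 * ρ - c * 1) / ρ ^ 2 - 1 := by
    rw [zero_mul, zero_sub, mul_one, neg_div]
    ring
  rw [e]
  exact h1.hasDerivWithinAt

theorem ls_rs_inj {c : ℝ} (hc : 0 < c) : Set.InjOn (fun ρ : ℝ => c / ρ - ρ) (Set.Ioi 0) := by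
  have : StrictAntiOn (fun ρ : ℝ => c / ρ - ρ) (Set.Ioi 0) := by
    intro a ha b hb hab
    have h1 : c / b ≤ c / a := div_le_div_of_nonneg_left hc.le ha hab.le
    show c / b - b < c / a - a
    linarith
  exact this.injOn

theorem ls_rs_image {c : ℝ} (hc : 0 < c) : (fun ρ : ℝ => c / ρ - ρ) '' Set.Ioi 0 = Set.univ := by
  refine Set.eq_univ_of_forall fun s => ?_
  have hr : Real.sqrt (s ^ 2 + 4 * c) ^ 2 = s ^ 2 + 4 * c := Real.sq_sqrt (by positivity)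
  have hr1 : |s| < Real.sqrt (s ^ 2 + 4 * c) := by
    rw [← Real.sqrt_sq_eq_abs]
    exact Real.sqrt_lt_sqrt (sq_nonneg s) (by linarith)
  have hpos : 0 < (Real.sqrt (s ^ 2 + 4 * c) - s) / 2 := by
    have := le_abs_self s
    linarith
  refine ⟨(Real.sqrt (s ^ 2 + 4 * c) - s) / 2, hpos, ?_⟩
  show c / ((Real.sqrt (s ^ 2 + 4 * c) - s) / 2) - (Real.sqrt (s ^ 2 + 4 * c) - s) / 2 = s
  rw [div_sub' hpos.ne', div_eq_iff hpos.ne']
  nlinarith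

/-- **the substitution `η₃ = c/ρ - ρ`**, `c > 0`: a decreasing bijection `(0,∞) → ℝ` with `|dη₃/dρ| = 1 + c/ρ²`.
(`MeasureTheory.integral_image_eq_integral_abs_deriv_smul` on `Set.Ioi 0`; injectivity by strict antitonicity, surjectivity: `ρ = (-s + √(s² + 4c))/2`.) -/
theorem ls_rho_subst {c : ℝ} (hc : 0 < c) (h : ℝ → ℂ) :
    ∫ s, h s = ∫ ρ in Set.Ioi (0 : ℝ), ((1 + c / ρ ^ 2 : ℝ) : ℂ) * h (c / ρ - ρ) := by
  have := integral_image_eq_integral_abs_deriv_smul measurableSet_Ioi (fun ρ hρ => ls_rs_deriv (c := c) ρ hρ) (ls_rs_inj hc) h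
  rw [ls_rs_image hc, setIntegral_univ] at this
  rw [this]
  refine setIntegral_congr_fun measurableSet_Ioi fun ρ hρ => ?_
  have h1 : 0 < 1 + c / ρ ^ 2 := by positivity
  simp only [abs_neg, abs_of_pos h1]
  rfl

/-- the same for `lintegral` -/
theorem ls_rho_subst_lintegral {c : ℝ} (hc : 0 < c) (h : ℝ → ℝ≥0∞) :
    ∫⁻ s, h s = ∫⁻ ρ in Set.Ioi (0 : ℝ), ENNReal.ofReal (1 + c / ρ ^ 2) * h (c / ρ - ρ) := by
  have := lintegral_image_eq_lintegral_abs_deriv_mul measurableSet_Ioi (fun ρ hρ => ls_rs_deriv (c := c) ρ hρ) (ls_rs_inj hc) h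
  rw [ls_rs_image hc, setLIntegral_univ] at this
  rw [this]
  refine setLIntegral_congr_fun measurableSet_Ioi fun ρ hρ => ?_
  have h1 : 0 < 1 + c / ρ ^ 2 := by positivity
  simp only [abs_neg, abs_of_pos h1]

end Claimed.Agent.R256
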