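-- KEEP
import Claimed.Agent.R256.Top.Ker

/-!
# Row 256 (LS paper), TOP LAYER L2 : `Level ⟹` the local `L³` estimate (09 l.470-505: amplitude levels; angular partition)      (architect helper163; prefix `ls_`)

* `Level`   CONTRACT L2/L3 = eq. (phys-level-estimate): restricted strong type for bounded data in the ball of radius `6`, output in the unit ball, ONE patch `η₃ ≤ |η|/2`.
* `LsLoc m` the local strong type `L³ → L³` estimate with loss `2^{δ n}` for the symbols `m n`.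
Every `sorry` is a leaf.  EDIT IN PLACE, statements are frozen.
-/

set_option autoImplicit false

namespace Claimed.Agent.R256

open MeasureTheory Complex Claimed.Agent.R255.BR
open scoped FourierTransform Real SchwartzMap InnerProductSpace ENNReal

/-- **CONTRACT (phys-level-estimate)** -/
def Level : Prop :=
  ∀ β : ℝ, 0 < β → ∃ C : ℝ, ∀ (n : ℕ) (g : E3 → ℂ) (B : ℝ), Measurable g → (∀ x, ‖g x‖ ≤ B) → (∀ x, g x ≠ 0 → ‖x‖ ≤ 6) →
    ∫⁻ z, ‖wop (fun η => (pat (2 ^ n) η : ℂ)) g z‖ₑ ^ (3 : ℝ) ∂locμ ≤ ENNReal.ofReal (C * 2 ^ (β * n) * B * ∫ x, ‖g x‖ ^ 2)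

/-- the local `L³` estimate for a family of symbols -/
def LsLoc (m : ℕ → E3 → ℂ) : Prop :=
  ∀ δ : ℝ, 0 < δ → ∃ C : ℝ, 0 ≤ C ∧ ∀ (n : ℕ) (g : E3 → ℂ), Measurable g → MemLp g 3 volume → (∀ x, g x ≠ 0 → ‖x‖ ≤ 6) →
    ∫⁻ z, ‖wop (m n) g z‖ₑ ^ (3 : ℝ) ∂locμ ≤ ENNReal.ofReal (C * 2 ^ (δ * n)) * ∫⁻ x, ‖g x‖ₑ ^ (3 : ℝ)

/-- the part of `g` with `a < |g| ≤ b` -/
noncomputable def lev (g : E3 → ℂ) (a b : ℝ) (x : E3) : ℂ := if a < ‖g x‖ ∧ ‖g x‖ ≤ b then g x else 0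

/-- the part of `g` with `a < |g|` -/
noncomputable def levU (g : E3 → ℂ) (a : ℝ) (x : E3) : ℂ := if a < ‖g x‖ then g x else 0

theorem ls_amp_eqns_cite : True := by
  have := @Level.eq_1
  have := @LsLoc.eq_1
  have := @lev.eq_1
  have := @levU.eq_1
  trivial

/-! ### the pieces -/

theorem ls_levU_split (g : E3 → ℂ) {a b : ℝ} (hab : a ≤ b) (x : E3) : levU g a x = lev g a b x + levU g b x := by
  unfold lev levU
  by_cases h1 : a < ‖g x‖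
  · by_cases h2 : b < ‖g x‖
    · rw [if_pos h1, if_pos h2, if_neg (fun h' => absurd h'.2 (not_le.2 h2)), zero_add]
    · rw [if_pos h1, if_neg h2, if_pos ⟨h1, not_lt.1 h2⟩, add_zero]
  · rw [if_neg h1, if_neg (fun h' => h1 h'.1), if_neg (fun h' => h1 (lt_of_le_of_lt hab h')), add_zero]

/-- the dyadic splitting (induction on `M`) -/
theorem ls_split (g : E3 → ℂ) {a : ℝ} (ha : 0 < a) (M : ℕ) (x : E3) :
    g x = lev g (-1) a x + ∑ ν ∈ Finset.range M, lev g (2 ^ ν * a) (2 ^ (ν + 1) * a) x + levU g (2 ^ M * a) x := by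
  induction M with
  | zero =>
    simp only [Finset.range_zero, Finset.sum_empty, add_zero, pow_zero, one_mul]
    unfold lev levU
    have h0 : (-1 : ℝ) < ‖g x‖ := lt_of_lt_of_le (by norm_num) (norm_nonneg _)
    by_cases h : a < ‖g x‖
    · rw [if_pos h, if_neg (fun h' => absurd h'.2 (not_le.2 h)), zero_add]
    · rw [if_neg h, if_pos ⟨h0, not_lt.1 h⟩, add_zero]
  | succ M ih =>
    have hle : (2 : ℝ) ^ M * a ≤ 2 ^ (M + 1) * a := by
      rw [pow_succ]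
      nlinarith [pow_pos (two_pos : (0 : ℝ) < 2) M]
    rw [Finset.sum_range_succ, add_assoc, add_assoc, ← ls_levU_split g hle x, ← add_assoc]
    exact ih

theorem ls_lev_meas {g : E3 → ℂ} (hg : Measurable g) (a b : ℝ) : Measurable (lev g a b) := by
  unfold lev
  exact Measurable.ite ((measurableSet_lt measurable_const hg.norm).inter (measurableSet_le hg.norm measurable_const))
    hg measurable_const

theorem ls_levU_meas {g : E3 → ℂ} (hg : Measurable g) (a : ℝ) : Measurable (levU g a) := by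
  unfold levU
  exact Measurable.ite (measurableSet_lt measurable_const hg.norm) hg measurable_const

/-- an `L³` function supported in the ball of radius `6` is integrable (Hölder; pattern `R254.er_integrable_of_memLp`) -/
theorem ls_int_of_memLp {g : E3 → ℂ} (hg : MemLp g 3 volume) (hs : ∀ x, g x ≠ 0 → ‖x‖ ≤ 6) : Integrable g := by
  have hs' : Function.support g ⊆ Metric.closedBall (0 : E3) 6 := fun x hx => by
    simpa using hs x hx
  rw [← integrableOn_iff_integrable_of_support_subset hs']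
  have : IsFiniteMeasure (volume.restrict (Metric.closedBall (0 : E3) 6)) :=
    ⟨by simpa using (measure_closedBall_lt_top (μ := (volume : Measure E3)) (x := 0) (r := 6))⟩
  exact memLp_one_iff_integrable.1 ((hg.restrict _).mono_exponent (by norm_num))

/-- the small amplitudes: `‖·‖₁ ≤ a |B(0,6)|` -/
theorem ls_lev_small : ∃ V : ℝ, 0 ≤ V ∧ ∀ (g : E3 → ℂ) (a : ℝ), Measurable g → 0 ≤ a → (∀ x, g x ≠ 0 → ‖x‖ ≤ 6) →
    Integrable (lev g (-1) a) ∧ ∫ x, ‖lev g (-1) a x‖ ≤ V * a := by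
  refine ⟨(volume (Metric.closedBall (0 : E3) 6)).toReal, ENNReal.toReal_nonneg, ?_⟩
  intro g a hg ha hs
  have hfin : volume (Metric.closedBall (0 : E3) 6) ≠ ⊤ := measure_closedBall_lt_top.ne
  have hI : Integrable ((Metric.closedBall (0 : E3) 6).indicator fun _ => a) :=
    (integrable_indicator_iff Metric.isClosed_closedBall.measurableSet).2 (integrableOn_const hfin)
  have hb : ∀ x, ‖lev g (-1) a x‖ ≤ (Metric.closedBall (0 : E3) 6).indicator (fun _ => a) x := by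
    intro x
    unfold lev
    by_cases h : -1 < ‖g x‖ ∧ ‖g x‖ ≤ a
    · rw [if_pos h]
      by_cases h0 : g x = 0
      · rw [h0, norm_zero]
        exact Set.indicator_nonneg (fun _ _ => ha) x
      · rw [Set.indicator_of_mem (by simpa using hs x h0)]
        exact h.2
    · rw [if_neg h, norm_zero]
      exact Set.indicator_nonneg (fun _ _ => ha) x
  have hint : Integrable (lev g (-1) a) :=
    hI.mono' (ls_lev_meas hg _ _).aestronglyMeasurable (Filter.Eventually.of_forall hb)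
  refine ⟨hint, (integral_mono hint.norm hI hb).trans (le_of_eq ?_)⟩
  rw [integral_indicator_const _ Metric.isClosed_closedBall.measurableSet, smul_eq_mul]
  rfl

theorem ls_int_cube {g : E3 → ℂ} (h3 : MemLp g 3 volume) : Integrable fun x => ‖g x‖ ^ 3 := by
  have h3' : MemLp g ((3 : ℕ) : ℝ≥0∞) volume := by
    simpa using h3
  exact h3'.integrable_norm_pow (by norm_num)

theorem ls_lev_norm_le (g : E3 → ℂ) (a b : ℝ) (x : E3) : ‖lev g a b x‖ ≤ ‖g x‖ := by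
  unfold lev
  split_ifs
  · exact le_rfl
  · rw [norm_zero]
    exact norm_nonneg _

theorem ls_lev_int_cube {g : E3 → ℂ} (hg : Measurable g) (h3 : MemLp g 3 volume) (a b : ℝ) :
    Integrable fun x => ‖lev g a b x‖ ^ 3 :=
  (ls_int_cube h3).mono' ((ls_lev_meas hg a b).norm.pow_const 3).aestronglyMeasurable
    (Filter.Eventually.of_forall fun x => by
      rw [Real.norm_of_nonneg (by positivity)]
      exact pow_le_pow_left₀ (norm_nonneg _) (ls_lev_norm_le g a b x) 3)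

/-- the large amplitudes: `‖·‖₁ ≤ a^{-2} ‖g‖₃³` (Chebyshev: `|g| ≤ a^{-2} |g|³` where `a < |g|`) -/
theorem ls_lev_large {g : E3 → ℂ} (hg : Measurable g) (h3 : MemLp g 3 volume) {a : ℝ} (ha : 0 < a) :
    Integrable (levU g a) ∧ ∫ x, ‖levU g a x‖ ≤ (a ^ 2)⁻¹ * ∫ x, ‖g x‖ ^ 3 := by
  have hI := (ls_int_cube h3).const_mul ((a ^ 2)⁻¹)
  have hb : ∀ x, ‖levU g a x‖ ≤ (a ^ 2)⁻¹ * ‖g x‖ ^ 3 := by
    intro x
    unfold levU
    by_cases h : a < ‖g x‖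
    · rw [if_pos h, inv_mul_eq_div, le_div_iff₀ (by positivity)]
      have h1 : a ^ 2 ≤ ‖g x‖ ^ 2 := pow_le_pow_left₀ ha.le h.le 2
      nlinarith [norm_nonneg (g x)]
    · rw [if_neg h, norm_zero]
      positivity
  have hint : Integrable (levU g a) :=
    hI.mono' (ls_levU_meas hg _).aestronglyMeasurable (Filter.Eventually.of_forall hb)
  refine ⟨hint, (integral_mono hint.norm hI hb).trans (le_of_eq ?_)⟩
  rw [integral_const_mul]

/-- a dyadic piece: `B ‖g_ν‖₂² ≤ 2 ‖g_ν‖₃³` with `B = 2a` -/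
theorem ls_lev_mid {g : E3 → ℂ} (hg : Measurable g) (h3 : MemLp g 3 volume) {a : ℝ} (ha : 0 < a) :
    2 * a * ∫ x, ‖lev g a (2 * a) x‖ ^ 2 ≤ 2 * ∫ x, ‖lev g a (2 * a) x‖ ^ 3 := by
  have hI3 := ls_lev_int_cube hg h3 a (2 * a)
  have hb : ∀ x, a * ‖lev g a (2 * a) x‖ ^ 2 ≤ ‖lev g a (2 * a) x‖ ^ 3 := by
    intro x
    unfold lev
    by_cases h : a < ‖g x‖ ∧ ‖g x‖ ≤ 2 * a
    · rw [if_pos h]
      nlinarith [h.1, sq_nonneg ‖g x‖]
    · rw [if_neg h, norm_zero]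
      simp
  have hI2 : Integrable fun x => a * ‖lev g a (2 * a) x‖ ^ 2 :=
    hI3.mono' (((ls_lev_meas hg a (2 * a)).norm.pow_const 2).const_mul a).aestronglyMeasurable
      (Filter.Eventually.of_forall fun x => by
        rw [Real.norm_of_nonneg (by positivity)]
        exact hb x)
  have h1 := integral_mono hI2 hI3 hb
  rw [integral_const_mul] at h1
  linarith

theorem ls_lev_sum_pt (g : E3 → ℂ) {a : ℝ} (ha : 0 < a) (M : ℕ) (x : E3) :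
    ∑ ν ∈ Finset.range M, ‖lev g (2 ^ ν * a) (2 ^ (ν + 1) * a) x‖ ^ 3 ≤ if ‖g x‖ ≤ 2 ^ M * a then ‖g x‖ ^ 3 else 0 := by
  induction M with
  | zero =>
    simp only [Finset.range_zero, Finset.sum_empty]
    split_ifs
    · positivity
    · exact le_rfl
  | succ M ih =>
    have hle : (2 : ℝ) ^ M * a ≤ 2 ^ (M + 1) * a := by
      rw [pow_succ]
      nlinarith [pow_pos (two_pos : (0 : ℝ) < 2) M]
    rw [Finset.sum_range_succ]
    by_cases h1 : ‖g x‖ ≤ 2 ^ M * a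
    · rw [if_pos h1] at ih
      rw [if_pos (h1.trans hle)]
      have : lev g (2 ^ M * a) (2 ^ (M + 1) * a) x = 0 := by
        unfold lev
        exact if_neg fun h' => absurd h1 (not_le.2 h'.1)
      rw [this, norm_zero]
      simpa using ih
    · rw [if_neg h1] at ih
      unfold lev at ih ⊢
      by_cases h2 : ‖g x‖ ≤ 2 ^ (M + 1) * a
      · rw [if_pos h2, if_pos ⟨not_le.1 h1, h2⟩]
        linarith
      · rw [if_neg h2, if_neg fun h' => h2 h'.2, norm_zero]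
        simpa using ih

/-- the pieces are disjoint: `Σ_ν ‖g_ν‖₃³ ≤ ‖g‖₃³` -/
theorem ls_lev_sum {g : E3 → ℂ} (hg : Measurable g) (h3 : MemLp g 3 volume) {a : ℝ} (ha : 0 < a) (M : ℕ) :
    ∑ ν ∈ Finset.range M, ∫ x, ‖lev g (2 ^ ν * a) (2 ^ (ν + 1) * a) x‖ ^ 3 ≤ ∫ x, ‖g x‖ ^ 3 := by
  rw [← integral_finsetSum _ fun ν _ => ls_lev_int_cube hg h3 _ _]
  refine integral_mono (integrable_finsetSum _ fun ν _ => ls_lev_int_cube hg h3 _ _) (ls_int_cube h3) fun x => ?_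
  refine (ls_lev_sum_pt g ha M x).trans ?_
  split_ifs
  · exact le_rfl
  · positivity

/-- `|Σ h_i|³ ≤ (#s)² Σ |h_i|³`   (`ENNReal.rpow_sum_le_const_mul_sum_rpow`, `enorm_sum_le`) -/
theorem ls_cube_sum {ι : Type*} (s : Finset ι) (h : ι → ℂ) :
    ‖∑ i ∈ s, h i‖ₑ ^ (3 : ℝ) ≤ (s.card : ℝ≥0∞) ^ (2 : ℝ) * ∑ i ∈ s, ‖h i‖ₑ ^ (3 : ℝ) := by
  have h1 : ‖∑ i ∈ s, h i‖ₑ ^ (3 : ℝ) ≤ (∑ i ∈ s, ‖h i‖ₑ) ^ (3 : ℝ) :=
    ENNReal.rpow_le_rpow (enorm_sum_le s h) (by norm_num)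
  refine h1.trans ?_
  have h2 := ENNReal.rpow_sum_le_const_mul_sum_rpow s (fun i => ‖h i‖ₑ) (p := 3) (by norm_num)
  have e : (3 : ℝ) - 1 = 2 := by norm_num
  rwa [e] at h2

/-- `(6n+2)² ≤ C 2^{β n}` -/
theorem ls_log_loss (β : ℝ) (hβ : 0 < β) : ∃ C : ℝ, 0 ≤ C ∧ ∀ n : ℕ, ((6 * n + 2 : ℕ) : ℝ) ^ 2 ≤ C * 2 ^ (β * n) := by
  obtain ⟨c, hc⟩ : ∃ c : ℝ, c = β * Real.log 2 := ⟨_, rfl⟩
  have hc0 : 0 < c := by
    rw [hc]
    exact mul_pos hβ (Real.log_pos (by norm_num))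
  refine ⟨4 + 24 / c + 72 / c ^ 2, by positivity, fun n => ?_⟩
  have e1 : (2 : ℝ) ^ (β * n) = Real.exp (c * n) := by
    rw [Real.rpow_def_of_pos (by norm_num), hc]
    congr 1
    ring
  have hx : 0 ≤ c * n := by positivity
  have h1 := Real.quadratic_le_exp_of_nonneg hx
  rw [e1]
  have hC : (0 : ℝ) ≤ 4 + 24 / c + 72 / c ^ 2 := by positivity
  refine le_trans ?_ (mul_le_mul_of_nonneg_left h1 hC)
  push_cast
  have hn : (0 : ℝ) ≤ n := Nat.cast_nonneg n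
  have t1 : 24 / c * (c * n) = 24 * n := by
    field_simp
  have t2 : 72 / c ^ 2 * ((c * n) ^ 2 / 2) = 36 * (n : ℝ) ^ 2 := by
    field_simp
    ring
  have p1 : 0 ≤ 24 / c := by positivity
  have p2 : 0 ≤ 72 / c ^ 2 := by positivity
  have p3 : 0 ≤ (c * n) ^ 2 / 2 := by positivity
  calc (6 * (n : ℝ) + 2) ^ 2 = 4 + 24 * n + 36 * (n : ℝ) ^ 2 := by ring
    _ = 4 + 24 / c * (c * n) + 72 / c ^ 2 * ((c * n) ^ 2 / 2) := by rw [t1, t2]
    _ ≤ (4 + 24 / c + 72 / c ^ 2) * (1 + c * n + (c * n) ^ 2 / 2) := by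
        have q1 := mul_nonneg p1 p3
        have q2 := mul_nonneg p2 hx
        have q3 := mul_nonneg p1 hx
        have q4 := mul_nonneg p2 p3
        nlinarith

/-- a bounded function on the local region -/
theorem ls_lp_sup {F : E3 × ℝ → ℂ} {K : ℝ} (hK : 0 ≤ K) (h : ∀ z, ‖F z‖ ≤ K) :
    ∫⁻ z, ‖F z‖ₑ ^ (3 : ℝ) ∂locμ ≤ ENNReal.ofReal (K ^ 3 * (locμ Set.univ).toReal) := by
  have h1 : ∀ z, ‖F z‖ₑ ^ (3 : ℝ) ≤ ENNReal.ofReal (K ^ 3) := by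
    intro z
    have h2 : ‖F z‖ₑ ≤ ENNReal.ofReal K := by
      rw [← ofReal_norm]
      exact ENNReal.ofReal_le_ofReal (h z)
    calc ‖F z‖ₑ ^ (3 : ℝ) ≤ (ENNReal.ofReal K) ^ (3 : ℝ) := ENNReal.rpow_le_rpow h2 (by norm_num)
      _ = ENNReal.ofReal (K ^ (3 : ℝ)) := ENNReal.ofReal_rpow_of_nonneg hK (by norm_num)
      _ = ENNReal.ofReal (K ^ 3) := by norm_cast
  calc _ ≤ ∫⁻ _, ENNReal.ofReal (K ^ 3) ∂locμ := lintegral_mono h1
    _ = ENNReal.ofReal (K ^ 3) * locμ Set.univ := lintegral_const _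
    _ = _ := by rw [ENNReal.ofReal_mul (by positivity), ENNReal.ofReal_toReal ls_loc_fin.ne]

theorem ls_lp_enorm3 (w : ℂ) : ‖w‖ₑ ^ (3 : ℝ) = ENNReal.ofReal (‖w‖ ^ 3) := by
  rw [← ofReal_norm, ENNReal.ofReal_rpow_of_nonneg (norm_nonneg _) (by norm_num)]
  norm_cast

theorem ls_lp_lev_le (g : E3 → ℂ) (a b : ℝ) (x : E3) : ‖lev g a b x‖ ≤ ‖g x‖ := by
  unfold lev
  split_ifs
  · exact le_rfl
  · simp

theorem ls_lp_lev_bd (g : E3 → ℂ) (a : ℝ) {b : ℝ} (hb : 0 ≤ b) (x : E3) : ‖lev g a b x‖ ≤ b := by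
  unfold lev
  split_ifs with h
  · exact h.2
  · simpa using hb

theorem ls_lp_lev_supp (g : E3 → ℂ) (a b : ℝ) (x : E3) (h : lev g a b x ≠ 0) : g x ≠ 0 := by
  unfold lev at h
  split_ifs at h
  · exact h
  · exact absurd rfl h

theorem ls_lp_num (Cg CL' Cp V Lr P Q I3 k2 S bM bL : ℝ) (hCg0 : 0 ≤ Cg) (_hCL0 : 0 ≤ CL') (hCp0 : 0 ≤ Cp) (hV0 : 0 ≤ V) (hLr0 : 0 ≤ Lr) (hP : 1 ≤ P)
    (hQ : P * P = Q) (hI : 0 ≤ I3) (hk : k2 ≤ Cg * P) (_hk0 : 0 ≤ k2) (hS : S ≤ 2 * CL' * P * I3) (hbM : bM ≤ (Cp * V) ^ 3 * I3 * Lr) (hbL : bL ≤ Cp ^ 3 * I3 * Lr)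
    (hS0 : 0 ≤ S) (hbM0 : 0 ≤ bM) (hbL0 : 0 ≤ bL) :
    k2 * (S + bM + bL) ≤ Cg * (2 * CL' + (Cp * V) ^ 3 * Lr + Cp ^ 3 * Lr) * Q * I3 := by
  have h1 : (Cp * V) ^ 3 * I3 * Lr ≤ (Cp * V) ^ 3 * I3 * Lr * P := le_mul_of_one_le_right (by positivity) hP
  have h2 : Cp ^ 3 * I3 * Lr ≤ Cp ^ 3 * I3 * Lr * P := le_mul_of_one_le_right (by positivity) hP
  have h3 : S + bM + bL ≤ (2 * CL' + (Cp * V) ^ 3 * Lr + Cp ^ 3 * Lr) * I3 * P := by nlinarith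
  calc k2 * (S + bM + bL) ≤ (Cg * P) * ((2 * CL' + (Cp * V) ^ 3 * Lr + Cp ^ 3 * Lr) * I3 * P) :=
        mul_le_mul hk h3 (by positivity) (by positivity)
    _ = _ := by rw [← hQ]; ring

set_option maxHeartbeats 1000000 in
/-- **amplitude levels** (09 l.470-505).
PLAN: `N = (∫ |g|³)^{1/3}`.  If `N = 0` then `g = 0` a.e. (`ls_wop_congr_ae`).  Otherwise `a = 8^{-n} N`, `M = 6 n`; `ls_split`, `ls_wop_gsum`: `wop g = wop g_small + Σ_ν wop g_ν + wop g_large`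
(`6n + 2` terms, `ls_cube_sum`).  `|wop g_small| ≤ C 8^n V 8^{-n} N` and `|wop g_large| ≤ C 8^n (8^n N)^{-2} N³ ≤ C N` (`ls_wop_le`, `ls_pat_int`, `2^{6n} 8^{-n} = 8^n`), integrate over `locμ` (`ls_loc_fin`);
`∫ |wop g_ν|³ ≤ C 2^{β n} B_ν ‖g_ν‖₂² ≤ 2 C 2^{β n} ‖g_ν‖₃³` (`Level` with `β = δ/2`, `ls_lev_mid`), `ls_lev_sum`; `ls_log_loss` with `δ/2`. -/
theorem ls_loc_pat (hL : Level) : LsLoc (fun n η => (pat (2 ^ n) η : ℂ)) := by
  intro δ hδ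
  obtain ⟨CL, hCL⟩ := hL (δ / 2) (by positivity)
  obtain ⟨Cg, hCg0, hCg⟩ := ls_log_loss (δ / 2) (by positivity)
  obtain ⟨Cp, hCp0, hCp⟩ := ls_pat_int
  obtain ⟨V, hV0, hV⟩ := ls_lev_small
  obtain ⟨Lr, hLr⟩ : ∃ Lr : ℝ, Lr = (locμ Set.univ).toReal := ⟨_, rfl⟩
  have hLr0 : 0 ≤ Lr := hLr ▸ ENNReal.toReal_nonneg
  obtain ⟨CL', hCL'⟩ : ∃ c : ℝ, c = max CL 0 := ⟨_, rfl⟩
  have hCL0 : 0 ≤ CL' := hCL' ▸ le_max_right _ _
  have hCLle : CL ≤ CL' := hCL' ▸ le_max_left _ _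
  refine ⟨Cg * (2 * CL' + (Cp * V) ^ 3 * Lr + Cp ^ 3 * Lr), by positivity, ?_⟩
  intro n g hg h3 hs
  obtain ⟨m, hmdef⟩ : ∃ m : E3 → ℂ, m = fun η => (pat (2 ^ n) η : ℂ) := ⟨_, rfl⟩
  have hm : CK m := hmdef ▸ ls_pat_ck (by positivity)
  have hmint : ∫ η, ‖m η‖ ≤ Cp * 8 ^ n := hmdef ▸ hCp n
  have hmint0 : 0 ≤ ∫ η, ‖m η‖ := integral_nonneg fun _ => norm_nonneg _
  show ∫⁻ z, ‖wop (fun η => (pat (2 ^ n) η : ℂ)) g z‖ₑ ^ (3 : ℝ) ∂locμ ≤ _
  rw [← hmdef]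
  -- the cube of the norm
  have hint3 : Integrable (fun x => ‖g x‖ ^ 3) :=
    (show MemLp g ((3 : ℕ) : ℝ≥0∞) volume by exact_mod_cast h3).integrable_norm_pow (by norm_num)
  obtain ⟨I3, hI3⟩ : ∃ I3 : ℝ, I3 = ∫ x, ‖g x‖ ^ 3 := ⟨_, rfl⟩
  have hI30 : 0 ≤ I3 := hI3 ▸ integral_nonneg fun _ => by positivity
  have hI : ∫⁻ x, ‖g x‖ₑ ^ (3 : ℝ) = ENNReal.ofReal I3 := by
    rw [hI3, ofReal_integral_eq_lintegral_ofReal hint3 (Filter.Eventually.of_forall fun x => by positivity)]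
    exact lintegral_congr fun x => ls_lp_enorm3 _
  rw [hI]
  have hgint : Integrable g := ls_int_of_memLp h3 hs
  rcases hI30.eq_or_lt with h0 | hpos
  · -- `g = 0` a.e.
    have hz : g =ᵐ[volume] fun _ => (0 : ℂ) := by
      have := (integral_eq_zero_iff_of_nonneg (fun x => by positivity) hint3).1 (hI3 ▸ h0.symm)
      filter_upwards [this] with x hx
      have hx' : ‖g x‖ ^ 3 = 0 := hx
      exact norm_eq_zero.1 (pow_eq_zero_iff (by norm_num) |>.1 hx')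
    rw [ls_wop_congr_ae m hz]
    have hw : ∀ z, wop m (fun _ => (0 : ℂ)) z = 0 := by
      intro z
      have := ls_wop_le (g := fun _ => (0 : ℂ)) hm z
      simp only [norm_zero, integral_zero, mul_zero] at this
      exact norm_le_zero_iff.1 this
    simp [hw]
  -- the amplitude scale
  obtain ⟨N, hN⟩ : ∃ N : ℝ, N = I3 ^ ((1 : ℝ) / 3) := ⟨_, rfl⟩
  have hNpos : 0 < N := hN ▸ Real.rpow_pos_of_pos hpos _
  have hN3 : N ^ 3 = I3 := by
    rw [hN, ← Real.rpow_natCast, ← Real.rpow_mul hI30]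
    norm_num
  obtain ⟨a, ha⟩ : ∃ a : ℝ, a = N / 8 ^ n := ⟨_, rfl⟩
  have hapos : 0 < a := ha ▸ by positivity
  obtain ⟨M, hM⟩ : ∃ M : ℕ, M = 6 * n := ⟨_, rfl⟩
  have hMa : (2 : ℝ) ^ M * a = 8 ^ n * N := by
    rw [hM, ha, pow_mul, show ((2 : ℝ) ^ 6) = 8 * 8 by norm_num, mul_pow]
    field_simp
  -- the pieces
  obtain ⟨h, hh⟩ : ∃ h : ℕ → E3 → ℂ, h = fun i => if i < M then lev g (2 ^ i * a) (2 ^ (i + 1) * a) else
      if i = M then lev g (-1) a else levU g (2 ^ M * a) := ⟨_, rfl⟩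
  have hh1 : ∀ i, i < M → h i = lev g (2 ^ i * a) (2 ^ (i + 1) * a) := fun i hi => by rw [hh]; simp [hi]
  have hh2 : h M = lev g (-1) a := by rw [hh]; simp
  have hh3 : h (M + 1) = levU g (2 ^ M * a) := by rw [hh]; simp
  have hsmall := hV g a hg hapos.le hs
  have hlarge := ls_lev_large hg h3 (show 0 < (2 : ℝ) ^ M * a by positivity)
  have hlevint : ∀ a' b' : ℝ, Integrable (lev g a' b') := fun a' b' =>
    hgint.mono (ls_lev_meas hg a' b').aestronglyMeasurable (Filter.Eventually.of_forall fun x => ls_lp_lev_le g a' b' x)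
  have hhint : ∀ i ∈ Finset.range (M + 2), Integrable (h i) := by
    intro i hi
    rcases lt_trichotomy i M with h1 | h1 | h1
    · rw [hh1 i h1]; exact hlevint _ _
    · rw [h1, hh2]; exact hlevint _ _
    · have : i = M + 1 := by have := Finset.mem_range.1 hi; omega
      rw [this, hh3]; exact hlarge.1
  have hsplit : g = fun x => ∑ i ∈ Finset.range (M + 2), h i x := by
    funext x
    rw [Finset.sum_range_succ, Finset.sum_range_succ, hh2, hh3, Finset.sum_congr rfl fun i hi => by rw [hh1 i (Finset.mem_range.1 hi)]]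
    rw [ls_split g hapos M x]
    ring
  have hwsum : ∀ z, wop m g z = ∑ i ∈ Finset.range (M + 2), wop m (h i) z := by
    intro z
    conv_lhs => rw [hsplit]
    exact ls_wop_gsum _ hm hhint z
  -- bounds of the pieces
  obtain ⟨P, hP⟩ : ∃ P : ℝ, P = (2 : ℝ) ^ (δ / 2 * n) := ⟨_, rfl⟩
  have hP1 : 1 ≤ P := hP ▸ Real.one_le_rpow (by norm_num) (by positivity)
  have hPP : P * P = (2 : ℝ) ^ (δ * n) := by
    rw [hP, ← Real.rpow_add (by norm_num)]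
    congr 1
    ring
  obtain ⟨J, hJ⟩ : ∃ J : ℕ → ℝ, J = fun ν => ∫ x, ‖lev g (2 ^ ν * a) (2 ^ (ν + 1) * a) x‖ ^ 3 := ⟨_, rfl⟩
  have hJ0 : ∀ ν, 0 ≤ J ν := fun ν => by rw [hJ]; exact integral_nonneg fun _ => by positivity
  have hJsum : ∑ ν ∈ Finset.range M, J ν ≤ I3 := by
    rw [hJ, hI3]; exact ls_lev_sum hg h3 hapos M
  have hmid : ∀ ν, ν < M → ∫⁻ z, ‖wop m (h ν) z‖ₑ ^ (3 : ℝ) ∂locμ ≤ ENNReal.ofReal (2 * CL' * P * J ν) := by
    intro ν hν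
    have hav : 0 < (2 : ℝ) ^ ν * a := by positivity
    have e2 : (2 : ℝ) ^ (ν + 1) * a = 2 * (2 ^ ν * a) := by rw [pow_succ]; ring
    have q1 := hCL n (lev g (2 ^ ν * a) (2 * (2 ^ ν * a))) (2 * (2 ^ ν * a)) (ls_lev_meas hg _ _)
      (fun x => ls_lp_lev_bd g _ (by positivity) x) (fun x hx => hs x (ls_lp_lev_supp g _ _ x hx))
    have q2 := ls_lev_mid hg h3 hav
    rw [hh1 ν hν, e2, hmdef]
    refine q1.trans (ENNReal.ofReal_le_ofReal ?_)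
    have q3 : J ν = ∫ x, ‖lev g (2 ^ ν * a) (2 * (2 ^ ν * a)) x‖ ^ 3 := by rw [hJ]; beta_reduce; rw [e2]
    rw [q3, ← hP]
    have q4 : 0 ≤ 2 * (2 ^ ν * a) * ∫ x, ‖lev g (2 ^ ν * a) (2 * (2 ^ ν * a)) x‖ ^ 2 :=
      mul_nonneg (by positivity) (integral_nonneg fun _ => by positivity)
    calc CL * P * (2 * (2 ^ ν * a)) * ∫ x, ‖lev g (2 ^ ν * a) (2 * (2 ^ ν * a)) x‖ ^ 2
        = (CL * P) * (2 * (2 ^ ν * a) * ∫ x, ‖lev g (2 ^ ν * a) (2 * (2 ^ ν * a)) x‖ ^ 2) := by ring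
      _ ≤ (CL' * P) * (2 * ∫ x, ‖lev g (2 ^ ν * a) (2 * (2 ^ ν * a)) x‖ ^ 3) :=
          mul_le_mul (mul_le_mul_of_nonneg_right hCLle (by positivity)) q2 q4 (by positivity)
      _ = _ := by ring
  have hsm : ∫⁻ z, ‖wop m (h M) z‖ₑ ^ (3 : ℝ) ∂locμ ≤ ENNReal.ofReal ((Cp * V * N) ^ 3 * Lr) := by
    rw [hh2, hLr]
    refine ls_lp_sup (by positivity) fun z => (ls_wop_le hm z).trans ?_
    calc (∫ η, ‖m η‖) * ∫ x, ‖lev g (-1) a x‖ ≤ (Cp * 8 ^ n) * (V * a) :=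
          mul_le_mul hmint hsmall.2 (integral_nonneg fun _ => norm_nonneg _) (by positivity)
      _ = Cp * V * N := by rw [ha]; field_simp
  have hlg : ∫⁻ z, ‖wop m (h (M + 1)) z‖ₑ ^ (3 : ℝ) ∂locμ ≤ ENNReal.ofReal ((Cp * N) ^ 3 * Lr) := by
    rw [hh3, hLr]
    refine ls_lp_sup (by positivity) fun z => (ls_wop_le hm z).trans ?_
    have h8 : (1 : ℝ) ≤ 8 ^ n := one_le_pow₀ (by norm_num)
    calc (∫ η, ‖m η‖) * ∫ x, ‖levU g (2 ^ M * a) x‖ ≤ (Cp * 8 ^ n) * ((((2 : ℝ) ^ M * a) ^ 2)⁻¹ * ∫ x, ‖g x‖ ^ 3) :=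
          mul_le_mul hmint hlarge.2 (integral_nonneg fun _ => norm_nonneg _) (by positivity)
      _ = Cp * N / 8 ^ n := by rw [hMa, ← hI3, ← hN3]; field_simp
      _ ≤ Cp * N := div_le_self (by positivity) h8
  -- assembly
  obtain ⟨b, hb⟩ : ∃ b : ℕ → ℝ, b = fun i => if i < M then 2 * CL' * P * J i else
      if i = M then (Cp * V * N) ^ 3 * Lr else (Cp * N) ^ 3 * Lr := ⟨_, rfl⟩
  have hb1 : ∀ i, i < M → b i = 2 * CL' * P * J i := fun i hi => by rw [hb]; simp [hi]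
  have hb2 : b M = (Cp * V * N) ^ 3 * Lr := by rw [hb]; simp
  have hb3 : b (M + 1) = (Cp * N) ^ 3 * Lr := by rw [hb]; simp
  have hb0 : ∀ i ∈ Finset.range (M + 2), 0 ≤ b i := by
    intro i hi
    rcases lt_trichotomy i M with h1 | h1 | h1
    · rw [hb1 i h1]; have := hJ0 i; positivity
    · rw [h1, hb2]; positivity
    · have : i = M + 1 := by have := Finset.mem_range.1 hi; omega
      rw [this, hb3]; positivity
  have hterm : ∀ i ∈ Finset.range (M + 2), ∫⁻ z, ‖wop m (h i) z‖ₑ ^ (3 : ℝ) ∂locμ ≤ ENNReal.ofReal (b i) := by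
    intro i hi
    rcases lt_trichotomy i M with h1 | h1 | h1
    · rw [hb1 i h1]; exact hmid i h1
    · rw [h1, hb2]; exact hsm
    · have : i = M + 1 := by have := Finset.mem_range.1 hi; omega
      rw [this, hb3]; exact hlg
  have hmeas : ∀ i ∈ Finset.range (M + 2), AEMeasurable (fun z => ‖wop m (h i) z‖ₑ ^ (3 : ℝ)) locμ := by
    intro i hi
    exact ((ls_wop_cont' hm (hhint i hi)).measurable.enorm.pow_const _).aemeasurable
  have hcard : ((Finset.range (M + 2)).card : ℝ≥0∞) ^ (2 : ℝ) = ENNReal.ofReal (((6 * n + 2 : ℕ) : ℝ) ^ 2) := by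
    rw [Finset.card_range, hM, ← ENNReal.ofReal_natCast, ENNReal.ofReal_rpow_of_nonneg (Nat.cast_nonneg _) (by norm_num)]
    norm_cast
  calc ∫⁻ z, ‖wop m g z‖ₑ ^ (3 : ℝ) ∂locμ
      ≤ ∫⁻ z, ((Finset.range (M + 2)).card : ℝ≥0∞) ^ (2 : ℝ) * ∑ i ∈ Finset.range (M + 2), ‖wop m (h i) z‖ₑ ^ (3 : ℝ) ∂locμ :=
        lintegral_mono fun z => by rw [hwsum z]; exact ls_cube_sum _ _
    _ = ((Finset.range (M + 2)).card : ℝ≥0∞) ^ (2 : ℝ) * ∑ i ∈ Finset.range (M + 2), ∫⁻ z, ‖wop m (h i) z‖ₑ ^ (3 : ℝ) ∂locμ := by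
        rw [lintegral_const_mul'' _ (Finset.aemeasurable_fun_sum _ hmeas), lintegral_finsetSum' _ hmeas]
    _ ≤ ENNReal.ofReal (((6 * n + 2 : ℕ) : ℝ) ^ 2) * ∑ i ∈ Finset.range (M + 2), ENNReal.ofReal (b i) := by
        rw [hcard]
        exact mul_le_mul_right (Finset.sum_le_sum hterm) _
    _ = ENNReal.ofReal (((6 * n + 2 : ℕ) : ℝ) ^ 2 * ∑ i ∈ Finset.range (M + 2), b i) := by
        rw [← ENNReal.ofReal_sum_of_nonneg hb0, ← ENNReal.ofReal_mul (by positivity)]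
    _ ≤ ENNReal.ofReal (Cg * (2 * CL' + (Cp * V) ^ 3 * Lr + Cp ^ 3 * Lr) * 2 ^ (δ * n) * I3) := by
        refine ENNReal.ofReal_le_ofReal ?_
        rw [Finset.sum_range_succ, Finset.sum_range_succ, hb2, hb3, Finset.sum_congr rfl fun i hi => hb1 i (Finset.mem_range.1 hi),
          ← Finset.mul_sum]
        refine ls_lp_num Cg CL' Cp V Lr P _ I3 _ _ _ _ hCg0 hCL0 hCp0 hV0 hLr0 hP1 hPP hI30 (hP ▸ hCg n) (by positivity) ?_ ?_ ?_ ?_ ?_ ?_
        · exact mul_le_mul_of_nonneg_left hJsum (by positivity)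
        · rw [← hN3]; exact le_of_eq (by ring)
        · rw [← hN3]; exact le_of_eq (by ring)
        · exact mul_nonneg (by positivity) (Finset.sum_nonneg fun i _ => hJ0 i)
        · positivity
        · positivity
    _ = _ := by rw [ENNReal.ofReal_mul (by positivity)]

/-- `(x,t) ↦ (A x, t)` preserves the local space-time measure -/
theorem ls_loc_fat_mp (A : E3 ≃ₗᵢ[ℝ] E3) : MeasurePreserving (Prod.map A (id : ℝ → ℝ)) locμ locμ := by
  have h1 : MeasurePreserving (Prod.map A (id : ℝ → ℝ)) stμ stμ :=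
    (A.measurePreserving).prod (MeasurePreserving.id _)
  have h2 := h1.restrict_preimage (s := Metric.closedBall (0 : E3) 1 ×ˢ (Set.univ : Set ℝ))
    (Metric.isClosed_closedBall.measurableSet.prod MeasurableSet.univ)
  have h3 : Prod.map A (id : ℝ → ℝ) ⁻¹' (Metric.closedBall (0 : E3) 1 ×ˢ (Set.univ : Set ℝ)) = Metric.closedBall (0 : E3) 1 ×ˢ (Set.univ : Set ℝ) := by
    ext z
    simp
  rw [h3] at h2
  exact h2

/-- **the two patches** (09 l.46-58).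
PLAN: `A` from `ls_refl`; `fat = pat + pat ∘ A` (`ls_fat_pat`), `ls_wop_madd` (`ls_pat_ck`, and `CK` of `pat ∘ A`), `ls_wop_iso`: `wop (pat ∘ A) g (x,t) = wop pat (g ∘ A.symm) (A x, t)`;
`(x,t) ↦ (A x, t)` preserves `locμ` (`LinearIsometryEquiv.measurePreserving`, `MeasurePreserving.prod`/`skew_product`, the ball is invariant); `g ∘ A.symm` has the same `L³` norm and support radius;
`‖a + b‖ₑ³ ≤ 4 (‖a‖ₑ³ + ‖b‖ₑ³)` (`ls_cube_sum` on `Fin 2` or `ENNReal.rpow_add_le_mul_rpow_add_rpow`). -/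
theorem ls_loc_fat (h : LsLoc (fun n η => (pat (2 ^ n) η : ℂ))) : LsLoc (fun n η => (fat (2 ^ n) η : ℂ)) := by
  obtain ⟨A, hA⟩ := ls_refl
  intro δ hδ
  obtain ⟨C, hC, hest⟩ := h δ hδ
  refine ⟨8 * C, by positivity, fun n g hgm hg3 hgs => ?_⟩
  have hs : (0 : ℝ) < 2 ^ n := by positivity
  have hgi : Integrable g := ls_int_of_memLp hg3 hgs
  have hck1 : CK (fun η => (pat (2 ^ n) η : ℂ)) := ls_pat_ck hs
  have hck2 : CK (fun η => (pat (2 ^ n) (A η) : ℂ)) :=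
    ⟨hck1.cont.comp A.continuous, hck1.supp.comp_homeomorph A.toHomeomorph⟩
  obtain ⟨g', hg'⟩ : ∃ g' : E3 → ℂ, g' = fun x => g (A.symm x) := ⟨_, rfl⟩
  have hg'm : Measurable g' := by rw [hg']; exact hgm.comp A.symm.continuous.measurable
  have hg'3 : MemLp g' 3 volume := by rw [hg']; exact hg3.comp_measurePreserving A.symm.measurePreserving
  have hg's : ∀ x, g' x ≠ 0 → ‖x‖ ≤ 6 := fun x hx => by
    rw [hg'] at hx
    have := hgs _ hx
    rwa [A.symm.norm_map] at this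
  have hg'i : Integrable g' := ls_int_of_memLp hg'3 hg's
  have hpt : ∀ z, wop (fun η => (fat (2 ^ n) η : ℂ)) g z
      = wop (fun η => (pat (2 ^ n) η : ℂ)) g z + wop (fun η => (pat (2 ^ n) η : ℂ)) g' (Prod.map A (id : ℝ → ℝ) z) := by
    intro z
    have e : (fun η => (fat (2 ^ n) η : ℂ)) = fun η => (pat (2 ^ n) η : ℂ) + (pat (2 ^ n) (A η) : ℂ) := by
      funext η
      rw [ls_fat_pat A hA]
      push_cast
      rfl
    rw [e, ls_wop_madd hck1 hck2 hgi, ls_wop_iso A (fun η => (pat (2 ^ n) η : ℂ)) g z, hg']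
    rfl
  have hmu : Measurable fun z => ‖wop (fun η => (pat (2 ^ n) η : ℂ)) g z‖ₑ ^ (3 : ℝ) :=
    ((ls_wop_cont' hck1 hgi).measurable.enorm).pow_const 3
  have hmv : Measurable fun z => ‖wop (fun η => (pat (2 ^ n) η : ℂ)) g' z‖ₑ ^ (3 : ℝ) :=
    ((ls_wop_cont' hck1 hg'i).measurable.enorm).pow_const 3
  have hv : ∫⁻ z, ‖wop (fun η => (pat (2 ^ n) η : ℂ)) g' (Prod.map A (id : ℝ → ℝ) z)‖ₑ ^ (3 : ℝ) ∂locμ
      = ∫⁻ z, ‖wop (fun η => (pat (2 ^ n) η : ℂ)) g' z‖ₑ ^ (3 : ℝ) ∂locμ :=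
    (ls_loc_fat_mp A).lintegral_comp hmv
  have hI : ∫⁻ x, ‖g' x‖ₑ ^ (3 : ℝ) = ∫⁻ x, ‖g x‖ₑ ^ (3 : ℝ) := by
    rw [hg']
    exact A.symm.measurePreserving.lintegral_comp (f := fun x => ‖g x‖ₑ ^ (3 : ℝ)) (hgm.enorm.pow_const 3)
  have e1 := hest n g hgm hg3 hgs
  have e2 := hest n g' hg'm hg'3 hg's
  rw [hI] at e2
  have hpw : ∀ z, ‖wop (fun η => (fat (2 ^ n) η : ℂ)) g z‖ₑ ^ (3 : ℝ)
      ≤ 4 * (‖wop (fun η => (pat (2 ^ n) η : ℂ)) g z‖ₑ ^ (3 : ℝ)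
        + ‖wop (fun η => (pat (2 ^ n) η : ℂ)) g' (Prod.map A (id : ℝ → ℝ) z)‖ₑ ^ (3 : ℝ)) := by
    intro z
    rw [hpt z]
    refine (ENNReal.rpow_le_rpow (enorm_add_le _ _) (by norm_num)).trans ?_
    refine (ENNReal.rpow_add_le_mul_rpow_add_rpow _ _ (by norm_num : (1 : ℝ) ≤ 3)).trans (le_of_eq ?_)
    congr 1
    have : (3 : ℝ) - 1 = ((2 : ℕ) : ℝ) := by norm_num
    rw [this, ENNReal.rpow_natCast]
    norm_num
  calc ∫⁻ z, ‖wop (fun η => (fat (2 ^ n) η : ℂ)) g z‖ₑ ^ (3 : ℝ) ∂locμ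
      ≤ ∫⁻ z, 4 * (‖wop (fun η => (pat (2 ^ n) η : ℂ)) g z‖ₑ ^ (3 : ℝ)
        + ‖wop (fun η => (pat (2 ^ n) η : ℂ)) g' (Prod.map A (id : ℝ → ℝ) z)‖ₑ ^ (3 : ℝ)) ∂locμ := lintegral_mono hpw
    _ = 4 * (∫⁻ z, ‖wop (fun η => (pat (2 ^ n) η : ℂ)) g z‖ₑ ^ (3 : ℝ) ∂locμ
        + ∫⁻ z, ‖wop (fun η => (pat (2 ^ n) η : ℂ)) g' z‖ₑ ^ (3 : ℝ) ∂locμ) := by
        rw [lintegral_const_mul' _ _ (by norm_num), lintegral_add_left hmu, hv]
    _ ≤ 4 * (ENNReal.ofReal (C * 2 ^ (δ * n)) * (∫⁻ x, ‖g x‖ₑ ^ (3 : ℝ)) + ENNReal.ofReal (C * 2 ^ (δ * n)) * (∫⁻ x, ‖g x‖ₑ ^ (3 : ℝ))) := by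
        exact mul_le_mul' le_rfl (add_le_add e1 e2)
    _ = ENNReal.ofReal (8 * C * 2 ^ (δ * n)) * ∫⁻ x, ‖g x‖ₑ ^ (3 : ℝ) := by
        rw [mul_assoc 8 C, ENNReal.ofReal_mul (by norm_num : (0 : ℝ) ≤ 8)]
        have : ENNReal.ofReal 8 = 8 := by norm_num
        rw [this]
        ring

end Claimed.Agent.R256
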