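-- KEEP
import Claimed.Agent.R256.Top.Ker

/-!
# Row 256 (LS paper), TOP LAYER L2 : the far kernel bound (09 l.62-75, eq. phys-far-kernel)      (architect helper163; prefix `ls_`)

ROUTE (differs from the paper: no division by the gradient of the phase, the symbols never depend on `x`).
For `φ` smooth with compact support in `ℝ³ \ 0` put `k_λ[φ](x) = wk φ (x, λ) = ∫ e^{2π i(<w,x> + λ|w|)} φ(w) dw`.   One integration by parts in the direction `v`: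
    `<v,x> k_λ[φ] = - λ k_λ[θ_v φ] - (2π i)⁻¹ k_λ[∂_v φ]`,      `θ_v(w) = <v,w>/|w|`                                       (`ls_ibp1`)
Twice, summed over an orthonormal basis, with `Σ θ_j² = 1`:      `(|x|² - λ²) k_λ[φ] = λ k_λ[φA] + k_λ[φB]`                 (`ls_ibp2`)
Induction:  `| |x|² - λ² |^k |k_λ[φ](x)| ≤ C_k(φ) λ^k`  for `λ ≥ 1`                                                       (`ls_ibpk`)
so `|k_λ[φ](x)| ≤ C |x|^{-4}` for `|x| ≥ 2λ`, and by scaling `|K_{n,t}(x)| ≤ C |x|^{-4}` for `|x| ≥ 4`, `1 ≤ t ≤ 2`, all `n`.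
Every `sorry` is a leaf.  EDIT IN PLACE, statements are frozen.
-/

set_option autoImplicit false

namespace Claimed.Agent.R256

open MeasureTheory Complex Claimed.Agent.R255.BR
open scoped FourierTransform Real SchwartzMap InnerProductSpace ENNReal ContDiff

/-- symbols: smooth, compact support, vanishing near `0` -/
structure Sy (φ : E3 → ℂ) : Prop where
  smooth : ContDiff ℝ ∞ φ
  supp : HasCompactSupport φ
  zero : ∃ r : ℝ, 0 < r ∧ ∀ w : E3, ‖w‖ < r → φ w = 0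

theorem Sy.integrable {φ : E3 → ℂ} (h : Sy φ) : Integrable φ :=
  h.smooth.continuous.integrable_of_hasCompactSupport h.supp

theorem Sy.add {φ ψ : E3 → ℂ} (h : Sy φ) (h' : Sy ψ) : Sy (fun w => φ w + ψ w) := by
  obtain ⟨r, hr, h0⟩ := h.zero
  obtain ⟨r', hr', h0'⟩ := h'.zero
  refine ⟨h.smooth.add h'.smooth, h.supp.add h'.supp, min r r', lt_min hr hr', fun w hw => ?_⟩
  rw [h0 w (lt_of_lt_of_le hw (min_le_left _ _)), h0' w (lt_of_lt_of_le hw (min_le_right _ _)), add_zero]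

theorem Sy.const_mul {φ : E3 → ℂ} (h : Sy φ) (c : ℂ) : Sy (fun w => c * φ w) := by
  obtain ⟨r, hr, h0⟩ := h.zero
  refine ⟨contDiff_const.mul h.smooth, h.supp.mul_left, r, hr, fun w hw => ?_⟩
  rw [h0 w hw, mul_zero]

theorem Sy.sum {ι : Type*} (s : Finset ι) {φ : ι → E3 → ℂ} (h : ∀ i ∈ s, Sy (φ i)) : Sy (fun w => ∑ i ∈ s, φ i w) := by
  classical
  induction s using Finset.induction_on with
  | empty =>
    simp only [Finset.sum_empty]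
    exact ⟨contDiff_const, HasCompactSupport.zero, 1, one_pos, fun _ _ => rfl⟩
  | insert a s ha ih =>
    have h1 : Sy (φ a) := h a (Finset.mem_insert_self _ _)
    have h2 : Sy (fun w => ∑ i ∈ s, φ i w) := ih (fun i hi => h i (Finset.mem_insert_of_mem hi))
    have := h1.add h2
    simpa only [Finset.sum_insert ha] using this

/-- multiplication by a function which is smooth off the origin
(`contDiff_iff_contDiffAt`; near a point `w` with `‖w‖ < r` the product is locally `0`, elsewhere `w ≠ 0`) -/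
theorem Sy.mul_left {φ a : E3 → ℂ} (h : Sy φ) (ha : ContDiffOn ℝ ∞ a {0}ᶜ) : Sy (fun w => a w * φ w) := by
  obtain ⟨r, hr, h0⟩ := h.zero
  refine ⟨?_, h.supp.mul_left, r, hr, fun w hw => by rw [h0 w hw, mul_zero]⟩
  rw [contDiff_iff_contDiffAt]
  intro w
  by_cases hw : ‖w‖ < r
  · have hev : (fun w => a w * φ w) =ᶠ[nhds w] fun _ => (0 : ℂ) := by
      have hopen : IsOpen {w : E3 | ‖w‖ < r} := isOpen_lt continuous_norm continuous_const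
      filter_upwards [hopen.mem_nhds hw] with y hy
      rw [h0 y hy, mul_zero]
    exact contDiffAt_const.congr_of_eventuallyEq hev
  · have hw0 : w ≠ 0 := by
      rintro rfl
      exact hw (by simpa using hr)
    have h1 : ContDiffAt ℝ ∞ a w := ha.contDiffAt (isOpen_compl_singleton.mem_nhds hw0)
    exact h1.mul h.smooth.contDiffAt

theorem Sy.theta {φ : E3 → ℂ} (h : Sy φ) (v : E3) : Sy (fun w => ((⟪v, w⟫_ℝ / ‖w‖ : ℝ) : ℂ) * φ w) := by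
  refine h.mul_left (a := fun w => ((⟪v, w⟫_ℝ / ‖w‖ : ℝ) : ℂ)) ?_
  intro w hw
  have hw0 : w ≠ 0 := hw
  have h1 : ContDiffAt ℝ ∞ (fun w : E3 => ⟪v, w⟫_ℝ / ‖w‖) w :=
    (contDiffAt_const.inner ℝ contDiffAt_id).div (contDiffAt_norm ℝ hw0) (norm_ne_zero_iff.2 hw0)
  exact (Complex.ofRealCLM.contDiff.contDiffAt.comp w h1).contDiffWithinAt

theorem Sy.fderiv {φ : E3 → ℂ} (h : Sy φ) (v : E3) : Sy (fun w => fderiv ℝ φ w v) := by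
  obtain ⟨r, hr, h0⟩ := h.zero
  refine ⟨?_, h.supp.fderiv_apply (𝕜 := ℝ) v, r, hr, fun w hw => ?_⟩
  · exact (h.smooth.fderiv_right (m := ∞) (by simp)).clm_apply contDiff_const
  · have hev : φ =ᶠ[nhds w] fun _ => (0 : ℂ) := by
      have hopen : IsOpen {w : E3 | ‖w‖ < r} := isOpen_lt continuous_norm continuous_const
      filter_upwards [hopen.mem_nhds hw] with y hy
      exact h0 y hy
    rw [hev.fderiv_eq]
    simp

theorem ls_ee_hasDerivAt (s : ℝ) : HasDerivAt ee (2 * π * I * ee s) s := by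
  unfold ee
  have h1 : HasDerivAt (fun θ : ℝ => (((2 * π * θ : ℝ) : ℂ) * I)) (2 * π * I) s := by
    have h2 : HasDerivAt (fun θ : ℝ => ((θ : ℝ) : ℂ)) 1 s := Complex.ofRealCLM.hasDerivAt
    have h3 := h2.const_mul (2 * π * I : ℂ)
    have e : (fun θ : ℝ => (((2 * π * θ : ℝ) : ℂ) * I)) = fun y : ℝ => 2 * π * I * (y : ℂ) := by
      funext θ; push_cast; ring
    rw [e]
    simpa using h3
  exact h1.cexp.congr_deriv (by ring)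

/-- the derivative of the phase along a line, off the origin -/
theorem ls_phase_line {w : E3} (hw : w ≠ 0) (v x : E3) (lam : ℝ) :
    HasLineDerivAt ℝ (fun w : E3 => ⟪w, x⟫_ℝ + lam * ‖w‖) (⟪v, x⟫_ℝ + lam * (⟪v, w⟫_ℝ / ‖w‖)) w v := by
  show HasDerivAt (fun t : ℝ => ⟪w + t • v, x⟫_ℝ + lam * ‖w + t • v‖) (⟪v, x⟫_ℝ + lam * (⟪v, w⟫_ℝ / ‖w‖)) 0
  have hγ : HasDerivAt (fun t : ℝ => w + t • v) v 0 := by
    simpa using ((hasDerivAt_id (0 : ℝ)).smul_const v).const_add w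
  have h1 : HasDerivAt (fun t : ℝ => ⟪w + t • v, x⟫_ℝ) ⟪v, x⟫_ℝ 0 := by
    have := hγ.inner ℝ (hasDerivAt_const (0 : ℝ) x)
    simpa using this
  have h2 : HasDerivAt (fun t : ℝ => ‖w + t • v‖ ^ 2) (2 * ⟪w + (0 : ℝ) • v, v⟫_ℝ) 0 := hγ.norm_sq
  have hw' : ‖w + (0 : ℝ) • v‖ ^ 2 ≠ 0 := by simpa using hw
  have h3 := h2.sqrt hw'
  have e1 : (fun t : ℝ => Real.sqrt (‖w + t • v‖ ^ 2)) = fun t : ℝ => ‖w + t • v‖ := by
    funext t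
    exact Real.sqrt_sq (norm_nonneg _)
  rw [e1] at h3
  have e2 : 2 * ⟪w + (0 : ℝ) • v, v⟫_ℝ / (2 * Real.sqrt (‖w + (0 : ℝ) • v‖ ^ 2)) = ⟪v, w⟫_ℝ / ‖w‖ := by
    rw [Real.sqrt_sq (norm_nonneg _), zero_smul, add_zero, real_inner_comm, mul_div_mul_left _ _ two_ne_zero]
  rw [e2] at h3
  exact h1.add (h3.const_mul lam)

/-- the derivative of the oscillating factor along a line, off the origin -/
theorem ls_osc_line {w : E3} (hw : w ≠ 0) (v x : E3) (lam : ℝ) :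
    HasLineDerivAt ℝ (fun w : E3 => ee (⟪w, x⟫_ℝ + lam * ‖w‖))
      (2 * π * I * (((⟪v, x⟫_ℝ : ℝ) : ℂ) + (lam : ℂ) * ((⟪v, w⟫_ℝ / ‖w‖ : ℝ) : ℂ)) * ee (⟪w, x⟫_ℝ + lam * ‖w‖)) w v := by
  have h1 : HasDerivAt (fun t : ℝ => ⟪w + t • v, x⟫_ℝ + lam * ‖w + t • v‖) (⟪v, x⟫_ℝ + lam * (⟪v, w⟫_ℝ / ‖w‖)) 0 :=
    ls_phase_line hw v x lam
  have h2 := (ls_ee_hasDerivAt (⟪w + (0 : ℝ) • v, x⟫_ℝ + lam * ‖w + (0 : ℝ) • v‖)).scomp (0 : ℝ) h1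
  show HasDerivAt (fun t : ℝ => ee (⟪w + t • v, x⟫_ℝ + lam * ‖w + t • v‖)) _ 0
  refine h2.congr_deriv ?_
  rw [zero_smul, add_zero, Complex.real_smul]
  push_cast
  ring

theorem ls_osc_int {F : E3 → ℂ} (hF : Integrable F) (x : E3) (lam : ℝ) :
    Integrable (fun w : E3 => ee (⟪w, x⟫_ℝ + lam * ‖w‖) * F w) := by
  have hc : Continuous (fun w : E3 => ee (⟪w, x⟫_ℝ + lam * ‖w‖)) := by
    refine continuous_ee.comp ?_
    fun_prop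
  refine hF.bdd_mul (c := 1) hc.aestronglyMeasurable (Filter.Eventually.of_forall fun w => ?_)
  rw [norm_ee]

theorem Sy.ne_zero_of_mem_tsupport {φ : E3 → ℂ} (h : Sy φ) {w : E3} (hw : w ∈ tsupport φ) : w ≠ 0 := by
  obtain ⟨r, hr, h0⟩ := h.zero
  rintro rfl
  have h1 : (0 : E3) ∉ tsupport φ := by
    rw [notMem_tsupport_iff_eventuallyEq]
    filter_upwards [Metric.ball_mem_nhds (0 : E3) hr] with y hy
    exact h0 y (by simpa using hy)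
  exact h1 hw

/-- **one integration by parts.**   PLAN: `u w = ee (<w,x> + λ|w|) * φ w` is `C¹` with compact support (`Sy.mul_left`), so `∫ fderiv ℝ u w v = 0`
(`integral_fderiv_eq_zero`-type: e.g. `integral_mul_fderiv_eq_neg_fderiv_mul_of_integrable` with the constant function `1`, or
`integral_bilinear_hasLineDerivAt_right_eq_neg_left_of_integrable`);  for `w ≠ 0`
`fderiv u w v = 2π i (<v,x> + λ <v,w>/|w|) ee(..) φ w + ee(..) fderiv φ w v`, and both sides vanish for `‖w‖ < r`. -/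
theorem ls_ibp1 {φ : E3 → ℂ} (h : Sy φ) (v x : E3) (lam : ℝ) :
    ((⟪v, x⟫_ℝ : ℝ) : ℂ) * wk φ (x, lam)
      = -(lam : ℂ) * wk (fun w => ((⟪v, w⟫_ℝ / ‖w‖ : ℝ) : ℂ) * φ w) (x, lam)
        - (2 * π * I)⁻¹ * wk (fun w => fderiv ℝ φ w v) (x, lam) := by
  have hθ := h.theta v
  have hd := h.fderiv v
  have key := integral_bilinear_hasLineDerivAt_right_eq_neg_left_of_integrable (μ := (volume : Measure E3))
    (f := fun w : E3 => ee (⟪w, x⟫_ℝ + lam * ‖w‖))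
    (f' := fun w : E3 => 2 * π * I * (((⟪v, x⟫_ℝ : ℝ) : ℂ) + (lam : ℂ) * ((⟪v, w⟫_ℝ / ‖w‖ : ℝ) : ℂ)) * ee (⟪w, x⟫_ℝ + lam * ‖w‖))
    (g := φ) (g' := fun w => fderiv ℝ φ w v) (v := v) (B := ContinuousLinearMap.mul ℝ ℂ) ?_ ?_ ?_ ?_ ?_
  · simp only [ContinuousLinearMap.mul_apply'] at key
    have e1 : (fun w : E3 => 2 * π * I * (((⟪v, x⟫_ℝ : ℝ) : ℂ) + (lam : ℂ) * ((⟪v, w⟫_ℝ / ‖w‖ : ℝ) : ℂ)) * ee (⟪w, x⟫_ℝ + lam * ‖w‖) * φ w)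
        = fun w : E3 => (2 * π * I * ((⟪v, x⟫_ℝ : ℝ) : ℂ)) * (ee (⟪w, x⟫_ℝ + lam * ‖w‖) * φ w)
          + (2 * π * I * (lam : ℂ)) * (ee (⟪w, x⟫_ℝ + lam * ‖w‖) * (((⟪v, w⟫_ℝ / ‖w‖ : ℝ) : ℂ) * φ w)) := by
      funext w
      ring
    rw [e1, integral_add ((ls_osc_int h.integrable x lam).const_mul _) ((ls_osc_int hθ.integrable x lam).const_mul _),
      integral_const_mul, integral_const_mul] at key
    rw [ls_wk_eq, ls_wk_eq, ls_wk_eq]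
    simp only []
    rw [key]
    have hpi : (2 * π * I : ℂ) ≠ 0 := by
      simp [Real.pi_ne_zero, Complex.I_ne_zero]
    field_simp
    ring
  · simp only [ContinuousLinearMap.mul_apply']
    have e1 : (fun w : E3 => 2 * π * I * (((⟪v, x⟫_ℝ : ℝ) : ℂ) + (lam : ℂ) * ((⟪v, w⟫_ℝ / ‖w‖ : ℝ) : ℂ)) * ee (⟪w, x⟫_ℝ + lam * ‖w‖) * φ w)
        = fun w : E3 => (2 * π * I * ((⟪v, x⟫_ℝ : ℝ) : ℂ)) * (ee (⟪w, x⟫_ℝ + lam * ‖w‖) * φ w)
          + (2 * π * I * (lam : ℂ)) * (ee (⟪w, x⟫_ℝ + lam * ‖w‖) * (((⟪v, w⟫_ℝ / ‖w‖ : ℝ) : ℂ) * φ w)) := by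
      funext w
      ring
    rw [e1]
    exact ((ls_osc_int h.integrable x lam).const_mul _).add ((ls_osc_int hθ.integrable x lam).const_mul _)
  · simp only [ContinuousLinearMap.mul_apply']
    exact ls_osc_int hd.integrable x lam
  · simp only [ContinuousLinearMap.mul_apply']
    exact ls_osc_int h.integrable x lam
  · intro w hw
    exact ls_osc_line (h.ne_zero_of_mem_tsupport hw) v x lam
  · intro w _
    exact ((h.smooth.differentiable (by simp)) w).hasFDerivAt.hasLineDerivAt v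

theorem ls_wk_add3 {F : Fin 3 → E3 → ℂ} (hF : ∀ j, Integrable (F j)) (z : E3 × ℝ) :
    wk (fun η => ∑ j, F j η) z = ∑ j, wk (F j) z := by
  have e : (fun η => ∑ j, F j η) = fun η => (F 0 η + F 1 η) + F 2 η := by
    funext η
    rw [Fin.sum_univ_three]
  have h01 : Integrable (fun η => F 0 η + F 1 η) := (hF 0).add (hF 1)
  rw [e, ls_wk_add h01 (hF 2), ls_wk_add (hF 0) (hF 1), Fin.sum_univ_three]

theorem ls_theta_sq (w : E3) (hw : w ≠ 0) :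
    ∑ j : Fin 3, (⟪(EuclideanSpace.single j (1 : ℝ) : E3), w⟫_ℝ / ‖w‖) ^ 2 = 1 := by
  have h1 : ∀ j : Fin 3, ⟪(EuclideanSpace.single j (1 : ℝ) : E3), w⟫_ℝ = w j := by
    intro j
    simp [EuclideanSpace.inner_single_left]
  have h2 : ‖w‖ ^ 2 = ∑ j : Fin 3, w j ^ 2 := by
    rw [EuclideanSpace.norm_sq_eq]
    simp
  have h3 : ‖w‖ ^ 2 ≠ 0 := by positivity
  simp only [h1, div_pow]
  rw [← Finset.sum_div, ← h2, div_self h3]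

theorem ls_norm_sq_basis (x : E3) :
    ‖x‖ ^ 2 = ∑ j : Fin 3, ⟪(EuclideanSpace.single j (1 : ℝ) : E3), x⟫_ℝ ^ 2 := by
  have h1 : ∀ j : Fin 3, ⟪(EuclideanSpace.single j (1 : ℝ) : E3), x⟫_ℝ = x j := by
    intro j
    simp [EuclideanSpace.inner_single_left]
  simp only [h1]
  rw [EuclideanSpace.norm_sq_eq]
  simp

/-- **two integrations by parts.**   PLAN: `e j = EuclideanSpace.single j 1`; `‖x‖² = Σ_j <e j, x>²`, `Σ_j (<e j,w>/|w|)² = 1` for `w ≠ 0` (and `φ 0 = 0`);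
`φA = c Σ_j (∂_j (θ_j φ) + θ_j ∂_j φ)`, `φB = c² Σ_j ∂_j ∂_j φ`, `c = (2π i)⁻¹`;  `ls_ibp1` for `φ`, `θ_j φ`, `∂_j φ`; `ls_wk_add`, `ls_wk_smul`. -/
theorem ls_ibp2 {φ : E3 → ℂ} (h : Sy φ) :
    ∃ φA φB : E3 → ℂ, Sy φA ∧ Sy φB ∧ ∀ (x : E3) (lam : ℝ),
      ((‖x‖ ^ 2 - lam ^ 2 : ℝ) : ℂ) * wk φ (x, lam) = (lam : ℂ) * wk φA (x, lam) + wk φB (x, lam) := by
  obtain ⟨c, hc⟩ : ∃ c : ℂ, c = (2 * π * I)⁻¹ := ⟨_, rfl⟩
  obtain ⟨e, he⟩ : ∃ e : Fin 3 → E3, e = fun j => EuclideanSpace.single j (1 : ℝ) := ⟨_, rfl⟩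
  -- the four families of symbols
  have s1 : ∀ j, Sy (fun w => ((⟪e j, w⟫_ℝ / ‖w‖ : ℝ) : ℂ) * φ w) := fun j => h.theta (e j)
  have s2 : ∀ j, Sy (fun w => fderiv ℝ φ w (e j)) := fun j => h.fderiv (e j)
  have s11 : ∀ j, Sy (fun w => ((⟪e j, w⟫_ℝ / ‖w‖ : ℝ) : ℂ) * (((⟪e j, w⟫_ℝ / ‖w‖ : ℝ) : ℂ) * φ w)) := fun j => (s1 j).theta (e j)
  have s12 : ∀ j, Sy (fun w => fderiv ℝ (fun w => ((⟪e j, w⟫_ℝ / ‖w‖ : ℝ) : ℂ) * φ w) w (e j)) := fun j => (s1 j).fderiv (e j)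
  have s21 : ∀ j, Sy (fun w => ((⟪e j, w⟫_ℝ / ‖w‖ : ℝ) : ℂ) * fderiv ℝ φ w (e j)) := fun j => (s2 j).theta (e j)
  have s22 : ∀ j, Sy (fun w => fderiv ℝ (fun w => fderiv ℝ φ w (e j)) w (e j)) := fun j => (s2 j).fderiv (e j)
  have sA : ∀ j, Sy (fun w => c * (fderiv ℝ (fun w => ((⟪e j, w⟫_ℝ / ‖w‖ : ℝ) : ℂ) * φ w) w (e j)
      + ((⟪e j, w⟫_ℝ / ‖w‖ : ℝ) : ℂ) * fderiv ℝ φ w (e j))) := fun j => ((s12 j).add (s21 j)).const_mul c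
  have sB : ∀ j, Sy (fun w => c ^ 2 * fderiv ℝ (fun w => fderiv ℝ φ w (e j)) w (e j)) := fun j => (s22 j).const_mul (c ^ 2)
  refine ⟨fun w => ∑ j, c * (fderiv ℝ (fun w => ((⟪e j, w⟫_ℝ / ‖w‖ : ℝ) : ℂ) * φ w) w (e j)
      + ((⟪e j, w⟫_ℝ / ‖w‖ : ℝ) : ℂ) * fderiv ℝ φ w (e j)),
    fun w => ∑ j, c ^ 2 * fderiv ℝ (fun w => fderiv ℝ φ w (e j)) w (e j),
    Sy.sum Finset.univ fun j _ => sA j, Sy.sum Finset.univ fun j _ => sB j, fun x lam => ?_⟩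
  rw [ls_wk_add3 (fun j => (sA j).integrable), ls_wk_add3 (fun j => (sB j).integrable)]
  -- one direction
  have hj : ∀ j, ((⟪e j, x⟫_ℝ ^ 2 : ℝ) : ℂ) * wk φ (x, lam)
      = (lam : ℂ) ^ 2 * wk (fun w => ((⟪e j, w⟫_ℝ / ‖w‖ : ℝ) : ℂ) * (((⟪e j, w⟫_ℝ / ‖w‖ : ℝ) : ℂ) * φ w)) (x, lam)
        + (lam : ℂ) * wk (fun w => c * (fderiv ℝ (fun w => ((⟪e j, w⟫_ℝ / ‖w‖ : ℝ) : ℂ) * φ w) w (e j)
            + ((⟪e j, w⟫_ℝ / ‖w‖ : ℝ) : ℂ) * fderiv ℝ φ w (e j))) (x, lam)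
        + wk (fun w => c ^ 2 * fderiv ℝ (fun w => fderiv ℝ φ w (e j)) w (e j)) (x, lam) := by
    intro j
    have a0 := ls_ibp1 h (e j) x lam
    have a1 := ls_ibp1 (s1 j) (e j) x lam
    have a2 := ls_ibp1 (s2 j) (e j) x lam
    rw [← hc] at a0 a1 a2
    rw [ls_wk_smul, ls_wk_smul, ls_wk_add (s12 j).integrable (s21 j).integrable, Complex.ofReal_pow]
    calc ((⟪e j, x⟫_ℝ : ℝ) : ℂ) ^ 2 * wk φ (x, lam)
        = ((⟪e j, x⟫_ℝ : ℝ) : ℂ) * (((⟪e j, x⟫_ℝ : ℝ) : ℂ) * wk φ (x, lam)) := by ring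
      _ = -(lam : ℂ) * (((⟪e j, x⟫_ℝ : ℝ) : ℂ) * wk (fun w => ((⟪e j, w⟫_ℝ / ‖w‖ : ℝ) : ℂ) * φ w) (x, lam))
          - c * (((⟪e j, x⟫_ℝ : ℝ) : ℂ) * wk (fun w => fderiv ℝ φ w (e j)) (x, lam)) := by rw [a0]; ring
      _ = _ := by rw [a1, a2]; ring
  -- the sum of the squares of the angular factors
  have hsum : ∑ j, wk (fun w => ((⟪e j, w⟫_ℝ / ‖w‖ : ℝ) : ℂ) * (((⟪e j, w⟫_ℝ / ‖w‖ : ℝ) : ℂ) * φ w)) (x, lam) = wk φ (x, lam) := by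
    rw [← ls_wk_add3 (fun j => (s11 j).integrable)]
    congr 1
    funext w
    by_cases hw : w = 0
    · obtain ⟨r, hr, h0⟩ := h.zero
      have : φ w = 0 := h0 w (by rw [hw, norm_zero]; exact hr)
      simp [this]
    · have h1 := ls_theta_sq w hw
      have h2 : ∑ j, (((⟪e j, w⟫_ℝ / ‖w‖ : ℝ) : ℂ)) ^ 2 = 1 := by
        rw [he]
        exact_mod_cast h1
      calc ∑ j, ((⟪e j, w⟫_ℝ / ‖w‖ : ℝ) : ℂ) * (((⟪e j, w⟫_ℝ / ‖w‖ : ℝ) : ℂ) * φ w)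
          = (∑ j, (((⟪e j, w⟫_ℝ / ‖w‖ : ℝ) : ℂ)) ^ 2) * φ w := by
            rw [Finset.sum_mul]
            exact Finset.sum_congr rfl fun j _ => by ring
        _ = φ w := by rw [h2, one_mul]
  have hx : ((‖x‖ ^ 2 : ℝ) : ℂ) = ∑ j, ((⟪e j, x⟫_ℝ ^ 2 : ℝ) : ℂ) := by
    rw [ls_norm_sq_basis x, he]
    push_cast
    rfl
  have htot : ((‖x‖ ^ 2 : ℝ) : ℂ) * wk φ (x, lam) = ∑ j, ((⟪e j, x⟫_ℝ ^ 2 : ℝ) : ℂ) * wk φ (x, lam) := by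
    rw [hx, Finset.sum_mul]
  rw [Finset.sum_congr rfl fun j _ => hj j, Finset.sum_add_distrib, Finset.sum_add_distrib, ← Finset.mul_sum, ← Finset.mul_sum, hsum] at htot
  have : ((‖x‖ ^ 2 - lam ^ 2 : ℝ) : ℂ) = ((‖x‖ ^ 2 : ℝ) : ℂ) - (lam : ℂ) ^ 2 := by push_cast; ring
  rw [this, sub_mul, htot]
  ring

/-- induction on `k` (generalising `φ`); base case `ls_wk_le` -/
theorem ls_ibpk (k : ℕ) {φ : E3 → ℂ} (h : Sy φ) :
    ∃ C : ℝ, 0 ≤ C ∧ ∀ (lam : ℝ) (x : E3), 1 ≤ lam → |‖x‖ ^ 2 - lam ^ 2| ^ k * ‖wk φ (x, lam)‖ ≤ C * lam ^ k := by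
  induction k generalizing φ with
  | zero =>
    refine ⟨∫ η, ‖φ η‖, by positivity, fun lam x _ => ?_⟩
    simpa using ls_wk_le φ (x, lam)
  | succ k ih =>
    obtain ⟨φA, φB, hA, hB, hAB⟩ := ls_ibp2 h
    obtain ⟨CA, hCA, hA'⟩ := ih hA
    obtain ⟨CB, hCB, hB'⟩ := ih hB
    refine ⟨CA + CB, by positivity, fun lam x hl => ?_⟩
    have h1 : |‖x‖ ^ 2 - lam ^ 2| * ‖wk φ (x, lam)‖ ≤ lam * ‖wk φA (x, lam)‖ + ‖wk φB (x, lam)‖ := by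
      have := congrArg norm (hAB x lam)
      rw [norm_mul, Complex.norm_real, Real.norm_eq_abs] at this
      rw [this]
      refine (norm_add_le _ _).trans ?_
      rw [norm_mul, Complex.norm_real, Real.norm_eq_abs, abs_of_nonneg (by linarith)]
    have h0 : 0 ≤ |‖x‖ ^ 2 - lam ^ 2| ^ k := by positivity
    have hlk : 0 ≤ lam ^ k := by positivity
    calc |‖x‖ ^ 2 - lam ^ 2| ^ (k + 1) * ‖wk φ (x, lam)‖
        = |‖x‖ ^ 2 - lam ^ 2| ^ k * (|‖x‖ ^ 2 - lam ^ 2| * ‖wk φ (x, lam)‖) := by ring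
      _ ≤ |‖x‖ ^ 2 - lam ^ 2| ^ k * (lam * ‖wk φA (x, lam)‖ + ‖wk φB (x, lam)‖) := by gcongr
      _ = lam * (|‖x‖ ^ 2 - lam ^ 2| ^ k * ‖wk φA (x, lam)‖) + |‖x‖ ^ 2 - lam ^ 2| ^ k * ‖wk φB (x, lam)‖ := by ring
      _ ≤ lam * (CA * lam ^ k) + CB * lam ^ k := by
          have := hA' lam x hl
          have := hB' lam x hl
          gcongr
      _ ≤ lam * (CA * lam ^ k) + lam * (CB * lam ^ k) := by
          have : 0 ≤ CB * lam ^ k := by positivity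
          nlinarith
      _ = (CA + CB) * lam ^ (k + 1) := by ring

/-- `k = 4` : `(3/4 |x|²)^4 |k| ≤ C λ⁴ ≤ C (|x|/2)⁴` -/
theorem ls_far_unit {φ : E3 → ℂ} (h : Sy φ) :
    ∃ C : ℝ, 0 ≤ C ∧ ∀ (lam : ℝ) (x : E3), 1 ≤ lam → 2 * lam ≤ ‖x‖ → ‖wk φ (x, lam)‖ ≤ C * (‖x‖ ^ 4)⁻¹ := by
  obtain ⟨C, hC, hk⟩ := ls_ibpk 4 h
  refine ⟨C, hC, fun lam x h1 h2 => ?_⟩
  have h3 := hk lam x h1
  have hx : 0 < ‖x‖ := by linarith
  have hx4 : 0 < ‖x‖ ^ 4 := by positivity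
  have hn : 0 ≤ ‖wk φ (x, lam)‖ := norm_nonneg _
  have h4 : 3 / 4 * ‖x‖ ^ 2 ≤ |‖x‖ ^ 2 - lam ^ 2| := by
    refine le_trans ?_ (le_abs_self _)
    nlinarith
  have h5 : (3 / 4 * ‖x‖ ^ 2) ^ 4 ≤ |‖x‖ ^ 2 - lam ^ 2| ^ 4 := pow_le_pow_left₀ (by positivity) h4 4
  have h6 : lam ^ 4 ≤ (‖x‖ / 2) ^ 4 := pow_le_pow_left₀ (by linarith) (by linarith) 4
  have h7 : (3 / 4 * ‖x‖ ^ 2) ^ 4 * ‖wk φ (x, lam)‖ ≤ C * (‖x‖ / 2) ^ 4 :=
    calc (3 / 4 * ‖x‖ ^ 2) ^ 4 * ‖wk φ (x, lam)‖ ≤ |‖x‖ ^ 2 - lam ^ 2| ^ 4 * ‖wk φ (x, lam)‖ := by gcongr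
      _ ≤ C * lam ^ 4 := h3
      _ ≤ C * (‖x‖ / 2) ^ 4 := by gcongr
  rw [← div_eq_mul_inv, le_div_iff₀ hx4]
  have h8 : (81 / 256 * ‖x‖ ^ 4) * (‖wk φ (x, lam)‖ * ‖x‖ ^ 4) ≤ (81 / 256 * ‖x‖ ^ 4) * C := by
    have e1 : (81 / 256 * ‖x‖ ^ 4) * (‖wk φ (x, lam)‖ * ‖x‖ ^ 4) = (3 / 4 * ‖x‖ ^ 2) ^ 4 * ‖wk φ (x, lam)‖ := by ring
    rw [e1]
    refine h7.trans ?_
    have : C * (‖x‖ / 2) ^ 4 = (1 / 16 * ‖x‖ ^ 4) * C := by ring
    rw [this]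
    have h9 : (1 / 16 : ℝ) ≤ 81 / 256 := by norm_num
    exact mul_le_mul_of_nonneg_right (mul_le_mul_of_nonneg_right h9 hx4.le) hC
  exact le_of_mul_le_mul_left h8 (by positivity)

theorem ls_cut_smooth {s : ℝ} : ContDiff ℝ ∞ (cut s) := by
  unfold cut
  exact Real.smoothTransition.contDiff.comp (contDiff_const.sub ((contDiff_norm_sq ℝ).div_const _))

theorem ls_fat_smooth {s : ℝ} : ContDiff ℝ ∞ (fat s) := by
  unfold fat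
  exact ls_cut_smooth.sub ls_cut_smooth

theorem ls_fat_sy : Sy (fun η => (fat 1 η : ℂ)) := by
  refine ⟨Complex.ofRealCLM.contDiff.comp ls_fat_smooth, ?_, 1 / 2, by norm_num, fun w hw => ?_⟩
  · refine HasCompactSupport.intro (isCompact_closedBall (0 : E3) 6) fun x hx => ?_
    by_contra hne
    have hne' : fat 1 x ≠ 0 := fun h => hne (by rw [h]; simp)
    have := (ls_fat_supp one_pos hne').2
    exact hx (by simpa [Metric.mem_closedBall, dist_zero_right] using this)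
  · by_contra hne
    have hne' : fat 1 w ≠ 0 := fun h => hne (by rw [h]; simp)
    have := (ls_fat_supp one_pos hne').1
    linarith

/-- (`Sy.mul_left`) -/
theorem ls_pat_sy : Sy (fun η => (pat 1 η : ℂ)) := by
  have h := ls_fat_sy.mul_left (a := fun η : E3 => ((chi (-(η 2) / ‖η‖) : ℝ) : ℂ)) ?_
  · have he : (fun η : E3 => (pat 1 η : ℂ)) = fun w => ((chi (-(w 2) / ‖w‖) : ℝ) : ℂ) * (fat 1 w : ℂ) := by
      funext η
      unfold pat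
      push_cast
      ring
    rw [he]
    exact h
  · intro w hw
    have hw0 : w ≠ 0 := hw
    have hc : ContDiffAt ℝ ∞ (fun w : E3 => w 2) w :=
      (EuclideanSpace.proj (𝕜 := ℝ) (2 : Fin 3)).contDiff.contDiffAt
    have h1 : ContDiffAt ℝ ∞ (fun w : E3 => -(w 2) / ‖w‖) w :=
      hc.neg.div (contDiffAt_norm ℝ hw0) (norm_ne_zero_iff.2 hw0)
    have h2 : ContDiffAt ℝ ∞ (fun w : E3 => chi (-(w 2) / ‖w‖)) w := by
      unfold chi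
      exact Real.smoothTransition.contDiff.contDiffAt.comp w (h1.add contDiffAt_const)
    exact (Complex.ofRealCLM.contDiff.contDiffAt.comp w h2).contDiffWithinAt

/-- scaling of a far bound: `wk (φ (s⁻¹ ·)) (x,t) = s³ wk φ (s x, s t)` (`ls_wk_scale`), `s = 2^n`, `λ = 2^n t ≥ 1`, `|2^n x| ≥ 2 λ`;  `8^n (2^n |x|)^{-4} ≤ |x|^{-4}`. -/
theorem ls_far_scale {φ : E3 → ℂ} (h : Sy φ) :
    ∃ C : ℝ, 0 ≤ C ∧ ∀ (n : ℕ) (t : ℝ) (x : E3), 1 ≤ t → t ≤ 2 → 4 ≤ ‖x‖ →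
      ‖wk (fun η => φ (((2 : ℝ) ^ n)⁻¹ • η)) (x, t)‖ ≤ C * (‖x‖ ^ 4)⁻¹ := by
  obtain ⟨C, hC, hk⟩ := ls_far_unit h
  refine ⟨C, hC, fun n t x h1 h2 h4 => ?_⟩
  have hs : (0 : ℝ) < 2 ^ n := by positivity
  have hs1 : (1 : ℝ) ≤ 2 ^ n := one_le_pow₀ (by norm_num)
  have hx : 0 < ‖x‖ := by linarith
  rw [ls_wk_scale φ hs x t, norm_mul, norm_pow, Complex.norm_real, Real.norm_eq_abs, abs_of_pos hs]
  have hn : ‖((2 : ℝ) ^ n) • x‖ = 2 ^ n * ‖x‖ := by rw [norm_smul, Real.norm_eq_abs, abs_of_pos hs]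
  have h5 := hk (2 ^ n * t) (((2 : ℝ) ^ n) • x) (by nlinarith) (by rw [hn]; nlinarith)
  rw [hn] at h5
  calc ((2 : ℝ) ^ n) ^ 3 * ‖wk φ (((2 : ℝ) ^ n) • x, 2 ^ n * t)‖
      ≤ ((2 : ℝ) ^ n) ^ 3 * (C * ((2 ^ n * ‖x‖) ^ 4)⁻¹) := by gcongr
    _ = C * (‖x‖ ^ 4)⁻¹ * ((2 : ℝ) ^ n)⁻¹ := by
        field_simp
    _ ≤ C * (‖x‖ ^ 4)⁻¹ * 1 := by
        gcongr
        exact inv_le_one_of_one_le₀ hs1
    _ = C * (‖x‖ ^ 4)⁻¹ := mul_one _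

/-- **the far kernel bound** (phys-far-kernel) -/
theorem ls_far : ∃ C : ℝ, 0 ≤ C ∧ ∀ (n : ℕ) (t : ℝ) (x : E3), 1 ≤ t → t ≤ 2 → 4 ≤ ‖x‖ →
    ‖wk (fun η => (fat (2 ^ n) η : ℂ)) (x, t)‖ ≤ C * (‖x‖ ^ 4)⁻¹ := by
  obtain ⟨C, hC, h⟩ := ls_far_scale ls_fat_sy
  refine ⟨C, hC, fun n t x h1 h2 h4 => ?_⟩
  have := h n t x h1 h2 h4
  have he : (fun η : E3 => (fat (2 ^ n) η : ℂ)) = fun η => ((fat 1 (((2 : ℝ) ^ n)⁻¹ • η) : ℝ) : ℂ) := by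
    funext η
    rw [ls_fat_scale (by positivity)]
  rw [he]
  exact this

end Claimed.Agent.R256
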