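-- KEEP
import Claimed.Agent.R256.Top.Amp
import Claimed.Agent.R256.Top.Far

/-!
# Row 256 (LS paper), TOP LAYER L2 : local `⟹` global (09 l.59-85), and the glue `Level ⟹ Annular`      (architect helper163; prefix `ls_`)

The grid is the one of `R255/BR/Grid.lean` (cubes `Qc j` of side `1/100`, corner `ptc j`, `Qc j ⊆ closedBall (ptc j) (1/50)`).  On `Qc j` replace `g` by `g 1_{B(ptc j, 6)}`;
the error is `≤ C Φ * |g|`, `Φ w = |w|^{-4} 1_{|w| ≥ 4}` (`ls_far`), Young.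
Every `sorry` is a leaf.  EDIT IN PLACE, statements are frozen.
-/

set_option autoImplicit false

namespace Claimed.Agent.R256

open MeasureTheory Complex Claimed.Agent.R255.BR
open scoped FourierTransform Real SchwartzMap InnerProductSpace ENNReal

/-- the majorant of the far kernel -/
noncomputable def farΦ (w : E3) : ℝ := if 4 ≤ ‖w‖ then (‖w‖ ^ 4)⁻¹ else 0

theorem ls_glob_eqns_cite : True := by
  have := @farΦ.eq_1
  trivial

theorem ls_farΦ_meas : Measurable farΦ := by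
  unfold farΦ
  refine Measurable.ite (measurableSet_le measurable_const measurable_norm) ?_ measurable_const
  fun_prop

theorem ls_farΦ_nonneg (w : E3) : 0 ≤ farΦ w := by
  unfold farΦ
  split_ifs
  · positivity
  · exact le_rfl

/-- (`farΦ w ≤ 16 (1 + ‖w‖)^{-4}`, `integrable_one_add_norm`, `finrank = 3 < 4`) -/
theorem ls_farΦ_int : Integrable farΦ := by
  have h1 : Integrable (fun w : E3 => (16 : ℝ) * (1 + ‖w‖) ^ (-(4 : ℝ))) :=
    (integrable_one_add_norm (E := E3) (μ := volume) (r := 4) (by simp; norm_num)).const_mul 16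
  refine h1.mono' ls_farΦ_meas.aestronglyMeasurable (Filter.Eventually.of_forall fun w => ?_)
  rw [Real.norm_eq_abs, abs_of_nonneg (ls_farΦ_nonneg w)]
  have hp : (0 : ℝ) < 1 + ‖w‖ := by positivity
  have e : (1 + ‖w‖) ^ (-(4 : ℝ)) = ((1 + ‖w‖) ^ 4)⁻¹ := by
    rw [Real.rpow_neg hp.le]
    norm_cast
  rw [e]
  unfold farΦ
  split_ifs with h
  · have hw : 0 < ‖w‖ := by linarith
    have h2 : (1 + ‖w‖) ^ 4 ≤ (2 * ‖w‖) ^ 4 := pow_le_pow_left₀ hp.le (by linarith) 4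
    rw [← div_eq_mul_inv, le_div_iff₀ (by positivity), inv_mul_le_iff₀ (by positivity)]
    calc (1 + ‖w‖) ^ 4 ≤ (2 * ‖w‖) ^ 4 := h2
      _ = ‖w‖ ^ 4 * 16 := by ring
  · positivity

/-- **Young** for the far part (`mink3_lintegral` of `R255/BR/Tools.lean` after the substitution `y ↦ x - y`, translation invariance of `∫⁻`). -/
theorem ls_far_young (g : E3 → ℂ) (hg : Measurable g) :
    ∫⁻ x, (∫⁻ y, ENNReal.ofReal (farΦ (x - y)) * ‖g y‖ₑ) ^ (3 : ℝ)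
      ≤ ENNReal.ofReal ((∫ w, farΦ w) ^ 3) * ∫⁻ x, ‖g x‖ₑ ^ (3 : ℝ) := by
  have hΦm : Measurable fun a : E3 => ENNReal.ofReal (farΦ a) := ENNReal.measurable_ofReal.comp ls_farΦ_meas
  -- substitution
  have hsub : ∀ x : E3, ∫⁻ y, ENNReal.ofReal (farΦ (x - y)) * ‖g y‖ₑ = ∫⁻ a, ENNReal.ofReal (farΦ a) * ‖g (x - a)‖ₑ := by
    intro x
    have := lintegral_sub_left_eq_self (μ := (volume : Measure E3)) (fun a => ENNReal.ofReal (farΦ a) * ‖g (x - a)‖ₑ) x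
    rw [← this]
    refine lintegral_congr fun y => ?_
    rw [sub_sub_cancel]
  simp only [hsub]
  have hF : Measurable (Function.uncurry fun (a b : E3) => ENNReal.ofReal (farΦ a) * ‖g (b - a)‖ₑ) := by
    refine (hΦm.comp measurable_fst).mul ?_
    exact (hg.comp (measurable_snd.sub measurable_fst)).enorm
  have hM := mink3_lintegral (μ := (volume : Measure E3)) (ν := (volume : Measure E3))
    (fun (a b : E3) => ENNReal.ofReal (farΦ a) * ‖g (b - a)‖ₑ) hF.aemeasurable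
  have hin : ∀ a : E3, (∫⁻ b, (ENNReal.ofReal (farΦ a) * ‖g (b - a)‖ₑ) ^ (3 : ℝ)) ^ (1 / 3 : ℝ)
      = ENNReal.ofReal (farΦ a) * (∫⁻ b, ‖g b‖ₑ ^ (3 : ℝ)) ^ (1 / 3 : ℝ) := by
    intro a
    have e1 : ∀ b : E3, (ENNReal.ofReal (farΦ a) * ‖g (b - a)‖ₑ) ^ (3 : ℝ)
        = ENNReal.ofReal (farΦ a) ^ (3 : ℝ) * ‖g (b - a)‖ₑ ^ (3 : ℝ) := fun b => ENNReal.mul_rpow_of_nonneg _ _ (by norm_num)
    simp only [e1]
    rw [lintegral_const_mul' _ _ (ENNReal.rpow_ne_top_of_nonneg (by norm_num) ENNReal.ofReal_ne_top),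
      lintegral_sub_right_eq_self (fun b => ‖g b‖ₑ ^ (3 : ℝ)) a, ENNReal.mul_rpow_of_nonneg _ _ (by norm_num), ← ENNReal.rpow_mul]
    norm_num
  simp only [hin] at hM
  rw [lintegral_mul_const _ hΦm, ← ofReal_integral_eq_lintegral_ofReal ls_farΦ_int (Filter.Eventually.of_forall ls_farΦ_nonneg)] at hM
  have h3 := ENNReal.rpow_le_rpow hM (z := 3) (by norm_num)
  rw [← ENNReal.rpow_mul, ENNReal.mul_rpow_of_nonneg _ _ (by norm_num), ← ENNReal.rpow_mul] at h3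
  have e13 : (1 / 3 : ℝ) * 3 = 1 := by norm_num
  rw [e13, ENNReal.rpow_one, ENNReal.rpow_one] at h3
  refine h3.trans (le_of_eq ?_)
  congr 1
  rw [ENNReal.ofReal_rpow_of_nonneg (integral_nonneg ls_farΦ_nonneg) (by norm_num)]
  norm_cast

/-- the translated local estimate (`ls_wop_trans`, translation invariance of `volume`) -/
theorem ls_loc_trans {m : ℕ → E3 → ℂ} (h : LsLoc m) (δ : ℝ) (hδ : 0 < δ) :
    ∃ C : ℝ, 0 ≤ C ∧ ∀ (n : ℕ) (g : E3 → ℂ) (a : E3), Measurable g → MemLp g 3 volume → (∀ x, g x ≠ 0 → ‖x - a‖ ≤ 6) →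
      ∫⁻ z in Metric.closedBall a 1 ×ˢ Set.univ, ‖wop (m n) g z‖ₑ ^ (3 : ℝ) ∂stμ
        ≤ ENNReal.ofReal (C * 2 ^ (δ * n)) * ∫⁻ x, ‖g x‖ₑ ^ (3 : ℝ) := by
  obtain ⟨C, hC, H⟩ := h δ hδ
  refine ⟨C, hC, fun n g a hg h3 hs => ?_⟩
  have hmp : MeasurePreserving (fun x : E3 => x + a) volume volume := measurePreserving_add_right volume a
  have h1 := H n (fun x => g (x + a)) (hg.comp (measurable_add_const a)) (h3.comp_measurePreserving hmp)
    (fun x hx => by simpa using hs (x + a) hx)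
  have e2 : ∫⁻ x, ‖g (x + a)‖ₑ ^ (3 : ℝ) = ∫⁻ x, ‖g x‖ₑ ^ (3 : ℝ) :=
    lintegral_add_right_eq_self (fun x => ‖g x‖ₑ ^ (3 : ℝ)) a
  rw [e2] at h1
  refine le_trans (le_of_eq ?_) h1
  set T : E3 × ℝ ≃ᵐ E3 × ℝ := (MeasurableEquiv.addRight a).prodCongr (MeasurableEquiv.refl ℝ) with hT
  have hTmp : MeasurePreserving T stμ stμ := by
    have := hmp.prod (MeasurePreserving.id (volume.restrict (Set.Icc (1 : ℝ) 2)))
    exact this
  have e3 := hTmp.setLIntegral_comp_preimage_emb T.measurableEmbedding (fun z => ‖wop (m n) g z‖ₑ ^ (3 : ℝ))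
    (Metric.closedBall a 1 ×ˢ Set.univ)
  rw [← e3]
  have e4 : T ⁻¹' (Metric.closedBall a 1 ×ˢ Set.univ) = Metric.closedBall (0 : E3) 1 ×ˢ Set.univ := by
    ext z
    have hz : (T z).1 = z.1 + a := rfl
    simp [Metric.mem_closedBall, dist_eq_norm, hz]
  rw [e4]
  unfold locμ
  refine lintegral_congr fun z => ?_
  rw [ls_wop_trans]
  rfl

/-- on a cube: near part + far part.   (`ls_wop_gadd` for `g = g 1_B + g 1_{Bᶜ}`; `ls_wop_conv` for the second; if `‖x - a‖ ≤ 1`, `6 < ‖y - a‖` then `4 ≤ ‖x - y‖`: `ls_far`.) -/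
theorem ls_near_far : ∃ C : ℝ, 0 ≤ C ∧ ∀ (n : ℕ) (g : E3 → ℂ) (a x : E3) (t : ℝ), Measurable g → Integrable g → ‖x - a‖ ≤ 1 → 1 ≤ t → t ≤ 2 →
    ‖wop (fun η => (fat (2 ^ n) η : ℂ)) g (x, t)‖ₑ
      ≤ ‖wop (fun η => (fat (2 ^ n) η : ℂ)) ((Metric.closedBall a 6).indicator g) (x, t)‖ₑ
        + ENNReal.ofReal C * ∫⁻ y, ENNReal.ofReal (farΦ (x - y)) * ‖g y‖ₑ := by
  obtain ⟨C, hC, H⟩ := ls_far
  refine ⟨C, hC, fun n g a x t _ hgi hxa h1 h2 => ?_⟩
  have hm : CK (fun η => (fat (2 ^ n) η : ℂ)) := ls_fat_ck (by positivity)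
  have hB : MeasurableSet (Metric.closedBall a 6) := Metric.isClosed_closedBall.measurableSet
  have hi1 : Integrable ((Metric.closedBall a 6).indicator g) := hgi.indicator hB
  have hi2 : Integrable ((Metric.closedBall a 6)ᶜ.indicator g) := hgi.indicator hB.compl
  have e1 : g = fun y => (Metric.closedBall a 6).indicator g y + (Metric.closedBall a 6)ᶜ.indicator g y := by
    funext y
    exact (Set.indicator_self_add_compl_apply _ g y).symm
  have e2 := ls_wop_gadd hm hi1 hi2 (x, t)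
  rw [← e1] at e2
  rw [e2]
  refine (enorm_add_le _ _).trans (add_le_add le_rfl ?_)
  rw [ls_wop_conv hm hi2, ← lintegral_const_mul' _ _ ENNReal.ofReal_ne_top]
  refine (enorm_integral_le_lintegral_enorm _).trans (lintegral_mono fun y => ?_)
  by_cases hy : y ∈ Metric.closedBall a 6
  · have : (Metric.closedBall a 6)ᶜ.indicator g y = 0 := Set.indicator_of_notMem (by simpa using hy) g
    rw [this]
    simp
  · have hy' : y ∈ (Metric.closedBall a 6)ᶜ := hy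
    rw [Set.indicator_of_mem hy', enorm_mul, ← mul_assoc]
    refine mul_le_mul' ?_ le_rfl
    have h6 : 6 < ‖y - a‖ := by
      rw [Metric.mem_closedBall, dist_eq_norm, not_le] at hy
      exact hy
    have h4 : 4 ≤ ‖x - y‖ := by
      have : ‖y - a‖ ≤ ‖x - y‖ + ‖x - a‖ := by
        have e : y - a = -(x - y) + (x - a) := by abel
        rw [e]
        refine (norm_add_le _ _).trans ?_
        rw [norm_neg]
      linarith
    have h5 := H n t (x - y) h1 h2 h4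
    rw [← ENNReal.ofReal_mul hC, ← ofReal_norm]
    apply ENNReal.ofReal_le_ofReal
    simp only [farΦ, h4, if_true]
    exact h5

/-- a finite box of differences (kept abstract) -/
theorem ls_overlap_box : ∃ box : Finset Z3, ∀ Δ : Z3, (∀ i, |Δ i| ≤ 700) → Δ ∈ box := by
  refine ⟨Fintype.piFinset (fun _ => Finset.Icc (-700) 700), fun Δ h => ?_⟩
  rw [Fintype.mem_piFinset]
  intro i
  rw [Finset.mem_Icc]
  exact abs_le.1 (h i)

/-- a point of the ball `B(ptc j, 6)` lies in a cube `Qc (j - Δ)` with `|Δ| ≤ 700` -/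
theorem ls_overlap_sub {x : E3} {j : Z3} (h : x ∈ Metric.closedBall (ptc j) 6) (i : Fin 3) : |(j - cell x) i| ≤ 700 := by
  obtain ⟨h1, h2⟩ := mem_Qc_coord (mem_Qc_cell x) i
  have h0 : ‖x - ptc j‖ ≤ 6 := by rwa [Metric.mem_closedBall, dist_eq_norm] at h
  have h5 : ‖(x - ptc j) i‖ ≤ 6 := (PiLp.norm_apply_le (x - ptc j) i).trans h0
  have h6 : (x - ptc j) i = x i - (j i : ℝ) / 100 := by simp [ptc]
  rw [h6, Real.norm_eq_abs, abs_le] at h5
  rw [Pi.sub_apply, abs_le]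
  constructor
  · have : (-700 : ℝ) ≤ ((j i - cell x i : ℤ) : ℝ) := by push_cast; linarith [h5.1, h5.2]
    exact_mod_cast this
  · have : ((j i - cell x i : ℤ) : ℝ) ≤ (700 : ℝ) := by push_cast; linarith [h5.1, h5.2]
    exact_mod_cast this

/-- bounded overlap of the balls `B(ptc j, 6)`   (`B(ptc j, 6) ⊆ ⋃_{Δ ∈ box} Qc (j - Δ)`, `box = {|Δ i| ≤ 700}`; `lintegral_eq_tsum_Qc`; `∑' j, ∫⁻_{Qc (j - Δ)} = ∫⁻`: pattern `grid_core`). -/
theorem ls_overlap : ∃ M : ℝ, 0 ≤ M ∧ ∀ G : E3 → ℝ≥0∞, Measurable G →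
    ∑' j : Z3, ∫⁻ x in Metric.closedBall (ptc j) 6, G x ≤ ENNReal.ofReal M * ∫⁻ x, G x := by
  obtain ⟨box, hbox⟩ := ls_overlap_box
  refine ⟨(box.card : ℝ), by positivity, fun G _ => ?_⟩
  have h1 : ∀ j : Z3, ∫⁻ x in Metric.closedBall (ptc j) 6, G x ≤ ∑ Δ ∈ box, ∫⁻ x in Qc (j - Δ), G x := by
    intro j
    have hsub : Metric.closedBall (ptc j) 6 ⊆ ⋃ Δ ∈ box, Qc (j - Δ) := by
      intro x hx
      refine Set.mem_biUnion (hbox (j - cell x) (ls_overlap_sub hx)) ?_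
      rw [sub_sub_cancel]
      exact mem_Qc_cell x
    refine (lintegral_mono_set hsub).trans (le_of_eq ?_)
    refine lintegral_biUnion_finset ?_ (fun Δ _ => measurableSet_Qc _) G
    intro Δ _ Δ' _ hne
    exact Qc_disjoint fun h => hne (sub_right_injective h)
  have h3 : ∑' j : Z3, ∑ Δ ∈ box, ∫⁻ x in Qc (j - Δ), G x = (box.card : ℝ≥0∞) * ∫⁻ x, G x := by
    rw [Summable.tsum_finsetSum (fun _ _ => ENNReal.summable)]
    have : ∀ Δ ∈ box, ∑' j : Z3, ∫⁻ x in Qc (j - Δ), G x = ∫⁻ x, G x := by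
      intro Δ _
      rw [lintegral_eq_tsum_Qc]
      exact (Equiv.subRight Δ).tsum_eq (fun i => ∫⁻ x in Qc i, G x)
    rw [Finset.sum_congr rfl this, Finset.sum_const, nsmul_eq_mul]
  rw [ENNReal.ofReal_natCast, ← h3]
  exact ENNReal.tsum_le_tsum h1

/-- space-time integrals over the grid (`lintegral_prod`, `lintegral_eq_tsum_Qc`, `Qc j ⊆ closedBall (ptc j) 1`) -/
theorem ls_st_grid (F : E3 × ℝ → ℝ≥0∞) (hF : Measurable F) :
    ∫⁻ z, F z ∂stμ = ∑' j : Z3, ∫⁻ z in Qc j ×ˢ Set.univ, F z ∂stμ := by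
  rw [← lintegral_iUnion (fun j => (measurableSet_Qc j).prod MeasurableSet.univ)]
  · have : ⋃ j : Z3, Qc j ×ˢ (Set.univ : Set ℝ) = Set.univ :=
      Set.eq_univ_of_forall fun z => Set.mem_iUnion.2 ⟨cell z.1, mem_Qc_cell z.1, Set.mem_univ _⟩
    rw [this, Measure.restrict_univ]
  · intro i j hij
    refine Set.disjoint_left.2 fun z hz hz' => ?_
    exact Set.disjoint_left.1 (Qc_disjoint hij) hz.1 hz'.1

theorem ls_st_ae : ∀ᵐ z ∂stμ, z.2 ∈ Set.Icc (1 : ℝ) 2 := by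
  rw [ae_iff]
  have e : {z : E3 × ℝ | ¬ z.2 ∈ Set.Icc (1 : ℝ) 2} = Set.univ ×ˢ (Set.Icc (1 : ℝ) 2)ᶜ := by
    ext z
    simp
  rw [e]
  unfold stμ
  rw [Measure.prod_prod, Measure.restrict_apply measurableSet_Icc.compl, Set.compl_inter_self, measure_empty, mul_zero]

theorem ls_st_fst (F : E3 → ℝ≥0∞) (hF : Measurable F) : ∫⁻ z, F z.1 ∂stμ = ∫⁻ x, F x := by
  unfold stμ
  rw [lintegral_prod (fun z : E3 × ℝ => F z.1) (hF.comp measurable_fst).aemeasurable]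
  refine lintegral_congr fun x => ?_
  show ∫⁻ _ : ℝ in Set.Icc (1 : ℝ) 2, F x = F x
  rw [lintegral_const, Measure.restrict_apply MeasurableSet.univ, Set.univ_inter, Real.volume_Icc]
  norm_num

theorem ls_farΨ_meas (g : E3 → ℂ) (hg : Measurable g) : Measurable fun x : E3 => ∫⁻ y, ENNReal.ofReal (farΦ (x - y)) * ‖g y‖ₑ := by
  have hΦ : Measurable farΦ := by
    unfold farΦ
    refine Measurable.ite (measurableSet_le measurable_const measurable_norm) ?_ measurable_const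
    exact (measurable_norm.pow_const 4).inv
  have h1 : Measurable fun p : E3 × E3 => ENNReal.ofReal (farΦ (p.1 - p.2)) * ‖g p.2‖ₑ :=
    (ENNReal.measurable_ofReal.comp (hΦ.comp (measurable_fst.sub measurable_snd))).mul (hg.comp measurable_snd).enorm
  exact h1.lintegral_prod_right'

/-- **local ⟹ global**, cubed form.
PLAN: `ls_st_grid`; on `Qc j ×ˢ univ` (`stμ`-a.e. `1 ≤ t ≤ 2`) `ls_near_far` with `a = ptc j`, `(u + v)³ ≤ 4 (u³ + v³)`; near parts: `ls_loc_trans` + `ls_overlap` with `G = ‖g‖ₑ³`;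
far parts: resum over `j` (`ls_st_grid` backwards), `∫_{[1,2]} dt = 1`, `ls_far_young`. -/
theorem ls_glob_cube (h : LsLoc (fun n η => (fat (2 ^ n) η : ℂ))) (δ : ℝ) (hδ : 0 < δ) :
    ∃ C : ℝ, 0 ≤ C ∧ ∀ (n : ℕ) (g : 𝓢(E3, ℂ)),
      ∫⁻ z, ‖wop (fun η => (fat (2 ^ n) η : ℂ)) g z‖ₑ ^ (3 : ℝ) ∂stμ ≤ ENNReal.ofReal (C * 2 ^ (δ * n)) * ∫⁻ x, ‖g x‖ₑ ^ (3 : ℝ) := by
  obtain ⟨C₁, hC₁, H₁⟩ := ls_loc_trans h δ hδ
  obtain ⟨C₂, hC₂, H₂⟩ := ls_near_far
  obtain ⟨M, hM, H₃⟩ := ls_overlap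
  obtain ⟨I, hI⟩ : ∃ I : ℝ, I = ∫ w, farΦ w := ⟨_, rfl⟩
  have hI0 : 0 ≤ I := by
    rw [hI]
    refine integral_nonneg fun w => ?_
    unfold farΦ
    split_ifs
    · positivity
    · exact le_rfl
  refine ⟨4 * (C₁ * M) + 4 * (C₂ ^ 3 * I ^ 3), by positivity, fun n g => ?_⟩
  obtain ⟨m, hm⟩ : ∃ m : E3 → ℂ, m = fun η => (fat (2 ^ n) η : ℂ) := ⟨_, rfl⟩
  have H₁' := H₁ n
  have H₂' := H₂ n
  beta_reduce at H₁'
  rw [← hm] at H₁' H₂' ⊢
  have hck : CK m := by rw [hm]; exact ls_fat_ck (by positivity)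
  have hgm : Measurable (g : E3 → ℂ) := g.continuous.measurable
  have hgi : Integrable (g : E3 → ℂ) := g.integrable
  have hg3 : MemLp (g : E3 → ℂ) 3 volume := g.memLp 3
  obtain ⟨N, hN⟩ : ∃ N : ℝ≥0∞, N = ∫⁻ x, ‖g x‖ₑ ^ (3 : ℝ) := ⟨_, rfl⟩
  rw [← hN]
  obtain ⟨Ψ, hΨ⟩ : ∃ Ψ : E3 → ℝ≥0∞, Ψ = fun x => ∫⁻ y, ENNReal.ofReal (farΦ (x - y)) * ‖g y‖ₑ := ⟨_, rfl⟩
  have hΨm : Measurable Ψ := by rw [hΨ]; exact ls_farΨ_meas g hgm
  obtain ⟨gj, hgj⟩ : ∃ gj : Z3 → E3 → ℂ, gj = fun j => (Metric.closedBall (ptc j) 6).indicator g := ⟨_, rfl⟩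
  have hgjm : ∀ j, Measurable (gj j) := fun j => by rw [hgj]; exact hgm.indicator measurableSet_closedBall
  have hgji : ∀ j, Integrable (gj j) := fun j => by rw [hgj]; exact hgi.indicator measurableSet_closedBall
  have hgj3 : ∀ j, MemLp (gj j) 3 volume := fun j => by rw [hgj]; exact hg3.indicator measurableSet_closedBall
  have hFm : Measurable fun z : E3 × ℝ => ‖wop m g z‖ₑ ^ (3 : ℝ) := ((ls_wop_cont' hck hgi).measurable.enorm).pow_const _
  have ham : ∀ j, Measurable fun z : E3 × ℝ => ‖wop m (gj j) z‖ₑ ^ (3 : ℝ) := fun j =>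
    ((ls_wop_cont' hck (hgji j)).measurable.enorm).pow_const _
  have hbm : Measurable fun x : E3 => (ENNReal.ofReal C₂ * Ψ x) ^ (3 : ℝ) := (hΨm.const_mul _).pow_const _
  have hbm' : Measurable fun z : E3 × ℝ => (ENNReal.ofReal C₂ * Ψ z.1) ^ (3 : ℝ) := hbm.comp measurable_fst
  -- one cube
  have hcube : ∀ j : Z3, ∫⁻ z in Qc j ×ˢ Set.univ, ‖wop m g z‖ₑ ^ (3 : ℝ) ∂stμ
      ≤ 4 * (ENNReal.ofReal (C₁ * 2 ^ (δ * n)) * ∫⁻ x in Metric.closedBall (ptc j) 6, ‖g x‖ₑ ^ (3 : ℝ))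
        + 4 * ∫⁻ z in Qc j ×ˢ Set.univ, (ENNReal.ofReal C₂ * Ψ z.1) ^ (3 : ℝ) ∂stμ := by
    intro j
    have hS : MeasurableSet (Qc j ×ˢ (Set.univ : Set ℝ)) := (measurableSet_Qc j).prod MeasurableSet.univ
    have h1 : ∫⁻ z in Qc j ×ˢ Set.univ, ‖wop m g z‖ₑ ^ (3 : ℝ) ∂stμ
        ≤ ∫⁻ z in Qc j ×ˢ Set.univ, 4 * (‖wop m (gj j) z‖ₑ ^ (3 : ℝ) + (ENNReal.ofReal C₂ * Ψ z.1) ^ (3 : ℝ)) ∂stμ := by
      refine lintegral_mono_ae ?_
      filter_upwards [ae_restrict_mem hS, ae_restrict_of_ae ls_st_ae] with z hz ht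
      have hx : ‖z.1 - ptc j‖ ≤ 1 := (norm_sub_ptc_le hz.1).trans (by norm_num)
      have h2 := H₂' g (ptc j) z.1 z.2 hgm hgi hx ht.1 ht.2
      have h3 : ‖wop m g z‖ₑ ≤ ‖wop m (gj j) z‖ₑ + ENNReal.ofReal C₂ * Ψ z.1 := by
        rw [hgj, hΨ]
        exact h2
      refine (ENNReal.rpow_le_rpow h3 (by norm_num)).trans ?_
      refine (ENNReal.rpow_add_le_mul_rpow_add_rpow _ _ (by norm_num)).trans (le_of_eq ?_)
      congr 1
      norm_num
    refine h1.trans ?_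
    have hadd : Measurable fun z : E3 × ℝ => ‖wop m (gj j) z‖ₑ ^ (3 : ℝ) + (ENNReal.ofReal C₂ * Ψ z.1) ^ (3 : ℝ) := (ham j).add hbm'
    rw [lintegral_const_mul _ hadd, lintegral_add_right _ hbm', mul_add]
    refine add_le_add (mul_le_mul' le_rfl ?_) le_rfl
    have hsub : Qc j ×ˢ (Set.univ : Set ℝ) ⊆ Metric.closedBall (ptc j) 1 ×ˢ Set.univ := by
      refine Set.prod_mono (fun x hx => ?_) le_rfl
      rw [Metric.mem_closedBall, dist_eq_norm]
      exact (norm_sub_ptc_le hx).trans (by norm_num)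
    refine (lintegral_mono_set hsub).trans ?_
    refine (H₁' (gj j) (ptc j) (hgjm j) (hgj3 j) (fun x hx => ?_)).trans (le_of_eq ?_)
    · rw [hgj] at hx
      have := Set.mem_of_indicator_ne_zero hx
      rwa [Metric.mem_closedBall, dist_eq_norm] at this
    · congr 1
      rw [← lintegral_indicator measurableSet_closedBall]
      refine lintegral_congr fun x => ?_
      rw [hgj]
      by_cases hx : x ∈ Metric.closedBall (ptc j) 6
      · simp only [Set.indicator_of_mem hx]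
      · simp only [Set.indicator_of_notMem hx]
        simp
  rw [ls_st_grid _ hFm]
  refine (ENNReal.tsum_le_tsum hcube).trans ?_
  rw [ENNReal.tsum_add, ENNReal.tsum_mul_left, ENNReal.tsum_mul_left, ENNReal.tsum_mul_left, ← ls_st_grid _ hbm', ls_st_fst _ hbm]
  have hnear : ∑' j : Z3, ∫⁻ x in Metric.closedBall (ptc j) 6, ‖g x‖ₑ ^ (3 : ℝ) ≤ ENNReal.ofReal M * N := by
    rw [hN]
    exact H₃ _ (hgm.enorm.pow_const _)
  have hfar : ∫⁻ x, (ENNReal.ofReal C₂ * Ψ x) ^ (3 : ℝ) ≤ ENNReal.ofReal (C₂ ^ 3 * I ^ 3) * N := by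
    have e : ∀ x, (ENNReal.ofReal C₂ * Ψ x) ^ (3 : ℝ) = ENNReal.ofReal (C₂ ^ 3) * Ψ x ^ (3 : ℝ) := by
      intro x
      rw [ENNReal.mul_rpow_of_nonneg _ _ (by norm_num), ENNReal.ofReal_rpow_of_nonneg hC₂ (by norm_num)]
      congr 2
      exact_mod_cast Real.rpow_natCast C₂ 3
    simp only [e]
    rw [lintegral_const_mul _ (hΨm.pow_const _), ENNReal.ofReal_mul (by positivity), mul_assoc]
    refine mul_le_mul' le_rfl ?_
    rw [hΨ, hN, hI]
    exact ls_far_young g hgm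
  have h2n : (1 : ℝ) ≤ 2 ^ (δ * n) := Real.one_le_rpow (by norm_num) (by positivity)
  calc 4 * (ENNReal.ofReal (C₁ * 2 ^ (δ * n)) * ∑' j : Z3, ∫⁻ x in Metric.closedBall (ptc j) 6, ‖g x‖ₑ ^ (3 : ℝ))
        + 4 * ∫⁻ x, (ENNReal.ofReal C₂ * Ψ x) ^ (3 : ℝ)
      ≤ 4 * (ENNReal.ofReal (C₁ * 2 ^ (δ * n)) * (ENNReal.ofReal M * N)) + 4 * (ENNReal.ofReal (C₂ ^ 3 * I ^ 3) * N) :=
        add_le_add (mul_le_mul' le_rfl (mul_le_mul' le_rfl hnear)) (mul_le_mul' le_rfl hfar)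
    _ = ENNReal.ofReal (4 * (C₁ * 2 ^ (δ * n) * M) + 4 * (C₂ ^ 3 * I ^ 3)) * N := by
        have ha : 0 ≤ C₁ * 2 ^ (δ * n) := by positivity
        have hb : 0 ≤ C₂ ^ 3 * I ^ 3 := by positivity
        generalize C₁ * 2 ^ (δ * n) = a at ha ⊢
        generalize C₂ ^ 3 * I ^ 3 = b at hb ⊢
        have h4 : ENNReal.ofReal 4 = 4 := by norm_num
        rw [ENNReal.ofReal_add (by positivity) (by positivity), ENNReal.ofReal_mul (by norm_num : (0 : ℝ) ≤ 4),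
          ENNReal.ofReal_mul (by norm_num : (0 : ℝ) ≤ 4), ENNReal.ofReal_mul ha, h4]
        ring
    _ ≤ _ := by
        refine mul_le_mul' (ENNReal.ofReal_le_ofReal ?_) le_rfl
        have h5 : 4 * (C₂ ^ 3 * I ^ 3) * 1 ≤ 4 * (C₂ ^ 3 * I ^ 3) * 2 ^ (δ * n) := mul_le_mul_of_nonneg_left h2n (by positivity)
        nlinarith

/-- cube roots (`eLpNorm_three_pow` of `R255/BR/Grid.lean`; `(C 2^{δ n})^{1/3} ≤ (C + 1) 2^{δ n}`) -/
theorem ls_glob (h : LsLoc (fun n η => (fat (2 ^ n) η : ℂ))) : Annular := by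
  intro δ hδ
  obtain ⟨C, hC, H⟩ := ls_glob_cube h δ hδ
  refine ⟨C + 1, fun n g => ?_⟩
  have h2n : (1 : ℝ) ≤ 2 ^ (δ * n) := Real.one_le_rpow (by norm_num) (by positivity)
  have hw : 1 ≤ (C + 1) * 2 ^ (δ * n) := by nlinarith
  rw [← ENNReal.rpow_le_rpow_iff (z := 3) (by norm_num), eLpNorm_three_pow, ENNReal.mul_rpow_of_nonneg _ _ (by norm_num), eLpNorm_three_pow,
    ENNReal.ofReal_rpow_of_nonneg (by positivity) (by norm_num)]
  refine (H n g).trans (mul_le_mul' (ENNReal.ofReal_le_ofReal ?_) le_rfl)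
  have h1 : (C + 1) * 2 ^ (δ * n) ≤ ((C + 1) * 2 ^ (δ * n)) ^ (3 : ℝ) := by
    conv_lhs => rw [← Real.rpow_one ((C + 1) * 2 ^ (δ * n))]
    exact Real.rpow_le_rpow_of_exponent_le hw (by norm_num)
  refine le_trans ?_ h1
  nlinarith

/-- **L2 : `Level ⟹ Annular`** -/
theorem ls_annular (hL : Level) : Annular := ls_glob (ls_loc_fat (ls_loc_pat hL))

end Claimed.Agent.R256
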