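-- KEEP
import Claimed.Agent.R256.Top.Defs
import Claimed.Agent.R255.BR.Tools

/-!
# Row 256 (LS paper), TOP LAYER L1, leaf T3 : the low frequencies      (helper239; prefix `ls_lw_`, `lw`)

TOOLS (reusable, Schwartz symbols `a`):
* `ls_lw_ker`   `∫ ‖𝓕⁻ a‖ ≤ (∫ (1+|x|²)^{-2} + ∫ ‖(1 - Δ/4π²) a‖²) / 2`      (weights + Plancherel; `lwB a = (1 - Δ/4π²) a`)
* `ls_lw_young` `‖𝓕⁻ (a · 𝓕 h)‖₃ ≤ (∫ ‖𝓕⁻ a‖) ‖h‖₃`                          (`SchwartzMap.convolution_apply`, `R255.BR.mink3`)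
LOW FREQUENCIES: regularise `|η|` by `√(|η|² + σ²)`; the symbols `e^{2π i t √(|η|²+σ²)} cut 1 jm (-ε)` are `C_c^∞`, `(1 - Δ/4π²)` of them is dominated by a fixed
`L²` function (`C (1 + 1/|η|)` on a ball); `σ → 0` by Fatou; integrate over `t ∈ [1,2]`.
-/

set_option autoImplicit false

namespace Claimed.Agent.R256

open MeasureTheory Complex Filter
open scoped FourierTransform Real SchwartzMap Topology ENNReal LineDeriv ContDiff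

/-! ## 1. Kernels of Schwartz symbols -/

/-- the standard basis -/
noncomputable def lwE (j : Fin 3) : E3 := EuclideanSpace.single j 1

/-- `(1 - Δ / 4π²) a` -/
noncomputable def lwB (a : 𝓢(E3, ℂ)) : 𝓢(E3, ℂ) :=
  a - (((4 * π ^ 2 : ℝ) : ℂ)⁻¹) • ∑ j : Fin 3, ∂_{lwE j} (∂_{lwE j} a)

theorem ls_lw_inner_E (x : E3) (j : Fin 3) : inner ℝ x (lwE j) = x j := by
  unfold lwE
  simp [EuclideanSpace.inner_single_right]

theorem ls_lw_inv_d (f : 𝓢(E3, ℂ)) (j : Fin 3) (x : E3) :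
    𝓕⁻ (∂_{lwE j} f) x = -(2 * π * Complex.I) * ((x j : ℝ) : ℂ) * 𝓕⁻ f x := by
  have hg : (fun y : E3 => inner ℝ y (lwE j)).HasTemperateGrowth := by fun_prop
  rw [SchwartzMap.fourierInv_lineDerivOp_eq, smul_apply, SchwartzMap.smulLeftCLM_apply_apply hg, ls_lw_inner_E,
    smul_eq_mul, Complex.real_smul]
  ring

theorem ls_lw_inv_dd (a : 𝓢(E3, ℂ)) (j : Fin 3) (x : E3) :
    𝓕⁻ (∂_{lwE j} (∂_{lwE j} a)) x = -((4 * π ^ 2 * x j ^ 2 : ℝ) : ℂ) * 𝓕⁻ a x := by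
  rw [ls_lw_inv_d, ls_lw_inv_d]
  push_cast
  ring_nf
  rw [Complex.I_sq]
  ring

theorem ls_lw_inv_B (a : 𝓢(E3, ℂ)) (x : E3) : 𝓕⁻ (lwB a) x = ((1 + ‖x‖ ^ 2 : ℝ) : ℂ) * 𝓕⁻ a x := by
  have hlin : 𝓕⁻ (lwB a) = 𝓕⁻ a - (((4 * π ^ 2 : ℝ) : ℂ)⁻¹) • ∑ j : Fin 3, 𝓕⁻ (∂_{lwE j} (∂_{lwE j} a)) := by
    unfold lwB
    have := map_sub (FourierTransform.fourierInvCLM ℂ 𝓢(E3, ℂ)) a
      ((((4 * π ^ 2 : ℝ) : ℂ)⁻¹) • ∑ j : Fin 3, ∂_{lwE j} (∂_{lwE j} a))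
    simpa [map_sum] using this
  rw [hlin]
  simp only [sub_apply, smul_apply, sum_apply, ls_lw_inv_dd, smul_eq_mul]
  rw [EuclideanSpace.real_norm_sq_eq, Fin.sum_univ_three, Fin.sum_univ_three]
  have hpi : ((4 * π ^ 2 : ℝ) : ℂ) ≠ 0 := by
    have : (4 * π ^ 2 : ℝ) ≠ 0 := by positivity
    exact_mod_cast this
  field_simp
  push_cast
  ring

/-- Plancherel for `𝓕⁻` -/
theorem ls_lw_planch (b : 𝓢(E3, ℂ)) : ∫ x, ‖𝓕⁻ b x‖ ^ 2 = ∫ η, ‖b η‖ ^ 2 := by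
  have h := SchwartzMap.integral_norm_sq_fourier (𝓕⁻ b)
  rw [FourierTransform.fourier_fourierInv_eq] at h
  exact h.symm

/-- the weight -/
theorem ls_lw_wt_int : Integrable (fun x : E3 => ((1 + ‖x‖ ^ 2) ^ 2)⁻¹) := by
  have h := integrable_rpow_neg_one_add_norm_sq (E := E3) (μ := volume) (r := 4) (by simp; norm_num)
  refine h.congr (Eventually.of_forall fun x => ?_)
  simp only
  have h1 : (0 : ℝ) < 1 + ‖x‖ ^ 2 := by positivity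
  rw [show (-(4 : ℝ) / 2) = -((2 : ℕ) : ℝ) by norm_num, Real.rpow_neg h1.le, Real.rpow_natCast]

theorem ls_lw_sq_int (b : 𝓢(E3, ℂ)) : Integrable (fun x : E3 => ‖b x‖ ^ 2) := by
  have h : MemLp b ((2 : ℕ) : ℝ≥0∞) volume := by exact_mod_cast b.memLp 2 volume
  exact h.integrable_norm_pow (by norm_num)

/-- **the `L¹` norm of the kernel of a Schwartz symbol** -/
theorem ls_lw_ker (a : 𝓢(E3, ℂ)) :
    ∫ x, ‖𝓕⁻ a x‖ ≤ ((∫ x : E3, ((1 + ‖x‖ ^ 2) ^ 2)⁻¹) + ∫ η, ‖lwB a η‖ ^ 2) / 2 := by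
  rw [← ls_lw_planch (lwB a), ← integral_add ls_lw_wt_int (ls_lw_sq_int _), ← integral_div]
  refine integral_mono (𝓕⁻ a).integrable.norm ((ls_lw_wt_int.add (ls_lw_sq_int _)).div_const 2) fun x => ?_
  simp only
  rw [ls_lw_inv_B, norm_mul, Complex.norm_real, Real.norm_eq_abs]
  have h1 : (0 : ℝ) < 1 + ‖x‖ ^ 2 := by positivity
  rw [abs_of_pos h1]
  obtain ⟨w, hw⟩ : ∃ w : ℝ, w = 1 + ‖x‖ ^ 2 := ⟨_, rfl⟩
  obtain ⟨k, hk⟩ : ∃ k : ℝ, k = ‖𝓕⁻ a x‖ := ⟨_, rfl⟩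
  rw [← hw, ← hk]
  rw [← hw] at h1
  have h2 : k = w⁻¹ * (w * k) := by field_simp
  have h3 : (w ^ 2)⁻¹ = w⁻¹ ^ 2 := by rw [inv_pow]
  rw [h3]
  nlinarith [sq_nonneg (w⁻¹ - w * k)]

/-- the multiplier with a Schwartz symbol is the convolution with its kernel -/
theorem ls_lw_conv (a h : 𝓢(E3, ℂ)) (x : E3) :
    𝓕⁻ (fun η : E3 => a η * 𝓕 (h : E3 → ℂ) η) x = ∫ y, 𝓕⁻ a y * h (x - y) := by
  have h1 := SchwartzMap.convolution_apply (ContinuousLinearMap.mul ℂ ℂ) (𝓕⁻ a) h x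
  have h2 : SchwartzMap.convolution (ContinuousLinearMap.mul ℂ ℂ) (𝓕⁻ a) h
      = 𝓕⁻ (SchwartzMap.pairing (ContinuousLinearMap.mul ℂ ℂ) a (𝓕 h)) := by
    simp [SchwartzMap.convolution]
  rw [h2, SchwartzMap.fourierInv_coe] at h1
  have h3 : (SchwartzMap.pairing (ContinuousLinearMap.mul ℂ ℂ) a (𝓕 h) : E3 → ℂ)
      = fun η : E3 => a η * 𝓕 (h : E3 → ℂ) η := by
    funext η
    rw [SchwartzMap.pairing_apply_apply, SchwartzMap.fourier_coe]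
    rfl
  rw [h3] at h1
  rw [h1, convolution_def]
  rfl

/-- **Young's inequality for Schwartz symbols** -/
theorem ls_lw_young (a h : 𝓢(E3, ℂ)) :
    eLpNorm (𝓕⁻ (fun η : E3 => a η * 𝓕 (h : E3 → ℂ) η)) 3 volume
      ≤ ENNReal.ofReal (∫ x, ‖𝓕⁻ a x‖) * eLpNorm h 3 volume := by
  have e : 𝓕⁻ (fun η : E3 => a η * 𝓕 (h : E3 → ℂ) η) = fun x => ∫ y, 𝓕⁻ a y * h (x - y) := by
    funext x
    exact ls_lw_conv a h x
  have hmeas : AEStronglyMeasurable (Function.uncurry fun y x : E3 => 𝓕⁻ a y * h (x - y))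
      ((volume : Measure E3).prod (volume : Measure E3)) := by
    have hc : Continuous (Function.uncurry fun y x : E3 => 𝓕⁻ a y * h (x - y)) := by
      unfold Function.uncurry
      exact ((𝓕⁻ a).continuous.comp continuous_fst).mul (h.continuous.comp (continuous_snd.sub continuous_fst))
    exact hc.aestronglyMeasurable
  rw [e]
  refine (Claimed.Agent.R255.BR.mink3 volume volume (fun y x : E3 => 𝓕⁻ a y * h (x - y)) hmeas).trans (le_of_eq ?_)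
  have h1 : ∀ y : E3, eLpNorm (fun x : E3 => 𝓕⁻ a y * h (x - y)) 3 volume = ‖𝓕⁻ a y‖ₑ * eLpNorm h 3 volume := by
    intro y
    have h2 : (fun x : E3 => 𝓕⁻ a y * h (x - y)) = 𝓕⁻ a y • ((h : E3 → ℂ) ∘ fun x => x - y) := by
      funext x; simp
    rw [h2, eLpNorm_const_smul,
      eLpNorm_comp_measurePreserving h.continuous.aestronglyMeasurable (measurePreserving_sub_right volume y)]
  simp only [h1]
  rw [lintegral_mul_const' _ _ (h.memLp 3 volume).eLpNorm_ne_top,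
    ofReal_integral_norm_eq_lintegral_enorm (𝓕⁻ a).integrable]

/-! ## 2. The regularised symbols -/

/-- the regularised radius -/
noncomputable def lwR (σ : ℝ) (η : E3) : ℝ := Real.sqrt (‖η‖ ^ 2 + σ ^ 2)

/-- the regularised phase factor -/
noncomputable def lwPh (σ t : ℝ) (η : E3) : ℂ := Complex.exp (2 * π * Complex.I * ((t * lwR σ η : ℝ) : ℂ))

/-- the low symbol -/
noncomputable def lwM (ε : ℝ) (η : E3) : ℂ := (cut 1 η : ℂ) * (jm (-ε) η : ℂ)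

theorem ls_lw_R_pos {σ : ℝ} (hσ : 0 < σ) (η : E3) : 0 < lwR σ η := Real.sqrt_pos.2 (by positivity)

theorem ls_lw_R_zero (η : E3) : lwR 0 η = ‖η‖ := by
  unfold lwR
  rw [zero_pow (by norm_num), add_zero, Real.sqrt_sq (norm_nonneg _)]

theorem ls_lw_R_ge (σ : ℝ) (η : E3) : ‖η‖ ≤ lwR σ η := by
  unfold lwR
  exact Real.le_sqrt_of_sq_le (by nlinarith [sq_nonneg σ])

theorem ls_lw_Ph_zero (t : ℝ) (η : E3) : lwPh 0 t η = wsym t η := by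
  unfold lwPh wsym
  rw [ls_lw_R_zero]

theorem ls_lw_Ph_norm (σ t : ℝ) (η : E3) : ‖lwPh σ t η‖ = 1 := by
  unfold lwPh
  have : (2 * π * Complex.I * ((t * lwR σ η : ℝ) : ℂ)) = ((2 * π * (t * lwR σ η) : ℝ) : ℂ) * Complex.I := by
    push_cast; ring
  rw [this, Complex.norm_exp_ofReal_mul_I]

theorem ls_lw_R_smooth {σ : ℝ} (hσ : 0 < σ) : ContDiff ℝ ∞ (lwR σ) := by
  unfold lwR
  exact ((contDiff_norm_sq ℝ).add contDiff_const).sqrt fun η => by positivity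

theorem ls_lw_Ph_smooth {σ : ℝ} (hσ : 0 < σ) (t : ℝ) : ContDiff ℝ ∞ (lwPh σ t) := by
  unfold lwPh
  refine ContDiff.cexp (contDiff_const.mul ?_)
  exact Complex.ofRealCLM.contDiff.comp (contDiff_const.mul (ls_lw_R_smooth hσ))

theorem ls_lw_M_smooth (ε : ℝ) : ContDiff ℝ ∞ (lwM ε) := by
  have h1 : ContDiff ℝ ∞ (cut 1) := by
    unfold cut
    exact Real.smoothTransition.contDiff.comp (contDiff_const.sub ((contDiff_norm_sq ℝ).div_const _))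
  have h2 : ContDiff ℝ ∞ (jm (-ε)) := by
    unfold jm
    exact (contDiff_const.add (contDiff_const.mul (contDiff_norm_sq ℝ))).rpow_const_of_ne fun η => by positivity
  unfold lwM
  exact (Complex.ofRealCLM.contDiff.comp h1).mul (Complex.ofRealCLM.contDiff.comp h2)

theorem ls_lw_M_zero (ε : ℝ) {η : E3} (h : 2 ≤ ‖η‖ ^ 2) : lwM ε η = 0 := by
  unfold lwM cut
  rw [Real.smoothTransition.zero_of_nonpos (by norm_num; linarith)]
  simp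

theorem ls_lw_M_supp (ε : ℝ) : HasCompactSupport (lwM ε) := by
  refine HasCompactSupport.intro (isCompact_closedBall (0 : E3) 2) fun η hη => ls_lw_M_zero ε ?_
  rw [mem_closedBall_zero_iff, not_le] at hη
  nlinarith

theorem ls_lw_M_le (ε : ℝ) (hε : 0 ≤ ε) (η : E3) : ‖lwM ε η‖ ≤ 1 := by
  unfold lwM
  rw [norm_mul, Complex.norm_real, Complex.norm_real, Real.norm_eq_abs, Real.norm_eq_abs]
  have h1 : 0 ≤ cut 1 η ∧ cut 1 η ≤ 1 := ⟨Real.smoothTransition.nonneg _, Real.smoothTransition.le_one _⟩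
  have h2 : 0 ≤ jm (-ε) η ∧ jm (-ε) η ≤ 1 := by
    unfold jm
    refine ⟨by positivity, Real.rpow_le_one_of_one_le_of_nonpos ?_ (by linarith)⟩
    have : 0 ≤ 4 * Real.pi ^ 2 * ‖η‖ ^ 2 := by positivity
    linarith
  rw [abs_of_nonneg h1.1, abs_of_nonneg h2.1]
  nlinarith

/-- the low symbol as a Schwartz function -/
noncomputable def lwMs (ε : ℝ) : 𝓢(E3, ℂ) := (ls_lw_M_supp ε).toSchwartzMap (ls_lw_M_smooth ε)

/-- the regularised symbol as a Schwartz function -/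
noncomputable def lwA (ε : ℝ) {σ : ℝ} (hσ : 0 < σ) (t : ℝ) : 𝓢(E3, ℂ) :=
  (HasCompactSupport.mul_left (f := lwPh σ t) (ls_lw_M_supp ε)).toSchwartzMap
    ((ls_lw_Ph_smooth hσ t).mul (ls_lw_M_smooth ε))

theorem ls_lw_Ms_coe (ε : ℝ) : (lwMs ε : E3 → ℂ) = lwM ε := rfl

theorem ls_lw_A_coe (ε : ℝ) {σ : ℝ} (hσ : 0 < σ) (t : ℝ) :
    (lwA ε hσ t : E3 → ℂ) = fun η => lwPh σ t η * lwM ε η := rfl

/-! ### line derivatives -/

/-- `∂_j` of the phase is `lwP` times the phase -/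
noncomputable def lwP (σ t : ℝ) (j : Fin 3) (η : E3) : ℂ := 2 * π * Complex.I * ((t * (η j / lwR σ η) : ℝ) : ℂ)

/-- `∂_j lwP` -/
noncomputable def lwQ (σ t : ℝ) (j : Fin 3) (η : E3) : ℂ :=
  2 * π * Complex.I * ((t * ((1 * lwR σ η - η j * (η j / lwR σ η)) / lwR σ η ^ 2) : ℝ) : ℂ)

theorem ls_lw_d_coord (j : Fin 3) (x : E3) : HasDerivAt (fun s : ℝ => (x + s • lwE j) j) 1 0 := by
  have e : (fun s : ℝ => (x + s • lwE j) j) = fun s : ℝ => x j + s := by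
    funext s
    simp [lwE]
  rw [e]
  simpa using (hasDerivAt_id (0 : ℝ)).const_add (x j)

theorem ls_lw_d_R {σ : ℝ} (hσ : 0 < σ) (j : Fin 3) (x : E3) :
    HasDerivAt (fun s : ℝ => lwR σ (x + s • lwE j)) (x j / lwR σ x) 0 := by
  have h1 : HasDerivAt (fun s : ℝ => ‖x + s • lwE j‖ ^ 2) (2 * x j) 0 := by
    have h := ((hasStrictFDerivAt_norm_sq x).hasFDerivAt).hasLineDerivAt (lwE j)
    have e : (2 • (innerSL ℝ) x) (lwE j) = 2 * x j := by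
      simp [ls_lw_inner_E]
    rw [e] at h
    exact h
  have h2 := (h1.add_const (σ ^ 2)).sqrt (by simp; positivity)
  have e : 2 * x j / (2 * Real.sqrt (‖x + (0 : ℝ) • lwE j‖ ^ 2 + σ ^ 2)) = x j / lwR σ x := by
    unfold lwR
    rw [zero_smul, add_zero, mul_div_mul_left _ _ (by norm_num : (2 : ℝ) ≠ 0)]
  rw [e] at h2
  exact h2

theorem ls_lw_d_Ph {σ : ℝ} (hσ : 0 < σ) (t : ℝ) (j : Fin 3) (x : E3) :
    HasDerivAt (fun s : ℝ => lwPh σ t (x + s • lwE j)) (lwPh σ t x * lwP σ t j x) 0 := by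
  have h1 := ((ls_lw_d_R hσ j x).const_mul t).ofReal_comp
  have h2 := (h1.const_mul (2 * π * Complex.I)).cexp
  unfold lwPh lwP
  simpa using h2

theorem ls_lw_d_P {σ : ℝ} (hσ : 0 < σ) (t : ℝ) (j : Fin 3) (x : E3) :
    HasDerivAt (fun s : ℝ => lwP σ t j (x + s • lwE j)) (lwQ σ t j x) 0 := by
  have h0 : lwR σ (x + (0 : ℝ) • lwE j) ≠ 0 := (ls_lw_R_pos hσ _).ne'
  have h1 := (((ls_lw_d_coord j x).div (ls_lw_d_R hσ j x) h0).const_mul t).ofReal_comp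
  have h2 := h1.const_mul (2 * π * Complex.I)
  unfold lwP lwQ
  simpa using h2

theorem ls_lw_d_S (f : 𝓢(E3, ℂ)) (j : Fin 3) (x : E3) :
    HasDerivAt (fun s : ℝ => f (x + s • lwE j)) ((∂_{lwE j} f) x) 0 :=
  (f.hasFDerivAt x).hasLineDerivAt (lwE j)

/-- the first derivative of the regularised symbol -/
theorem ls_lw_dA (ε : ℝ) {σ : ℝ} (hσ : 0 < σ) (t : ℝ) (j : Fin 3) :
    ((∂_{lwE j} (lwA ε hσ t) : 𝓢(E3, ℂ)) : E3 → ℂ)
      = fun η => lwPh σ t η * (lwP σ t j η * lwMs ε η + (∂_{lwE j} (lwMs ε)) η) := by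
  funext x
  rw [SchwartzMap.lineDerivOp_apply]
  have h : HasLineDerivAt ℝ (lwA ε hσ t : E3 → ℂ)
      (lwPh σ t x * lwP σ t j x * lwMs ε x + lwPh σ t x * (∂_{lwE j} (lwMs ε)) x) x (lwE j) := by
    have h0 := (ls_lw_d_Ph hσ t j x).mul (ls_lw_d_S (lwMs ε) j x)
    simp only [zero_smul, add_zero] at h0
    exact h0
  rw [h.lineDeriv]
  ring

/-- the second derivative of the regularised symbol -/
theorem ls_lw_ddA (ε : ℝ) {σ : ℝ} (hσ : 0 < σ) (t : ℝ) (j : Fin 3) (x : E3) :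
    (∂_{lwE j} (∂_{lwE j} (lwA ε hσ t))) x
      = lwPh σ t x * ((lwP σ t j x ^ 2 + lwQ σ t j x) * lwMs ε x + 2 * lwP σ t j x * (∂_{lwE j} (lwMs ε)) x
          + (∂_{lwE j} (∂_{lwE j} (lwMs ε))) x) := by
  rw [SchwartzMap.lineDerivOp_apply, ls_lw_dA]
  have h : HasLineDerivAt ℝ (fun η => lwPh σ t η * (lwP σ t j η * lwMs ε η + (∂_{lwE j} (lwMs ε)) η))
      (lwPh σ t x * lwP σ t j x * (lwP σ t j x * lwMs ε x + (∂_{lwE j} (lwMs ε)) x)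
        + lwPh σ t x * ((lwQ σ t j x * lwMs ε x + lwP σ t j x * (∂_{lwE j} (lwMs ε)) x)
          + (∂_{lwE j} (∂_{lwE j} (lwMs ε))) x)) x (lwE j) := by
    have h0 := (ls_lw_d_Ph hσ t j x).mul (((ls_lw_d_P hσ t j x).mul (ls_lw_d_S (lwMs ε) j x)).add
      (ls_lw_d_S (∂_{lwE j} (lwMs ε)) j x))
    simp only [Pi.add_apply, Pi.mul_apply, zero_smul, add_zero] at h0
    exact h0
  rw [h.lineDeriv]
  ring

/-! ### bounds -/

theorem ls_lw_coord_le (j : Fin 3) (η : E3) : |η j| ≤ ‖η‖ := by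
  have := PiLp.norm_apply_le η j
  rwa [Real.norm_eq_abs] at this

theorem ls_lw_2piI (r : ℝ) : ‖2 * π * Complex.I * ((r : ℝ) : ℂ)‖ = 2 * π * |r| := by
  rw [norm_mul, norm_mul, norm_mul, Complex.norm_I, Complex.norm_real, Complex.norm_real, Real.norm_eq_abs,
    Real.norm_eq_abs, abs_of_pos Real.pi_pos]
  simp

theorem ls_lw_P_le {σ : ℝ} (hσ : 0 < σ) {t : ℝ} (ht : t ∈ Set.Icc (1 : ℝ) 2) (j : Fin 3) (η : E3) :
    ‖lwP σ t j η‖ ≤ 4 * π := by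
  unfold lwP
  rw [ls_lw_2piI, abs_mul, abs_div, abs_of_pos (ls_lw_R_pos hσ η), abs_of_pos (by linarith [ht.1] : (0 : ℝ) < t)]
  have h1 : |η j| / lwR σ η ≤ 1 := (div_le_one (ls_lw_R_pos hσ η)).2 ((ls_lw_coord_le j η).trans (ls_lw_R_ge σ η))
  have h2 : 0 ≤ |η j| / lwR σ η := div_nonneg (abs_nonneg _) (ls_lw_R_pos hσ η).le
  have h3 : t * (|η j| / lwR σ η) ≤ 2 := by nlinarith [ht.1, ht.2]
  nlinarith [Real.pi_pos]

theorem ls_lw_Q_le {σ : ℝ} (hσ : 0 < σ) {t : ℝ} (ht : t ∈ Set.Icc (1 : ℝ) 2) (j : Fin 3) {η : E3} (hη : η ≠ 0) :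
    ‖lwQ σ t j η‖ ≤ 4 * π * (1 / ‖η‖) := by
  unfold lwQ
  have hR := ls_lw_R_pos hσ η
  have hn : 0 < ‖η‖ := norm_pos_iff.2 hη
  rw [ls_lw_2piI, abs_mul, abs_of_pos (by linarith [ht.1] : (0 : ℝ) < t)]
  have hj : η j ^ 2 ≤ lwR σ η ^ 2 := by
    have := (ls_lw_coord_le j η).trans (ls_lw_R_ge σ η)
    rw [← sq_abs (η j)]
    exact pow_le_pow_left₀ (abs_nonneg _) this 2
  have h1 : (1 * lwR σ η - η j * (η j / lwR σ η)) / lwR σ η ^ 2 = (lwR σ η ^ 2 - η j ^ 2) / lwR σ η ^ 3 := by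
    field_simp
  have h2 : 0 ≤ (lwR σ η ^ 2 - η j ^ 2) / lwR σ η ^ 3 := div_nonneg (by linarith) (by positivity)
  have h3 : (lwR σ η ^ 2 - η j ^ 2) / lwR σ η ^ 3 ≤ 1 / ‖η‖ := by
    calc (lwR σ η ^ 2 - η j ^ 2) / lwR σ η ^ 3 ≤ lwR σ η ^ 2 / lwR σ η ^ 3 := by
          gcongr
          nlinarith [sq_nonneg (η j)]
      _ = 1 / lwR σ η := by field_simp
      _ ≤ 1 / ‖η‖ := one_div_le_one_div_of_le hn (ls_lw_R_ge σ η)
  rw [h1, abs_of_nonneg h2]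
  have h4 : 0 ≤ 1 / ‖η‖ := by positivity
  have h5 : t * ((lwR σ η ^ 2 - η j ^ 2) / lwR σ η ^ 3) ≤ 2 * (1 / ‖η‖) := by nlinarith [ht.1, ht.2]
  nlinarith [Real.pi_pos]

/-- the dominating function -/
noncomputable def lwD (ε : ℝ) (η : E3) : ℝ :=
  ‖lwMs ε η‖ + (4 * π ^ 2)⁻¹ * ∑ j : Fin 3, (16 * π ^ 2 * ‖lwMs ε η‖ + 4 * π * (‖lwMs ε η‖ / ‖η‖)
    + 8 * π * ‖(∂_{lwE j} (lwMs ε)) η‖ + ‖(∂_{lwE j} (∂_{lwE j} (lwMs ε))) η‖)

theorem ls_lw_ddA_le (ε : ℝ) {σ : ℝ} (hσ : 0 < σ) {t : ℝ} (ht : t ∈ Set.Icc (1 : ℝ) 2) (j : Fin 3) {η : E3} (hη : η ≠ 0) :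
    ‖(∂_{lwE j} (∂_{lwE j} (lwA ε hσ t))) η‖ ≤ 16 * π ^ 2 * ‖lwMs ε η‖ + 4 * π * (‖lwMs ε η‖ / ‖η‖)
      + 8 * π * ‖(∂_{lwE j} (lwMs ε)) η‖ + ‖(∂_{lwE j} (∂_{lwE j} (lwMs ε))) η‖ := by
  rw [ls_lw_ddA, norm_mul, ls_lw_Ph_norm, one_mul]
  have hP := ls_lw_P_le hσ ht j η
  have hQ := ls_lw_Q_le hσ ht j hη
  obtain ⟨P, hPd⟩ : ∃ P : ℂ, P = lwP σ t j η := ⟨_, rfl⟩
  obtain ⟨Q, hQd⟩ : ∃ Q : ℂ, Q = lwQ σ t j η := ⟨_, rfl⟩
  obtain ⟨m0, hm0⟩ : ∃ m0 : ℂ, m0 = lwMs ε η := ⟨_, rfl⟩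
  obtain ⟨m1, hm1⟩ : ∃ m1 : ℂ, m1 = (∂_{lwE j} (lwMs ε)) η := ⟨_, rfl⟩
  obtain ⟨m2, hm2⟩ : ∃ m2 : ℂ, m2 = (∂_{lwE j} (∂_{lwE j} (lwMs ε))) η := ⟨_, rfl⟩
  rw [← hPd, ← hQd, ← hm0, ← hm1, ← hm2]
  rw [← hPd] at hP
  rw [← hQd] at hQ
  have hpi := Real.pi_pos
  have a1 : ‖(P ^ 2 + Q) * m0‖ ≤ (16 * π ^ 2 + 4 * π * (1 / ‖η‖)) * ‖m0‖ := by
    rw [norm_mul]
    refine mul_le_mul_of_nonneg_right ((norm_add_le _ _).trans (add_le_add ?_ hQ)) (norm_nonneg _)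
    rw [norm_pow]
    nlinarith [norm_nonneg P]
  have a2 : ‖2 * P * m1‖ ≤ 8 * π * ‖m1‖ := by
    rw [norm_mul, norm_mul]
    refine mul_le_mul_of_nonneg_right ?_ (norm_nonneg _)
    simp only [Complex.norm_ofNat]
    linarith
  calc ‖(P ^ 2 + Q) * m0 + 2 * P * m1 + m2‖ ≤ ‖(P ^ 2 + Q) * m0‖ + ‖2 * P * m1‖ + ‖m2‖ := norm_add₃_le
    _ ≤ (16 * π ^ 2 + 4 * π * (1 / ‖η‖)) * ‖m0‖ + 8 * π * ‖m1‖ + ‖m2‖ := by linarith
    _ = _ := by ring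

theorem ls_lw_B_le (ε : ℝ) {σ : ℝ} (hσ : 0 < σ) {t : ℝ} (ht : t ∈ Set.Icc (1 : ℝ) 2) {η : E3} (hη : η ≠ 0) :
    ‖lwB (lwA ε hσ t) η‖ ≤ lwD ε η := by
  unfold lwB lwD
  rw [sub_apply, smul_apply, sum_apply, smul_eq_mul]
  refine (norm_sub_le _ _).trans (add_le_add ?_ ?_)
  · rw [ls_lw_A_coe, norm_mul, ls_lw_Ph_norm, one_mul]
    rfl
  · rw [norm_mul, norm_inv, Complex.norm_real, Real.norm_eq_abs, abs_of_pos (by positivity : (0 : ℝ) < 4 * π ^ 2)]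
    refine mul_le_mul_of_nonneg_left ?_ (by positivity)
    exact (norm_sum_le _ _).trans (Finset.sum_le_sum fun j _ => ls_lw_ddA_le ε hσ ht j hη)

theorem ls_lw_sing (ε : ℝ) (hε : 0 ≤ ε) : MemLp (fun η : E3 => ‖lwMs ε η‖ / ‖η‖) 2 volume := by
  have hm : AEStronglyMeasurable (fun η : E3 => ‖lwMs ε η‖ / ‖η‖) volume :=
    ((lwMs ε).continuous.norm.measurable.div continuous_norm.measurable).aestronglyMeasurable
  rw [memLp_two_iff_integrable_sq hm]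
  have h1 : IntegrableOn (fun x : E3 => (‖x‖ ^ 2)⁻¹) (Metric.ball (0 : E3) 2) volume := by
    rw [integrableOn_fun_norm_addHaar (μ := (volume : Measure E3)) (f := fun y : ℝ => (y ^ 2)⁻¹)]
    have h2 : IntegrableOn (fun _ : ℝ => (1 : ℝ)) (Set.Ioo (0 : ℝ) 2) volume := by
      simp
    refine h2.congr_fun (fun y hy => ?_) measurableSet_Ioo
    have hy0 : y ≠ 0 := hy.1.ne'
    simp only [finrank_euclideanSpace, Fintype.card_fin, smul_eq_mul]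
    norm_num
    field_simp
  have h3 := (integrable_indicator_iff (μ := (volume : Measure E3)) Metric.isOpen_ball.measurableSet).2 h1
  refine h3.mono' (hm.pow 2) (Eventually.of_forall fun η => ?_)
  rw [Real.norm_eq_abs, abs_of_nonneg (by positivity)]
  by_cases hη : η ∈ Metric.ball (0 : E3) 2
  · rw [Set.indicator_of_mem hη, div_pow, div_eq_mul_inv]
    refine mul_le_of_le_one_left (by positivity) ?_
    exact pow_le_one₀ (norm_nonneg _) (ls_lw_M_le ε hε η)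
  · rw [Set.indicator_of_notMem hη]
    rw [mem_ball_zero_iff, not_lt] at hη
    have : lwMs ε η = 0 := ls_lw_M_zero ε (by nlinarith)
    rw [this]
    simp

theorem ls_lw_D_memLp (ε : ℝ) (hε : 0 ≤ ε) : MemLp (lwD ε) 2 volume := by
  have h0 : MemLp (fun η : E3 => ‖lwMs ε η‖) 2 volume := ((lwMs ε).memLp 2 volume).norm
  have hj : ∀ j : Fin 3, MemLp (fun η : E3 => 16 * π ^ 2 * ‖lwMs ε η‖ + 4 * π * (‖lwMs ε η‖ / ‖η‖)
      + 8 * π * ‖(∂_{lwE j} (lwMs ε)) η‖ + ‖(∂_{lwE j} (∂_{lwE j} (lwMs ε))) η‖) 2 volume := by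
    intro j
    have h1 : MemLp (fun η : E3 => ‖(∂_{lwE j} (lwMs ε)) η‖) 2 volume := ((∂_{lwE j} (lwMs ε)).memLp 2 volume).norm
    have h2 : MemLp (fun η : E3 => ‖(∂_{lwE j} (∂_{lwE j} (lwMs ε))) η‖) 2 volume :=
      ((∂_{lwE j} (∂_{lwE j} (lwMs ε))).memLp 2 volume).norm
    exact (((h0.const_mul (16 * π ^ 2)).add ((ls_lw_sing ε hε).const_mul (4 * π))).add (h1.const_mul (8 * π))).add h2
  have hs : MemLp (fun η : E3 => ∑ j : Fin 3, (16 * π ^ 2 * ‖lwMs ε η‖ + 4 * π * (‖lwMs ε η‖ / ‖η‖)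
      + 8 * π * ‖(∂_{lwE j} (lwMs ε)) η‖ + ‖(∂_{lwE j} (∂_{lwE j} (lwMs ε))) η‖)) 2 volume :=
    memLp_finsetSum Finset.univ fun j _ => hj j
  exact h0.add (hs.const_mul ((4 * π ^ 2)⁻¹))

/-- **the kernels of the regularised symbols are uniformly integrable** -/
theorem ls_lw_ker_unif (ε : ℝ) (hε : 0 ≤ ε) {σ : ℝ} (hσ : 0 < σ) {t : ℝ} (ht : t ∈ Set.Icc (1 : ℝ) 2) :
    ∫ x, ‖𝓕⁻ (lwA ε hσ t) x‖ ≤ ((∫ x : E3, ((1 + ‖x‖ ^ 2) ^ 2)⁻¹) + ∫ η, lwD ε η ^ 2) / 2 := by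
  refine (ls_lw_ker _).trans ?_
  have h1 : ∫ η, ‖lwB (lwA ε hσ t) η‖ ^ 2 ≤ ∫ η, lwD ε η ^ 2 := by
    refine integral_mono_ae (ls_lw_sq_int _) (ls_lw_D_memLp ε hε).integrable_sq ?_
    have h0 : ∀ᵐ η : E3, η ≠ 0 := by
      rw [ae_iff]
      simp
    filter_upwards [h0] with η hη
    exact pow_le_pow_left₀ (norm_nonneg _) (ls_lw_B_le ε hσ ht hη) 2
  linarith

/-! ## 3. The limit `σ → 0` and the integration in time -/

theorem ls_lw_fou_int (g : 𝓢(E3, ℂ)) : Integrable (𝓕 (g : E3 → ℂ)) := by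
  rw [← SchwartzMap.fourier_coe]
  exact (𝓕 g).integrable

theorem ls_lw_fou_cont (g : 𝓢(E3, ℂ)) : Continuous (𝓕 (g : E3 → ℂ)) := by
  rw [← SchwartzMap.fourier_coe]
  exact (𝓕 g).continuous

theorem ls_lw_char_cont : Continuous fun p : E3 × E3 => 𝐞 (inner ℝ p.1 p.2) :=
  Real.continuous_fourierChar.comp continuous_inner

/-- joint continuity of the phase factor -/
theorem ls_lw_Ph_cont : Continuous fun p : ℝ × ℝ × E3 => lwPh p.1 p.2.1 p.2.2 := by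
  unfold lwPh lwR
  fun_prop

theorem ls_lw_M_cont (ε : ℝ) : Continuous (lwM ε) := (ls_lw_M_smooth ε).continuous

/-- the regularised half wave of the low frequencies -/
noncomputable def lwU (ε σ : ℝ) (h : 𝓢(E3, ℂ)) (z : E3 × ℝ) : ℂ :=
  ∫ η : E3, 𝐞 (inner ℝ η z.1) • (lwPh σ z.2 η * (lwM ε η * 𝓕 (h : E3 → ℂ) η))

theorem ls_lw_U_zero (ε : ℝ) (h : 𝓢(E3, ℂ)) :
    wop (fun η => (cut 1 η : ℂ) * (jm (-ε) η : ℂ)) h = lwU ε 0 h := by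
  funext z
  unfold wop lwU
  rw [Real.fourierInv_eq]
  refine integral_congr_ae (Eventually.of_forall fun η => ?_)
  simp only
  rw [ls_lw_Ph_zero]
  rfl

theorem ls_lw_U_pos (ε : ℝ) {σ : ℝ} (hσ : 0 < σ) (h : 𝓢(E3, ℂ)) (t : ℝ) :
    (fun x : E3 => lwU ε σ h (x, t)) = 𝓕⁻ (fun η : E3 => lwA ε hσ t η * 𝓕 (h : E3 → ℂ) η) := by
  funext x
  unfold lwU
  rw [Real.fourierInv_eq]
  refine integral_congr_ae (Eventually.of_forall fun η => ?_)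
  simp only
  rw [ls_lw_A_coe, mul_assoc]

theorem ls_lw_U_bound (ε : ℝ) (hε : 0 ≤ ε) (σ : ℝ) (h : 𝓢(E3, ℂ)) (z : E3 × ℝ) (η : E3) :
    ‖𝐞 (inner ℝ η z.1) • (lwPh σ z.2 η * (lwM ε η * 𝓕 (h : E3 → ℂ) η))‖ ≤ ‖𝓕 (h : E3 → ℂ) η‖ := by
  rw [Circle.norm_smul, norm_mul, norm_mul, ls_lw_Ph_norm, one_mul]
  exact mul_le_of_le_one_left (norm_nonneg _) (ls_lw_M_le ε hε η)

theorem ls_lw_U_meas (ε σ : ℝ) (h : 𝓢(E3, ℂ)) (z : E3 × ℝ) :
    AEStronglyMeasurable (fun η : E3 => 𝐞 (inner ℝ η z.1) • (lwPh σ z.2 η * (lwM ε η * 𝓕 (h : E3 → ℂ) η))) volume := by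
  have hc : Continuous fun η : E3 => 𝐞 (inner ℝ η z.1) • (lwPh σ z.2 η * (lwM ε η * 𝓕 (h : E3 → ℂ) η)) := by
    refine Continuous.smul ?_ ((ls_lw_Ph_cont.comp (continuous_const.prodMk (continuous_const.prodMk continuous_id))).mul
      ((ls_lw_M_cont ε).mul (ls_lw_fou_cont h)))
    exact continuous_subtype_val.comp (ls_lw_char_cont.comp (continuous_id.prodMk continuous_const))
  exact hc.aestronglyMeasurable

theorem ls_lw_U_cont (ε : ℝ) (hε : 0 ≤ ε) (σ : ℝ) (h : 𝓢(E3, ℂ)) : Continuous (lwU ε σ h) := by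
  unfold lwU
  refine continuous_of_dominated (bound := fun η => ‖𝓕 (h : E3 → ℂ) η‖) (fun z => ls_lw_U_meas ε σ h z)
    (fun z => Eventually.of_forall fun η => ls_lw_U_bound ε hε σ h z η) (ls_lw_fou_int h).norm
    (Eventually.of_forall fun η => ?_)
  refine Continuous.smul ?_ (Continuous.mul ?_ continuous_const)
  · exact continuous_subtype_val.comp (ls_lw_char_cont.comp (continuous_const.prodMk continuous_fst))
  · exact ls_lw_Ph_cont.comp (continuous_const.prodMk (continuous_snd.prodMk continuous_const))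

theorem ls_lw_U_tendsto (ε : ℝ) (hε : 0 ≤ ε) (h : 𝓢(E3, ℂ)) (z : E3 × ℝ) :
    Tendsto (fun n : ℕ => lwU ε (1 / ((n : ℝ) + 1)) h z) atTop (𝓝 (lwU ε 0 h z)) := by
  unfold lwU
  refine tendsto_integral_of_dominated_convergence (fun η => ‖𝓕 (h : E3 → ℂ) η‖) (fun n => ls_lw_U_meas ε _ h z)
    (ls_lw_fou_int h).norm (fun n => Eventually.of_forall fun η => ls_lw_U_bound ε hε _ h z η)
    (Eventually.of_forall fun η => ?_)
  have h1 : Continuous fun σ : ℝ => lwPh σ z.2 η :=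
    ls_lw_Ph_cont.comp (continuous_id.prodMk (continuous_const (y := (z.2, η))))
  have hc : Continuous fun σ : ℝ => 𝐞 (inner ℝ η z.1) • (lwPh σ z.2 η * (lwM ε η * 𝓕 (h : E3 → ℂ) η)) :=
    Continuous.smul continuous_const (Continuous.mul h1 continuous_const)
  exact (hc.tendsto 0).comp tendsto_one_div_add_atTop_nhds_zero_nat

/-- the constant -/
noncomputable def lwC (ε : ℝ) : ℝ := ((∫ x : E3, ((1 + ‖x‖ ^ 2) ^ 2)⁻¹) + ∫ η, lwD ε η ^ 2) / 2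

theorem ls_lw_C_nonneg (ε : ℝ) : 0 ≤ lwC ε := by
  unfold lwC
  have h1 : 0 ≤ ∫ x : E3, ((1 + ‖x‖ ^ 2) ^ 2)⁻¹ := integral_nonneg fun x => by positivity
  have h2 : 0 ≤ ∫ η, lwD ε η ^ 2 := integral_nonneg fun x => by positivity
  linarith

/-- fixed time, `σ > 0` -/
theorem ls_lw_fix_pos (ε : ℝ) (hε : 0 ≤ ε) {σ : ℝ} (hσ : 0 < σ) {t : ℝ} (ht : t ∈ Set.Icc (1 : ℝ) 2) (h : 𝓢(E3, ℂ)) :
    eLpNorm (fun x : E3 => lwU ε σ h (x, t)) 3 volume ≤ ENNReal.ofReal (lwC ε) * eLpNorm h 3 volume := by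
  rw [ls_lw_U_pos ε hσ h t]
  exact (ls_lw_young _ h).trans (mul_le_mul' (ENNReal.ofReal_le_ofReal (ls_lw_ker_unif ε hε hσ ht)) le_rfl)

/-- fixed time, `σ = 0` (Fatou) -/
theorem ls_lw_fix_zero (ε : ℝ) (hε : 0 ≤ ε) {t : ℝ} (ht : t ∈ Set.Icc (1 : ℝ) 2) (h : 𝓢(E3, ℂ)) :
    eLpNorm (fun x : E3 => lwU ε 0 h (x, t)) 3 volume ≤ ENNReal.ofReal (lwC ε) * eLpNorm h 3 volume := by
  refine (Lp.eLpNorm_lim_le_liminf_eLpNorm (f := fun (n : ℕ) (x : E3) => lwU ε (1 / ((n : ℝ) + 1)) h (x, t))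
    (fun n => ?_) _ (Eventually.of_forall fun x => ls_lw_U_tendsto ε hε h (x, t))).trans ?_
  · exact ((ls_lw_U_cont ε hε _ h).comp (continuous_id.prodMk continuous_const)).aestronglyMeasurable
  · exact liminf_le_of_frequently_le' (Frequently.of_forall fun n => ls_lw_fix_pos ε hε (by positivity) ht h)

/-- from fixed times to space-time -/
theorem ls_lw_st (u : E3 × ℝ → ℂ) (hu : Continuous u) (K : ℝ≥0∞)
    (hK : ∀ t ∈ Set.Icc (1 : ℝ) 2, eLpNorm (fun x : E3 => u (x, t)) 3 volume ≤ K) : eLpNorm u 3 stμ ≤ K := by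
  have h3 : (3 : ℝ≥0∞).toReal = 3 := by norm_num
  rw [eLpNorm_eq_lintegral_rpow_enorm_toReal (by norm_num) (by norm_num), h3]
  unfold stμ
  rw [lintegral_prod_symm _ (by fun_prop)]
  have h1 : ∀ t ∈ Set.Icc (1 : ℝ) 2, ∫⁻ x : E3, ‖u (x, t)‖ₑ ^ (3 : ℝ) ≤ K ^ (3 : ℝ) := by
    intro t ht
    have h2 := hK t ht
    rw [eLpNorm_eq_lintegral_rpow_enorm_toReal (by norm_num) (by norm_num), h3] at h2
    calc ∫⁻ x : E3, ‖u (x, t)‖ₑ ^ (3 : ℝ) = ((∫⁻ x : E3, ‖u (x, t)‖ₑ ^ (3 : ℝ)) ^ (1 / 3 : ℝ)) ^ (3 : ℝ) := by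
          rw [← ENNReal.rpow_mul]; norm_num
      _ ≤ K ^ (3 : ℝ) := ENNReal.rpow_le_rpow h2 (by norm_num)
  calc (∫⁻ t in Set.Icc (1 : ℝ) 2, ∫⁻ x : E3, ‖u (x, t)‖ₑ ^ (3 : ℝ)) ^ (1 / 3 : ℝ)
      ≤ (∫⁻ _ in Set.Icc (1 : ℝ) 2, K ^ (3 : ℝ)) ^ (1 / 3 : ℝ) :=
        ENNReal.rpow_le_rpow (setLIntegral_mono' measurableSet_Icc h1) (by norm_num)
    _ = K := by
        have h21 : ENNReal.ofReal (2 - 1) = 1 := by norm_num
        rw [setLIntegral_const, Real.volume_Icc, h21, mul_one, ← ENNReal.rpow_mul]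
        norm_num

/-- **(T3)** the low frequencies -/
theorem ls_lw_low (ε : ℝ) (hε : 0 < ε) :
    ∃ C : ℝ, 0 ≤ C ∧ ∀ h : 𝓢(E3, ℂ),
      eLpNorm (wop (fun η => (cut 1 η : ℂ) * (jm (-ε) η : ℂ)) h) 3 stμ ≤ ENNReal.ofReal C * eLpNorm h 3 volume := by
  refine ⟨lwC ε, ls_lw_C_nonneg ε, fun h => ?_⟩
  rw [ls_lw_U_zero]
  exact ls_lw_st _ (ls_lw_U_cont ε hε.le 0 h) _ fun t ht => ls_lw_fix_zero ε hε.le ht h

theorem ls_lw_eqns_cite : True := by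
  have := @lwE.eq_1
  have := @lwB.eq_1
  have := @lwR.eq_1
  have := @lwPh.eq_1
  have := @lwM.eq_1
  have := @lwMs.eq_1
  have := @lwA.eq_1
  have := @lwP.eq_1
  have := @lwQ.eq_1
  have := @lwD.eq_1
  have := @lwU.eq_1
  have := @lwC.eq_1
  trivial

end Claimed.Agent.R256
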