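import Claimed.Agent.R256.Top.Defs

/-!
# Row 256, TOP LAYER, leaf T1: real multipliers of temperate growth on Schwartz functions      (helper179; prefix `lsm_`)
-/

set_option autoImplicit false

namespace Claimed.Agent.R256

open MeasureTheory Complex Filter Claims.C0424
open scoped FourierTransform Real SchwartzMap Topology ENNReal

/-- temperate growth of the Bessel symbol -/
theorem lsm_jm_tg (a : ℝ) : (jm a).HasTemperateGrowth := by
  have h := (Function.hasTemperateGrowth_one_add_norm_sq_rpow E3 (a / 2)).comp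
    (((2 * π) • ContinuousLinearMap.id ℝ E3).hasTemperateGrowth)
  have e : jm a = (fun x : E3 => (1 + ‖x‖ ^ 2) ^ (a / 2)) ∘ ⇑((2 * π) • ContinuousLinearMap.id ℝ E3) := by
    funext η
    simp only [jm, Function.comp_apply, _root_.smul_apply, ContinuousLinearMap.id_apply, norm_smul,
      mul_pow, Real.norm_eq_abs, abs_mul, abs_of_pos Real.pi_pos, abs_two]
    norm_num
  rw [e]
  exact h

/-- a real multiplier of temperate growth acts on Schwartz functions -/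
theorem lsm_mult (m : E3 → ℝ) (hm : m.HasTemperateGrowth) (f : 𝓢(E3, ℂ)) :
    ∃ h : 𝓢(E3, ℂ), (h : E3 → ℂ) = 𝓕⁻ (fun η : E3 => (m η : ℂ) * 𝓕 (f : E3 → ℂ) η) ∧
      ∀ η : E3, 𝓕 (h : E3 → ℂ) η = (m η : ℂ) * 𝓕 (f : E3 → ℂ) η := by
  have hm' : (fun η : E3 => (m η : ℂ)).HasTemperateGrowth := by fun_prop
  have e : ((SchwartzMap.smulLeftCLM ℂ (fun η : E3 => (m η : ℂ)) (𝓕 f) : 𝓢(E3, ℂ)) : E3 → ℂ)
      = fun η : E3 => (m η : ℂ) * 𝓕 (f : E3 → ℂ) η := by
    funext η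
    rw [SchwartzMap.smulLeftCLM_apply_apply hm', SchwartzMap.fourier_coe, smul_eq_mul]
  refine ⟨𝓕⁻ (SchwartzMap.smulLeftCLM ℂ (fun η : E3 => (m η : ℂ)) (𝓕 f)), ?_, fun η => ?_⟩
  · rw [SchwartzMap.fourierInv_coe, e]
  · rw [← SchwartzMap.fourier_coe, FourierTransform.fourier_fourierInv_eq, e]

theorem lsm_bessel (ε : ℝ) (f : 𝓢(E3, ℂ)) :
    ∃ h : 𝓢(E3, ℂ), (h : E3 → ℂ) = besselPotential ε f ∧
      ∀ η : E3, 𝓕 (f : E3 → ℂ) η = (jm (-ε) η : ℂ) * 𝓕 (h : E3 → ℂ) η := by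
  obtain ⟨h, h1, h2⟩ := lsm_mult (jm ε) (lsm_jm_tg ε) f
  refine ⟨h, ?_, fun η => ?_⟩
  · rw [h1]
    rfl
  · rw [h2, ← mul_assoc, ← Complex.ofReal_mul]
    have : jm (-ε) η * jm ε η = 1 := by
      unfold jm
      rw [← Real.rpow_add (by positivity)]
      simp [neg_div]
    rw [this]
    simp

end Claimed.Agent.R256
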