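import Claimed.Agent.R256.Top.Mult
import Claimed.Agent.R255.BR.Tools

/-!
# Row 256, TOP LAYER, leaf T2: the Littlewood-Paley pieces of `J^{-ε}`      (helper179; prefixes `lsp_`, `lspB`)

(A) `‖𝓕⁻ b‖₁ ≤ C Σ seminorms b`; (B) Young at `p = 3`; (C) multipliers with Schwartz symbols; (D) dilations;
(E) the rescaled symbols are the slices `σ = 2^{-n}` of ONE smooth function `lspB` of `(σ, u)`, so their seminorms are uniformly bounded.
-/

set_option autoImplicit false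

namespace Claimed.Agent.R256

open MeasureTheory Complex Filter Claims.C0424
open scoped FourierTransform Real SchwartzMap Topology ENNReal Convolution ContDiff

/-- **(A)** the `L¹` norm of the inverse Fourier transform is controlled by finitely many Schwartz seminorms -/
theorem lsp_l1_bound : ∃ (s : Finset (ℕ × ℕ)) (C : ℝ), 0 ≤ C ∧ ∀ b : 𝓢(E3, ℂ),
    ∫ x, ‖(𝓕⁻ b : 𝓢(E3, ℂ)) x‖ ≤ C * ∑ i ∈ s, SchwartzMap.seminorm ℝ i.1 i.2 b := by
  let T : 𝓢(E3, ℂ) →L[ℝ] Lp ℂ 1 (volume : Measure E3) :=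
    (SchwartzMap.toLpCLM ℝ ℂ 1 (volume : Measure E3)) ∘L (FourierTransform.fourierInvCLM ℝ 𝓢(E3, ℂ))
  let q : Seminorm ℝ 𝓢(E3, ℂ) := (normSeminorm ℝ (Lp ℂ 1 (volume : Measure E3))).comp T.toLinearMap
  have hq : Continuous q := continuous_norm.comp T.continuous
  obtain ⟨s, C, -, hC⟩ := Seminorm.bound_of_continuous (schwartz_withSeminorms ℝ E3 ℂ) q hq
  refine ⟨s, C, C.coe_nonneg, fun b => ?_⟩
  have h1 : q b = ∫ x, ‖(𝓕⁻ b : 𝓢(E3, ℂ)) x‖ := by
    show ‖((𝓕⁻ b : 𝓢(E3, ℂ))).toLp 1 volume‖ = _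
    exact SchwartzMap.norm_toLp_one
  rw [← h1]
  refine (hC b).trans ?_
  have h2 := Seminorm.finset_sup_le_sum (schwartzSeminormFamily ℝ E3 ℂ) s b
  rw [_root_.smul_apply, NNReal.smul_def, smul_eq_mul]
  refine mul_le_mul_of_nonneg_left (h2.trans (le_of_eq ?_)) C.coe_nonneg
  have h3 : ∀ t : Finset (ℕ × ℕ), (∑ i ∈ t, schwartzSeminormFamily ℝ E3 ℂ i) b
      = ∑ i ∈ t, (SchwartzMap.seminorm ℝ i.1 i.2) b := by
    intro t
    induction t using Finset.induction_on with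
    | empty => simp
    | insert a t ha ih =>
      rw [Finset.sum_insert ha, Finset.sum_insert ha, _root_.add_apply, ih]
      rfl
  exact h3 s

/-- **(B)** Young's inequality at `p = 3` for Schwartz functions -/
theorem lsp_young (k h : 𝓢(E3, ℂ)) :
    eLpNorm (SchwartzMap.convolution (ContinuousLinearMap.mul ℂ ℂ) k h) 3 volume
      ≤ ENNReal.ofReal (∫ x, ‖k x‖) * eLpNorm h 3 volume := by
  have e : ((SchwartzMap.convolution (ContinuousLinearMap.mul ℂ ℂ) k h : 𝓢(E3, ℂ)) : E3 → ℂ)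
      = fun z => ∫ w, k w * h (z - w) := by
    funext z
    rw [SchwartzMap.convolution_apply]
    rfl
  have hmeas : AEStronglyMeasurable (Function.uncurry fun w z => k w * h (z - w))
      ((volume : Measure E3).prod (volume : Measure E3)) := by
    have : Continuous (Function.uncurry fun w z : E3 => k w * h (z - w)) := by
      unfold Function.uncurry
      exact (k.continuous.comp continuous_fst).mul (h.continuous.comp (continuous_snd.sub continuous_fst))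
    exact this.aestronglyMeasurable
  rw [e]
  refine (Claimed.Agent.R255.BR.mink3 volume volume (fun w z => k w * h (z - w)) hmeas).trans (le_of_eq ?_)
  have h1 : ∀ w, eLpNorm (fun z => k w * h (z - w)) 3 volume = ‖k w‖ₑ * eLpNorm h 3 volume := by
    intro w
    have h2 : (fun z => k w * h (z - w)) = k w • ((h : E3 → ℂ) ∘ fun z => z - w) := by
      funext z; simp
    rw [h2, eLpNorm_const_smul,
      eLpNorm_comp_measurePreserving h.continuous.aestronglyMeasurable (measurePreserving_sub_right volume w)]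
  simp only [h1]
  rw [lintegral_mul_const' _ _ (h.eLpNorm_lt_top 3 volume).ne,
    ofReal_integral_norm_eq_lintegral_enorm k.integrable]

/-- **(C)** a multiplier with a Schwartz symbol -/
theorem lsp_mult (b h : 𝓢(E3, ℂ)) : ∃ g : 𝓢(E3, ℂ),
    (∀ η : E3, 𝓕 (g : E3 → ℂ) η = b η * 𝓕 (h : E3 → ℂ) η) ∧
      eLpNorm g 3 volume ≤ ENNReal.ofReal (∫ x, ‖𝓕⁻ (b : E3 → ℂ) x‖) * eLpNorm h 3 volume := by
  refine ⟨SchwartzMap.convolution (ContinuousLinearMap.mul ℂ ℂ) (𝓕⁻ b) h, fun η => ?_, ?_⟩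
  · rw [← SchwartzMap.fourier_coe, SchwartzMap.fourier_convolution, FourierTransform.fourier_fourierInv_eq,
      SchwartzMap.pairing_apply_apply, SchwartzMap.fourier_coe]
    rfl
  · have := lsp_young (𝓕⁻ b) h
    rwa [SchwartzMap.fourierInv_coe] at this

/-- **(D)** dilations do not change the `L¹` norm of the kernel -/
theorem lsp_scale (b : E3 → ℂ) {lam : ℝ} (hlam : 0 < lam) :
    ∫ x, ‖𝓕⁻ (fun u : E3 => b (lam • u)) x‖ = ∫ x, ‖𝓕⁻ b x‖ := by
  have h3 : Module.finrank ℝ E3 = 3 := by simp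
  have e : ∀ x : E3, 𝓕⁻ (fun u : E3 => b (lam • u)) x = ((lam ^ 3)⁻¹ : ℝ) • 𝓕⁻ b (lam⁻¹ • x) := by
    intro x
    rw [Real.fourierInv_eq, Real.fourierInv_eq]
    have h1 := Measure.integral_comp_smul (volume : Measure E3)
      (fun u : E3 => Real.fourierChar (inner ℝ u (lam⁻¹ • x)) • b u) lam
    rw [h3, abs_of_pos (inv_pos.2 (pow_pos hlam 3))] at h1
    rw [← h1]
    congr 1
    funext v
    rw [inner_smul_left, inner_smul_right]
    congr 3
    simp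
    field_simp
  simp only [e, norm_smul, Real.norm_eq_abs, abs_of_pos (inv_pos.2 (pow_pos hlam 3))]
  rw [integral_const_mul]
  have h1 := Measure.integral_comp_smul (volume : Measure E3) (fun u : E3 => ‖𝓕⁻ b u‖) lam⁻¹
  rw [h3] at h1
  rw [h1, smul_eq_mul, ← mul_assoc, inv_pow, inv_inv, abs_of_pos (pow_pos hlam 3),
    inv_mul_cancel₀ (pow_pos hlam 3).ne', one_mul]

theorem lsp_cut_smooth (s : ℝ) : ContDiff ℝ ∞ (cut s) := by
  unfold cut
  exact Real.smoothTransition.contDiff.comp ((contDiff_const).sub ((contDiff_norm_sq ℝ).div_const _))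

theorem lsp_ann_smooth (s : ℝ) : ContDiff ℝ ∞ (ann s) := by
  unfold ann
  exact (lsp_cut_smooth _).sub (lsp_cut_smooth _)

/-- `ann s` vanishes on `|η| ≤ s` -/
theorem lsp_ann_zero_in {s : ℝ} (hs : 0 < s) {η : E3} (h : ‖η‖ ≤ s) : ann s η = 0 := by
  unfold ann cut
  have h0 : ‖η‖ ^ 2 ≤ s ^ 2 := pow_le_pow_left₀ (norm_nonneg _) h 2
  have h1 : ‖η‖ ^ 2 / s ^ 2 ≤ 1 := by
    rw [div_le_one (by positivity)]; exact h0
  have h2 : ‖η‖ ^ 2 / (2 * s) ^ 2 ≤ 1 := by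
    rw [div_le_one (by positivity)]; nlinarith
  rw [Real.smoothTransition.one_of_one_le (by linarith), Real.smoothTransition.one_of_one_le (by linarith), sub_self]

/-- `ann s` vanishes on `|η| ≥ 3 s` -/
theorem lsp_ann_zero_out {s : ℝ} (hs : 0 < s) {η : E3} (h : 3 * s ≤ ‖η‖) : ann s η = 0 := by
  unfold ann cut
  have h0 : (3 * s) ^ 2 ≤ ‖η‖ ^ 2 := pow_le_pow_left₀ (by positivity) h 2
  have h1 : 2 ≤ ‖η‖ ^ 2 / s ^ 2 := by
    rw [le_div_iff₀ (by positivity)]; nlinarith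
  have h2 : 2 ≤ ‖η‖ ^ 2 / (2 * s) ^ 2 := by
    rw [le_div_iff₀ (by positivity)]; nlinarith
  rw [Real.smoothTransition.zero_of_nonpos (by linarith), Real.smoothTransition.zero_of_nonpos (by linarith), sub_self]

/-- the rescaled symbols as one function of `(σ, u)`, `σ = 2^{-n}` -/
noncomputable def lspB (ε : ℝ) (p : ℝ × E3) : ℂ :=
  ((ann 1 p.2 * (p.1 ^ 2 + 4 * π ^ 2 * ‖p.2‖ ^ 2) ^ (-ε / 2) : ℝ) : ℂ)

theorem lspB_smooth (ε : ℝ) : ContDiff ℝ ∞ (lspB ε) := by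
  rw [contDiff_iff_contDiffAt]
  intro p
  by_cases hp : p.2 = 0
  · have h1 : ∀ᶠ q : ℝ × E3 in 𝓝 p, ‖q.2‖ < 1 :=
      (continuous_snd.norm.tendsto p).eventually (gt_mem_nhds (by simp [hp]))
    have h2 : lspB ε =ᶠ[𝓝 p] fun _ => 0 := by
      filter_upwards [h1] with q hq
      simp [lspB, lsp_ann_zero_in one_pos hq.le]
    exact contDiffAt_const.congr_of_eventuallyEq h2
  · have hb : p.1 ^ 2 + 4 * π ^ 2 * ‖p.2‖ ^ 2 ≠ 0 := by
      have : 0 < ‖p.2‖ := norm_pos_iff.2 hp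
      positivity
    unfold lspB
    refine Complex.ofRealCLM.contDiff.contDiffAt.comp p ?_
    refine ((lsp_ann_smooth 1).comp contDiff_snd).contDiffAt.mul ?_
    refine ContDiffAt.rpow_const_of_ne ?_ hb
    exact ((contDiff_fst.pow 2).add (contDiff_const.mul ((contDiff_norm_sq ℝ).comp contDiff_snd))).contDiffAt

theorem lspB_zero (ε : ℝ) {p : ℝ × E3} (h : 3 ≤ ‖p.2‖) : lspB ε p = 0 := by
  simp [lspB, lsp_ann_zero_out one_pos (by simpa using h)]

theorem lspB_tsupport (ε : ℝ) : tsupport (lspB ε) ⊆ {p : ℝ × E3 | ‖p.2‖ ≤ 3} := by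
  refine closure_minimal (fun p hp => ?_) (isClosed_le continuous_snd.norm continuous_const)
  by_contra h
  exact hp (lspB_zero ε (not_le.1 h).le)

/-- slices -/
theorem lspB_slice_deriv (ε σ : ℝ) (l : ℕ) (u : E3) :
    ‖iteratedFDeriv ℝ l (fun u : E3 => lspB ε (σ, u)) u‖ ≤ ‖iteratedFDeriv ℝ l (lspB ε) (σ, u)‖ := by
  have e : (fun u : E3 => lspB ε (σ, u)) = (fun q : ℝ × E3 => lspB ε (q + (σ, 0))) ∘ (ContinuousLinearMap.inr ℝ ℝ E3) := by
    funext u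
    simp
  have hs : ContDiff ℝ ∞ (fun q : ℝ × E3 => lspB ε (q + (σ, 0))) :=
    (lspB_smooth ε).comp (contDiff_id.add contDiff_const)
  rw [e, ContinuousLinearMap.iteratedFDeriv_comp_right _ hs _ (by exact_mod_cast le_top),
    iteratedFDeriv_comp_add_right]
  refine (ContinuousMultilinearMap.norm_compContinuousLinearMap_le _ _).trans ?_
  have h1 : ∏ _i : Fin l, ‖ContinuousLinearMap.inr ℝ ℝ E3‖ ≤ 1 :=
    Finset.prod_le_one (fun _ _ => norm_nonneg _) (fun _ _ => ContinuousLinearMap.norm_inr_le_one ℝ ℝ E3)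
  have h2 : (ContinuousLinearMap.inr ℝ ℝ E3) u + (σ, 0) = (σ, u) := by simp
  rw [h2]
  exact mul_le_of_le_one_right (norm_nonneg _) h1

theorem lspB_bound (ε : ℝ) (l : ℕ) : ∃ M : ℝ, 0 ≤ M ∧ ∀ σ ∈ Set.Icc (0 : ℝ) 1, ∀ u : E3,
    ‖iteratedFDeriv ℝ l (fun u : E3 => lspB ε (σ, u)) u‖ ≤ M ∧
      (3 < ‖u‖ → iteratedFDeriv ℝ l (fun u : E3 => lspB ε (σ, u)) u = 0) := by
  have hK : IsCompact (Set.Icc (0 : ℝ) 1 ×ˢ Metric.closedBall (0 : E3) 3) :=
    isCompact_Icc.prod (isCompact_closedBall _ _)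
  have hc : Continuous fun p : ℝ × E3 => iteratedFDeriv ℝ l (lspB ε) p :=
    (lspB_smooth ε).continuous_iteratedFDeriv (by exact_mod_cast le_top)
  obtain ⟨M, hM⟩ := hK.exists_bound_of_continuousOn hc.continuousOn
  have hz : ∀ (σ : ℝ) (u : E3), 3 < ‖u‖ → iteratedFDeriv ℝ l (lspB ε) (σ, u) = 0 := by
    intro σ u hu
    by_contra h
    have := lspB_tsupport ε (support_iteratedFDeriv_subset (𝕜 := ℝ) l h)
    exact absurd this (not_le.2 hu)
  refine ⟨max M 0, le_max_right _ _, fun σ hσ u => ⟨?_, fun hu => ?_⟩⟩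
  · refine (lspB_slice_deriv ε σ l u).trans ?_
    by_cases hu : ‖u‖ ≤ 3
    · exact (hM (σ, u) ⟨hσ, by simpa using hu⟩).trans (le_max_left _ _)
    · rw [hz σ u (not_le.1 hu), norm_zero]
      exact le_max_right _ _
  · have := lspB_slice_deriv ε σ l u
    rw [hz σ u hu, norm_zero] at this
    exact norm_le_zero_iff.1 this

/-- the slices as Schwartz functions -/
theorem lspB_schwartz (ε σ : ℝ) : ∃ b : 𝓢(E3, ℂ), (b : E3 → ℂ) = fun u : E3 => lspB ε (σ, u) := by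
  have hs : ContDiff ℝ ∞ (fun u : E3 => lspB ε (σ, u)) :=
    (lspB_smooth ε).comp (contDiff_const.prodMk contDiff_id)
  have hc : HasCompactSupport (fun u : E3 => lspB ε (σ, u)) := by
    refine HasCompactSupport.intro (isCompact_closedBall (0 : E3) 3) fun u hu => ?_
    refine lspB_zero ε ?_
    simp only [Metric.mem_closedBall, dist_zero_right, not_le] at hu
    exact hu.le
  exact ⟨hc.toSchwartzMap hs, rfl⟩

/-- **(E)** the uniform `L¹` bound of the rescaled kernels -/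
theorem lspB_l1 (ε : ℝ) : ∃ C : ℝ, 0 ≤ C ∧ ∀ σ ∈ Set.Icc (0 : ℝ) 1, ∀ c : ℝ, 0 ≤ c →
    ∫ x, ‖𝓕⁻ (fun u : E3 => (c : ℂ) * lspB ε (σ, u)) x‖ ≤ C * c := by
  obtain ⟨s, C, hC, hb⟩ := lsp_l1_bound
  choose M hM0 hM using lspB_bound ε
  refine ⟨C * ∑ i ∈ s, 3 ^ i.1 * M i.2, mul_nonneg hC (Finset.sum_nonneg fun i _ => mul_nonneg (by positivity) (hM0 _)),
    fun σ hσ c hc => ?_⟩
  obtain ⟨b, hbe⟩ := lspB_schwartz ε σ
  have e : (fun u : E3 => (c : ℂ) * lspB ε (σ, u)) = ((c • b : 𝓢(E3, ℂ)) : E3 → ℂ) := by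
    funext u
    rw [_root_.smul_apply, hbe, Complex.real_smul]
  rw [e, ← SchwartzMap.fourierInv_coe]
  refine (hb (c • b)).trans ?_
  rw [mul_assoc]
  refine mul_le_mul_of_nonneg_left ?_ hC
  rw [Finset.sum_mul]
  refine Finset.sum_le_sum fun i _ => ?_
  rw [map_smul_eq_mul, Real.norm_of_nonneg hc, mul_comm]
  refine mul_le_mul_of_nonneg_right ?_ hc
  refine SchwartzMap.seminorm_le_bound ℝ _ _ _ (mul_nonneg (by positivity) (hM0 _)) fun u => ?_
  rw [hbe]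
  by_cases hu : ‖u‖ ≤ 3
  · exact mul_le_mul (pow_le_pow_left₀ (norm_nonneg _) hu _) (hM i.2 σ hσ u).1 (norm_nonneg _) (by positivity)
  · rw [(hM i.2 σ hσ u).2 (not_le.1 hu), norm_zero, mul_zero]
    exact mul_nonneg (by positivity) (hM0 _)

/-- the symbol of the `n`-th piece, rescaled -/
theorem lsp_symbol (ε : ℝ) (n : ℕ) (u : E3) :
    ((ann (2 ^ n) ((2 : ℝ) ^ n • u) * jm (-ε) ((2 : ℝ) ^ n • u) : ℝ) : ℂ)
      = (((2 : ℝ) ^ (-(ε * n)) : ℝ) : ℂ) * lspB ε (((2 : ℝ) ^ n)⁻¹, u) := by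
  have hp : (0 : ℝ) < 2 ^ n := by positivity
  have h1 : ann (2 ^ n) ((2 : ℝ) ^ n • u) = ann 1 u := by
    unfold ann cut
    rw [norm_smul, Real.norm_of_nonneg hp.le]
    congr 3
    · field_simp
    · field_simp
  have h2 : jm (-ε) ((2 : ℝ) ^ n • u) = (2 : ℝ) ^ (-(ε * n)) * ((((2 : ℝ) ^ n)⁻¹) ^ 2 + 4 * π ^ 2 * ‖u‖ ^ 2) ^ (-ε / 2) := by
    unfold jm
    rw [norm_smul, Real.norm_of_nonneg hp.le]
    have e1 : (2 : ℝ) ^ (-(ε * n)) = (((2 : ℝ) ^ n) ^ 2) ^ (-ε / 2) := by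
      rw [← pow_mul, ← Real.rpow_natCast, ← Real.rpow_mul (by norm_num)]
      congr 1
      push_cast
      ring
    rw [e1, ← Real.mul_rpow (by positivity) (by positivity)]
    congr 1
    field_simp
  unfold lspB
  rw [h1, h2]
  push_cast
  ring

theorem lsp_piece (ε : ℝ) (_hε : 0 < ε) :
    ∃ C : ℝ, 0 ≤ C ∧ ∀ (n : ℕ) (h : 𝓢(E3, ℂ)), ∃ g : 𝓢(E3, ℂ),
      (∀ η : E3, 𝓕 (g : E3 → ℂ) η = (ann (2 ^ n) η : ℂ) * ((jm (-ε) η : ℂ) * 𝓕 (h : E3 → ℂ) η)) ∧
      eLpNorm g 3 volume ≤ ENNReal.ofReal (C * 2 ^ (-(ε * n))) * eLpNorm h 3 volume := by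
  obtain ⟨C, hC, hB⟩ := lspB_l1 ε
  refine ⟨C, hC, fun n h => ?_⟩
  have hp : (0 : ℝ) < 2 ^ n := by positivity
  have hs : ContDiff ℝ ∞ (fun η : E3 => ((ann (2 ^ n) η * jm (-ε) η : ℝ) : ℂ)) :=
    Complex.ofRealCLM.contDiff.comp ((lsp_ann_smooth _).mul (lsm_jm_tg (-ε)).1)
  have hc : HasCompactSupport (fun η : E3 => ((ann (2 ^ n) η * jm (-ε) η : ℝ) : ℂ)) := by
    refine HasCompactSupport.intro (isCompact_closedBall (0 : E3) (3 * 2 ^ n)) fun u hu => ?_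
    simp only [Metric.mem_closedBall, dist_zero_right, not_le] at hu
    rw [lsp_ann_zero_out hp hu.le]
    simp
  obtain ⟨g, hg1, hg2⟩ := lsp_mult (hc.toSchwartzMap hs) h
  refine ⟨g, fun η => ?_, hg2.trans ?_⟩
  · rw [hg1 η]
    show ((ann (2 ^ n) η * jm (-ε) η : ℝ) : ℂ) * _ = _
    push_cast
    ring
  · refine mul_le_mul' (ENNReal.ofReal_le_ofReal ?_) le_rfl
    show ∫ x, ‖𝓕⁻ (fun η : E3 => ((ann (2 ^ n) η * jm (-ε) η : ℝ) : ℂ)) x‖ ≤ _
    rw [← lsp_scale _ hp]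
    simp only [lsp_symbol]
    refine hB _ ⟨by positivity, inv_le_one_of_one_le₀ (one_le_pow₀ (by norm_num))⟩ _ (by positivity)

end Claimed.Agent.R256
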