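-- KEEP
import Claimed.Agent.R256.Top.Defs
import Claimed.Agent.R256.Top.Mult
import Claimed.Agent.R256.Top.Piece
import Claimed.Agent.R256.Top.Low

/-!
# Row 256 (LS paper), TOP LAYER L1 : `Annular ⟹ S0496`      (architect helper163; prefix `ls_`)

= proof of Theorem main, 09-physical-wave.tex l.520-560 (Sobolev summation + low frequencies).   GLUE `ls_main` PROVED from the leaves
* `ls_bessel`   (T1) `h = J^ε f` is a Schwartz function, `𝓕 f = jm (-ε) 𝓕 h`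
* `ls_piece`    (T2) `g_n = ann(2^n)(D) J^{-ε} h` is Schwartz, `‖g_n‖₃ ≤ C 2^{-ε n} ‖h‖₃`       (Young + uniform `L¹` bound of the rescaled kernels)
* `ls_low`      (T3) the low frequencies `cut 1 (D) J^{-ε}` : uniformly integrable kernels for `1 ≤ t ≤ 2`
* `ls_wop_cont` (T5) `wop m g` is continuous on space-time
* `ls_wop_add`, `ls_wop_fat`, `ls_tendsto`  (T4) linearity, `fat = 1` on the support of `ann`, dominated convergence.
-/

set_option autoImplicit false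

namespace Claimed.Agent.R256

open MeasureTheory Complex Filter Claims.C0424
open scoped FourierTransform Real SchwartzMap Topology ENNReal

/-- **(T1)**   PLAN: `h := SchwartzMap.fourierMultiplierCLM ℂ (fun η => (jm ε η : ℂ)) f`; temperate growth of `jm` (`fun_prop` / `Function.HasTemperateGrowth` of `(1 + ‖x‖²)^r`,
see `Mathlib/Analysis/Distribution/Sobolev.lean`); `fourierMultiplierCLM_apply`, `SchwartzMap.fourier_coe`, `smulLeftCLM_apply`; `jm (-ε) * jm ε = 1` (`Real.rpow_add`). -/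
theorem ls_bessel (ε : ℝ) (f : 𝓢(E3, ℂ)) :
    ∃ h : 𝓢(E3, ℂ), (h : E3 → ℂ) = besselPotential ε f ∧
      ∀ η : E3, 𝓕 (f : E3 → ℂ) η = (jm (-ε) η : ℂ) * 𝓕 (h : E3 → ℂ) η :=
  lsm_bessel ε f

/-- **(T2)**   PLAN: `g := fourierMultiplierCLM ℂ (ann (2^n) * jm (-ε)) h = k_n ⋆ h`, `k_n = 𝓕⁻ (ann (2^n) jm (-ε))`; by scaling `‖k_n‖₁ = ‖𝓕⁻ a_n‖₁`,
`a_n ω = ann 1 ω * (1 + 4π² 4^n |ω|²)^(-ε/2) = 2^{-ε n} ann 1 ω (4^{-n} + 4π²|ω|²)^(-ε/2)`; the functions `ann 1 ω (τ + 4π²|ω|²)^(-ε/2)`, `0 ≤ τ ≤ 1`, are a bounded set of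
`C_c^∞` (jointly smooth in `(τ, ω)` on a compact set), so `‖𝓕⁻ ·‖₁ ≤ C` (continuity of `𝓕⁻` on Schwartz space + `(1+|x|)^{-4} ∈ L¹`); Young = `mink3` of `R255/BR/Tools.lean`. -/
theorem ls_piece (ε : ℝ) (hε : 0 < ε) :
    ∃ C : ℝ, 0 ≤ C ∧ ∀ (n : ℕ) (h : 𝓢(E3, ℂ)), ∃ g : 𝓢(E3, ℂ),
      (∀ η : E3, 𝓕 (g : E3 → ℂ) η = (ann (2 ^ n) η : ℂ) * ((jm (-ε) η : ℂ) * 𝓕 (h : E3 → ℂ) η)) ∧
      eLpNorm g 3 volume ≤ ENNReal.ofReal (C * 2 ^ (-(ε * n))) * eLpNorm h 3 volume :=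
  lsp_piece ε hε

/-- **(T3)**   09 l.536-552.   PLAN: for `1 ≤ t ≤ 2` the symbol `cut 1 η e^{2π i t|η|} jm (-ε) η` is the Fourier transform of an integrable kernel with `‖k_t‖₁ ≤ C`
(split `e^{2π i t|η|} = 1 + Σ_j ann (2^{-j}) (e^{..} - 1)`, each piece `O(2^{-j})` in `L¹` by scaling; or regularise `|η|` by `√(|η|² + σ²)` and use `‖k‖₁ ≤ C ‖(1 - Δ) m‖₂` + Fatou);
then Young in `x` for each `t` and integrate over `t ∈ [1,2]`. -/
theorem ls_low (ε : ℝ) (hε : 0 < ε) :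
    ∃ C : ℝ, 0 ≤ C ∧ ∀ h : 𝓢(E3, ℂ),
      eLpNorm (wop (fun η => (cut 1 η : ℂ) * (jm (-ε) η : ℂ)) h) 3 stμ ≤ ENNReal.ofReal C * eLpNorm h 3 volume :=
  ls_lw_low ε hε

theorem ls_t4_wsym_norm (t : ℝ) (η : E3) : ‖wsym t η‖ = 1 := by
  unfold wsym
  have : (2 * Real.pi * Complex.I * ((t * ‖η‖ : ℝ) : ℂ)) = ((2 * Real.pi * (t * ‖η‖) : ℝ) : ℂ) * Complex.I := by
    push_cast; ring
  rw [this, Complex.norm_exp_ofReal_mul_I]

theorem ls_t4_wsym_cont : Continuous fun p : ℝ × E3 => wsym p.1 p.2 := by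
  unfold wsym
  fun_prop

theorem ls_t4_fou_int (g : 𝓢(E3, ℂ)) : Integrable (𝓕 (g : E3 → ℂ)) := by
  rw [← SchwartzMap.fourier_coe]
  exact (𝓕 g).integrable

theorem ls_t4_fou_cont (g : 𝓢(E3, ℂ)) : Continuous (𝓕 (g : E3 → ℂ)) := by
  rw [← SchwartzMap.fourier_coe]
  exact (𝓕 g).continuous

theorem ls_t4_char_cont : Continuous fun p : E3 × E3 => 𝐞 (inner ℝ p.1 p.2) :=
  Real.continuous_fourierChar.comp continuous_inner

theorem ls_t4_char_int {F : E3 → ℂ} (hF : Integrable F) (x : E3) : Integrable fun η : E3 => 𝐞 (inner ℝ η x) • F η := by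
  refine hF.norm.mono' ?_ (Eventually.of_forall fun η => by rw [Circle.norm_smul])
  exact (ls_t4_char_cont.comp (continuous_id.prodMk continuous_const)).aestronglyMeasurable.smul hF.aestronglyMeasurable

/-- integrability of the integrand of `wop` -/
theorem ls_t4_int (m : E3 → ℂ) (hm : Continuous m) (M : ℝ) (hM : ∀ η, ‖m η‖ ≤ M) (g : 𝓢(E3, ℂ)) (t : ℝ) :
    Integrable fun η : E3 => wsym t η * (m η * 𝓕 (g : E3 → ℂ) η) := by
  have hc : Continuous fun η : E3 => wsym t η * (m η * 𝓕 (g : E3 → ℂ) η) :=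
    (ls_t4_wsym_cont.comp (continuous_const.prodMk continuous_id)).mul (hm.mul (ls_t4_fou_cont g))
  refine ((ls_t4_fou_int g).norm.const_mul M).mono' hc.aestronglyMeasurable (Eventually.of_forall fun η => ?_)
  rw [norm_mul, norm_mul, ls_t4_wsym_norm, one_mul]
  exact mul_le_mul_of_nonneg_right (hM η) (norm_nonneg _)

/-- **(T5)**   PLAN: `𝓕⁻ F x = ∫ e^{2π i <η, x>} F η`; `continuous_of_dominated` with the bound `M ‖𝓕 g η‖` (integrable: `𝓕 g` is Schwartz). -/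
theorem ls_wop_cont (m : E3 → ℂ) (hm : Continuous m) (M : ℝ) (hM : ∀ η, ‖m η‖ ≤ M) (g : 𝓢(E3, ℂ)) :
    Continuous (wop m g) := by
  have e : wop m g = fun z : E3 × ℝ => ∫ η : E3, 𝐞 (inner ℝ η z.1) • (wsym z.2 η * (m η * 𝓕 (g : E3 → ℂ) η)) := by
    funext z
    unfold wop
    rw [Real.fourierInv_eq]
  rw [e]
  refine continuous_of_dominated (bound := fun η => M * ‖𝓕 (g : E3 → ℂ) η‖) (fun z => ?_) (fun z => ?_)
    ((ls_t4_fou_int g).norm.const_mul M) (Eventually.of_forall fun η => ?_)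
  · have hc : Continuous fun η : E3 => 𝐞 (inner ℝ η z.1) • (wsym z.2 η * (m η * 𝓕 (g : E3 → ℂ) η)) := by
      refine Continuous.smul ?_ ((ls_t4_wsym_cont.comp (continuous_const.prodMk continuous_id)).mul
        (hm.mul (ls_t4_fou_cont g)))
      exact continuous_subtype_val.comp (ls_t4_char_cont.comp (continuous_id.prodMk continuous_const))
    exact hc.aestronglyMeasurable
  · refine Eventually.of_forall fun η => ?_
    rw [Circle.norm_smul, norm_mul, norm_mul, ls_t4_wsym_norm, one_mul]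
    exact mul_le_mul_of_nonneg_right (hM η) (norm_nonneg _)
  · refine Continuous.smul ?_ (Continuous.mul ?_ continuous_const)
    · exact continuous_subtype_val.comp (ls_t4_char_cont.comp (continuous_const.prodMk continuous_fst))
    · exact ls_t4_wsym_cont.comp (continuous_snd.prodMk continuous_const)

/-- **(T4a)** linearity in the symbol -/
theorem ls_wop_add (m₁ m₂ : E3 → ℂ) (h₁ : Continuous m₁) (h₂ : Continuous m₂) (M : ℝ) (hM₁ : ∀ η, ‖m₁ η‖ ≤ M)
    (hM₂ : ∀ η, ‖m₂ η‖ ≤ M) (g : 𝓢(E3, ℂ)) (z : E3 × ℝ) :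
    wop (fun η => m₁ η + m₂ η) g z = wop m₁ g z + wop m₂ g z := by
  unfold wop
  rw [Real.fourierInv_eq, Real.fourierInv_eq, Real.fourierInv_eq, ← integral_add]
  · refine integral_congr_ae (Eventually.of_forall fun η => ?_)
    simp only
    rw [← smul_add]
    congr 1
    ring
  · exact ls_t4_char_int (ls_t4_int m₁ h₁ M hM₁ g z.2) z.1
  · exact ls_t4_char_int (ls_t4_int m₂ h₂ M hM₂ g z.2) z.1

theorem ls_t4_cut_one {s : ℝ} (hs : 0 < s) {η : E3} (h : ‖η‖ ^ 2 ≤ s ^ 2) : cut s η = 1 := by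
  unfold cut
  apply Real.smoothTransition.one_of_one_le
  have : ‖η‖ ^ 2 / s ^ 2 ≤ 1 := (div_le_one (by positivity)).2 h
  linarith

theorem ls_t4_cut_zero {s : ℝ} (hs : 0 < s) {η : E3} (h : 2 * s ^ 2 ≤ ‖η‖ ^ 2) : cut s η = 0 := by
  unfold cut
  apply Real.smoothTransition.zero_of_nonpos
  have : 2 ≤ ‖η‖ ^ 2 / s ^ 2 := (le_div_iff₀ (by positivity)).2 h
  linarith

/-- **(T4b)** `fat s = 1` on the support of `ann s` -/
theorem ls_fat_ann (s : ℝ) (hs : 0 < s) (η : E3) : fat s η * ann s η = ann s η := by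
  by_cases h1 : ‖η‖ ^ 2 ≤ s ^ 2
  · have : ann s η = 0 := by
      unfold ann
      rw [ls_t4_cut_one hs h1, ls_t4_cut_one (by positivity) (by nlinarith)]
      ring
    rw [this, mul_zero]
  by_cases h2 : 8 * s ^ 2 ≤ ‖η‖ ^ 2
  · have : ann s η = 0 := by
      unfold ann
      rw [ls_t4_cut_zero hs (by nlinarith), ls_t4_cut_zero (by positivity) (by nlinarith)]
      ring
    rw [this, mul_zero]
  have : fat s η = 1 := by
    unfold fat
    rw [ls_t4_cut_one (by positivity) (by nlinarith), ls_t4_cut_zero (by positivity) (by nlinarith)]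
    ring
  rw [this, one_mul]

/-- **(T4c)** `|cut| ≤ 1`, continuity -/
theorem ls_mn_cut_bd (s : ℝ) (η : E3) : 0 ≤ cut s η ∧ cut s η ≤ 1 :=
  ⟨Real.smoothTransition.nonneg _, Real.smoothTransition.le_one _⟩

theorem ls_mn_cut_cont (s : ℝ) : Continuous (cut s) := by
  unfold cut
  exact Real.smoothTransition.continuous.comp (by fun_prop)

theorem ls_jm_cont (a : ℝ) : Continuous (jm a) := by
  unfold jm
  refine Continuous.rpow_const (by fun_prop) fun η => Or.inl ?_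
  positivity

theorem ls_jm_bd (ε : ℝ) (hε : 0 ≤ ε) (η : E3) : 0 ≤ jm (-ε) η ∧ jm (-ε) η ≤ 1 := by
  unfold jm
  refine ⟨by positivity, Real.rpow_le_one_of_one_le_of_nonpos ?_ (by linarith)⟩
  have : 0 ≤ 4 * Real.pi ^ 2 * ‖η‖ ^ 2 := by positivity
  linarith

/-- **(T4d)** dominated convergence: the truncations converge to the half wave -/
theorem ls_tendsto (ε : ℝ) (f h : 𝓢(E3, ℂ))
    (hF : ∀ η : E3, 𝓕 (f : E3 → ℂ) η = (jm (-ε) η : ℂ) * 𝓕 (h : E3 → ℂ) η) (z : E3 × ℝ) :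
    Tendsto (fun N : ℕ => wop (fun η => (cut (2 ^ N) η : ℂ) * (jm (-ε) η : ℂ)) h z) atTop
      (𝓝 (halfWave f z.2 z.1)) := by
  have e1 : ∀ N : ℕ, wop (fun η => (cut (2 ^ N) η : ℂ) * (jm (-ε) η : ℂ)) h z
      = ∫ η : E3, 𝐞 (inner ℝ η z.1) • (wsym z.2 η * ((cut (2 ^ N) η : ℂ) * 𝓕 (f : E3 → ℂ) η)) := by
    intro N
    unfold wop
    rw [Real.fourierInv_eq]
    refine integral_congr_ae (Eventually.of_forall fun η => ?_)
    simp only
    rw [hF η, mul_assoc]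
  have e2 : halfWave f z.2 z.1 = ∫ η : E3, 𝐞 (inner ℝ η z.1) • (wsym z.2 η * 𝓕 (f : E3 → ℂ) η) := by
    unfold halfWave
    rw [Real.fourierInv_eq]
    rfl
  simp only [e1]
  rw [e2]
  refine tendsto_integral_of_dominated_convergence (fun η => ‖𝓕 (f : E3 → ℂ) η‖) (fun N => ?_)
    (ls_t4_fou_int f).norm (fun N => Eventually.of_forall fun η => ?_) (Eventually.of_forall fun η => ?_)
  · have hc : Continuous fun η : E3 => 𝐞 (inner ℝ η z.1) • (wsym z.2 η * ((cut (2 ^ N) η : ℂ) * 𝓕 (f : E3 → ℂ) η)) := by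
      refine Continuous.smul ?_ ((ls_t4_wsym_cont.comp (continuous_const.prodMk continuous_id)).mul
        ((Complex.continuous_ofReal.comp (ls_mn_cut_cont _)).mul (ls_t4_fou_cont f)))
      exact continuous_subtype_val.comp (ls_t4_char_cont.comp (continuous_id.prodMk continuous_const))
    exact hc.aestronglyMeasurable
  · rw [Circle.norm_smul, norm_mul, norm_mul, ls_t4_wsym_norm, one_mul, Complex.norm_real, Real.norm_eq_abs,
      abs_of_nonneg (ls_mn_cut_bd _ η).1]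
    exact mul_le_of_le_one_left (norm_nonneg _) (ls_mn_cut_bd _ η).2
  · refine tendsto_const_nhds.congr' ?_
    have hN : ∀ᶠ N : ℕ in atTop, ‖η‖ ≤ (2 : ℝ) ^ N :=
      (tendsto_pow_atTop_atTop_of_one_lt (by norm_num : (1 : ℝ) < 2)).eventually_ge_atTop ‖η‖
    filter_upwards [hN] with N hN
    rw [ls_t4_cut_one (by positivity) (pow_le_pow_left₀ (norm_nonneg _) hN 2)]
    simp

/-- the truncation at `2^N` = low part + the annuli -/
theorem ls_telescope (ε : ℝ) (hε : 0 ≤ ε) (h : 𝓢(E3, ℂ)) (z : E3 × ℝ) (N : ℕ) :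
    wop (fun η => (cut (2 ^ N) η : ℂ) * (jm (-ε) η : ℂ)) h z
      = wop (fun η => (cut 1 η : ℂ) * (jm (-ε) η : ℂ)) h z
        + ∑ n ∈ Finset.range N, wop (fun η => (ann (2 ^ n) η : ℂ) * (jm (-ε) η : ℂ)) h z := by
  have hjc : Continuous fun η : E3 => (jm (-ε) η : ℂ) := Complex.continuous_ofReal.comp (ls_jm_cont _)
  have hcc : ∀ s : ℝ, Continuous fun η : E3 => (cut s η : ℂ) := fun s =>
    Complex.continuous_ofReal.comp (ls_mn_cut_cont s)
  have hb1 : ∀ (s : ℝ) (η : E3), ‖(cut s η : ℂ) * (jm (-ε) η : ℂ)‖ ≤ 2 := by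
    intro s η
    rw [norm_mul, Complex.norm_real, Complex.norm_real, Real.norm_eq_abs, Real.norm_eq_abs,
      abs_of_nonneg (ls_mn_cut_bd s η).1, abs_of_nonneg (ls_jm_bd ε hε η).1]
    nlinarith [(ls_mn_cut_bd s η).1, (ls_mn_cut_bd s η).2, (ls_jm_bd ε hε η).1, (ls_jm_bd ε hε η).2]
  have hb2 : ∀ (s : ℝ) (η : E3), ‖(ann s η : ℂ) * (jm (-ε) η : ℂ)‖ ≤ 2 := by
    intro s η
    rw [norm_mul, Complex.norm_real, Complex.norm_real, Real.norm_eq_abs, Real.norm_eq_abs,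
      abs_of_nonneg (ls_jm_bd ε hε η).1]
    have : |ann s η| ≤ 1 := by
      unfold ann
      rw [abs_le]
      constructor <;> linarith [(ls_mn_cut_bd s η).1, (ls_mn_cut_bd s η).2, (ls_mn_cut_bd (2 * s) η).1, (ls_mn_cut_bd (2 * s) η).2]
    nlinarith [abs_nonneg (ann s η), (ls_jm_bd ε hε η).1, (ls_jm_bd ε hε η).2]
  induction N with
  | zero => simp
  | succ N ih =>
    rw [Finset.sum_range_succ, ← add_assoc, ← ih]
    have hac : Continuous fun η : E3 => (ann (2 ^ N) η : ℂ) :=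
      Complex.continuous_ofReal.comp (by unfold ann; exact (ls_mn_cut_cont _).sub (ls_mn_cut_cont _))
    have key := ls_wop_add (fun η => (cut (2 ^ N) η : ℂ) * (jm (-ε) η : ℂ))
      (fun η => (ann (2 ^ N) η : ℂ) * (jm (-ε) η : ℂ)) ((hcc _).mul hjc) (hac.mul hjc) 2 (hb1 _) (hb2 _) h z
    rw [← key]
    congr 1
    funext η
    unfold ann
    rw [pow_succ, mul_comm ((2 : ℝ) ^ N) 2]
    push_cast
    ring

/-- **L1 : `Annular ⟹` Theorem main** -/
theorem ls_main (hA : Annular) (ε : ℝ) (hε : 0 < ε) :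
    ∃ C : ℝ, ∀ f : 𝓢(E3, ℂ),
      eLpNorm (fun z : E3 × ℝ => halfWave f z.2 z.1) 3 stμ
        ≤ ENNReal.ofReal C * eLpNorm (besselPotential ε f) 3 volume := by
  obtain ⟨CA, hCA⟩ := hA (ε / 2) (by positivity)
  obtain ⟨CP, hCP0, hP⟩ := ls_piece ε hε
  obtain ⟨CL, hCL0, hL⟩ := ls_low ε hε
  obtain ⟨q, hq⟩ : ∃ q : ℝ, q = 2 ^ (-(ε / 2)) := ⟨_, rfl⟩
  have hq0 : 0 < q := by rw [hq]; positivity
  have hq1 : q < 1 := by
    rw [hq]
    exact Real.rpow_lt_one_of_one_lt_of_neg (by norm_num) (by linarith)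
  refine ⟨CL + |CA| * CP / (1 - q), fun f => ?_⟩
  obtain ⟨h, hh, hF⟩ := ls_bessel ε f
  rw [← hh]
  choose g hg1 hg2 using fun n => hP n h
  have hjc : Continuous fun η : E3 => (jm (-ε) η : ℂ) := Complex.continuous_ofReal.comp (ls_jm_cont _)
  -- one annulus
  have hid : ∀ n, wop (fun η => (fat (2 ^ n) η : ℂ)) (g n) = wop (fun η => (ann (2 ^ n) η : ℂ) * (jm (-ε) η : ℂ)) h := by
    intro n
    funext z
    unfold wop
    have e : (fun η : E3 => wsym z.2 η * ((fat (2 ^ n) η : ℂ) * 𝓕 (g n : E3 → ℂ) η))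
        = fun η : E3 => wsym z.2 η * ((ann (2 ^ n) η : ℂ) * (jm (-ε) η : ℂ) * 𝓕 (h : E3 → ℂ) η) := by
      funext η
      rw [hg1 n η, ← mul_assoc (fat (2 ^ n) η : ℂ), ← Complex.ofReal_mul, ls_fat_ann _ (by positivity)]
      ring
    exact congrArg (fun F : E3 → ℂ => (𝓕⁻ F : E3 → ℂ) z.1) e
  have hterm : ∀ n, eLpNorm (wop (fun η => (ann (2 ^ n) η : ℂ) * (jm (-ε) η : ℂ)) h) 3 stμ
      ≤ ENNReal.ofReal (|CA| * CP * q ^ n) * eLpNorm h 3 volume := by
    intro n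
    rw [← hid n]
    refine (hCA n (g n)).trans ?_
    refine (mul_le_mul' (ENNReal.ofReal_le_ofReal (mul_le_mul_of_nonneg_right (le_abs_self CA) (by positivity)))
      (hg2 n)).trans ?_
    rw [← mul_assoc, ← ENNReal.ofReal_mul (by positivity)]
    refine mul_le_mul' (ENNReal.ofReal_le_ofReal (le_of_eq ?_)) le_rfl
    have e1 : q ^ n = (2 : ℝ) ^ (ε / 2 * n) * 2 ^ (-(ε * n)) := by
      rw [hq, ← Real.rpow_natCast, ← Real.rpow_mul (by norm_num), ← Real.rpow_add (by norm_num)]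
      congr 1
      ring
    rw [e1]
    ring
  have hmeasA : ∀ n, AEStronglyMeasurable (wop (fun η => (ann (2 ^ n) η : ℂ) * (jm (-ε) η : ℂ)) h) stμ := by
    intro n
    rw [← hid n]
    have hfc : Continuous fun η : E3 => (fat (2 ^ n) η : ℂ) :=
      Complex.continuous_ofReal.comp (by unfold fat; exact (ls_mn_cut_cont _).sub (ls_mn_cut_cont _))
    refine (ls_wop_cont (fun η : E3 => (fat (2 ^ n) η : ℂ)) hfc 1 (fun η => ?_) (g n)).aestronglyMeasurable
    rw [Complex.norm_real, Real.norm_eq_abs]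
    unfold fat
    rw [abs_le]
    constructor <;> linarith [(ls_mn_cut_bd (4 * 2 ^ n) η).1, (ls_mn_cut_bd (4 * 2 ^ n) η).2, (ls_mn_cut_bd (2 ^ n / 2) η).1,
      (ls_mn_cut_bd (2 ^ n / 2) η).2]
  have hmeasL : AEStronglyMeasurable (wop (fun η => (cut 1 η : ℂ) * (jm (-ε) η : ℂ)) h) stμ := by
    have hcc : Continuous fun η : E3 => (cut 1 η : ℂ) := Complex.continuous_ofReal.comp (ls_mn_cut_cont 1)
    refine (ls_wop_cont (fun η : E3 => (cut 1 η : ℂ) * (jm (-ε) η : ℂ)) (hcc.mul hjc) 1 (fun η => ?_)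
      h).aestronglyMeasurable
    rw [norm_mul, Complex.norm_real, Complex.norm_real, Real.norm_eq_abs, Real.norm_eq_abs,
      abs_of_nonneg (ls_mn_cut_bd 1 η).1, abs_of_nonneg (ls_jm_bd ε hε.le η).1]
    nlinarith [(ls_mn_cut_bd 1 η).1, (ls_mn_cut_bd 1 η).2, (ls_jm_bd ε hε.le η).1, (ls_jm_bd ε hε.le η).2]
  -- the partial sums
  have hfun : ∀ N : ℕ, wop (fun η => (cut (2 ^ N) η : ℂ) * (jm (-ε) η : ℂ)) h
      = wop (fun η => (cut 1 η : ℂ) * (jm (-ε) η : ℂ)) h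
        + ∑ n ∈ Finset.range N, wop (fun η => (ann (2 ^ n) η : ℂ) * (jm (-ε) η : ℂ)) h := by
    intro N
    funext z
    rw [ls_telescope ε hε.le h z N]
    simp
  have hS : ∀ N : ℕ, eLpNorm (wop (fun η => (cut (2 ^ N) η : ℂ) * (jm (-ε) η : ℂ)) h) 3 stμ
      ≤ ENNReal.ofReal (CL + |CA| * CP / (1 - q)) * eLpNorm h 3 volume := by
    intro N
    rw [hfun N]
    have h3 : (1 : ℝ≥0∞) ≤ 3 := by norm_num
    refine (eLpNorm_add_le hmeasL (Finset.aestronglyMeasurable_sum _ fun n _ => hmeasA n) h3).trans ?_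
    refine (add_le_add (hL h) ((eLpNorm_sum_le (fun n _ => hmeasA n) h3).trans
      (Finset.sum_le_sum fun n _ => hterm n))).trans ?_
    rw [← Finset.sum_mul, ← add_mul, ← ENNReal.ofReal_sum_of_nonneg (fun n _ => by positivity),
      ← ENNReal.ofReal_add hCL0 (Finset.sum_nonneg fun n _ => by positivity)]
    refine mul_le_mul' (ENNReal.ofReal_le_ofReal ?_) le_rfl
    have h4 : ∑ n ∈ Finset.range N, |CA| * CP * q ^ n ≤ |CA| * CP / (1 - q) := by
      rw [← Finset.mul_sum, div_eq_mul_inv]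
      refine mul_le_mul_of_nonneg_left ?_ (by positivity)
      rw [← tsum_geometric_of_lt_one hq0.le hq1]
      exact (summable_geometric_of_lt_one hq0.le hq1).sum_le_tsum _ (fun j _ => by positivity)
    linarith
  -- Fatou
  refine (Lp.eLpNorm_lim_le_liminf_eLpNorm (f := fun N : ℕ => wop (fun η => (cut (2 ^ N) η : ℂ) * (jm (-ε) η : ℂ)) h)
    (fun N => ?_) _ (Eventually.of_forall fun z => ls_tendsto ε f h hF z)).trans ?_
  · rw [hfun N]
    exact hmeasL.add (Finset.aestronglyMeasurable_sum _ fun n _ => hmeasA n)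
  · refine (liminf_le_of_frequently_le' (Frequently.of_forall hS))

end Claimed.Agent.R256
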